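import Vale.Agent.P321.Azuma

/-! Averaging and product lemmas. -/

namespace Vale.Agent.P321

open MonoidAlgebra Real

variable {M : Type}

lemma expm1_nat (m : ℕ) (x : ℝ) : m * (exp x - 1) ≤ exp (m * x) - 1 := by
  rcases Nat.eq_zero_or_pos m with h | h
  · simp [h]
  · exact expm1_mul (by exact_mod_cast h) x

variable [Monoid M]

lemma azuma {Q R S A Z : ℕ → Alg M} {α h lam r dA dZ : ℝ} {m : ℕ} (hα : 0 ≤ α) (hh : 0 ≤ h)
    (hdA : 0 ≤ dA) (hdZ : 0 ≤ dZ)
    (hlam : 1 ≤ lam) (hr : 1 ≤ r) (hm : (m : ℝ) ≤ r ^ 2) (hQ0 : Prob (Q 0)) (hS0 : S 0 = 0)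
    (hR : ∀ i < m, Prob (R i)) (hQ : ∀ i < m, Q (i + 1) = Q i * R i)
    (hS : ∀ i < m, S (i + 1) = S i * R i + A i * Z i)
    (hA : ∀ i < m, Dom (A i) (Q i) α dA) (hZ : ∀ i < m, Dom (Z i) (R i) h dZ)
    (hZ0 : ∀ i < m, mass (Z i) = 0) :
    Dom (S m) (Q m) (2 * α * h * lam * r) (m * (dA + dZ) + dst lam) := by
  have hQp : ∀ i ≤ m, Prob (Q i) := by
    intro i
    induction i with
    | zero => exact fun _ => hQ0
    | succ i ih => intro hi; rw [hQ i (by omega)]; exact (ih (by omega)).mul (hR i (by omega))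
  choose! A0 hA0 hA1 using fun i (hi : i < m) => (hA i hi).split (hQp i hi.le).1
  choose! Z1 hZ1 hZ2 hZ3 using fun i (hi : i < m) => (hZ i hi).split0 (hR i hi) (hZ0 i hi)
  let S0 : ℕ → Alg M := fun i => Nat.rec 0 (fun i T => T * R i + A0 i * Z1 i) i
  have H := azuma_exact (Q := Q) (R := R) (S := S0) (A := A0) (Z := Z1) hα
    (show 0 ≤ 2 * h by positivity) hlam (by linarith) hm hQ0 rfl hR hQ (fun _ _ => rfl) hA0 hZ1 hZ2
  have hx := expm1_nonneg (add_nonneg hdA hdZ)
  have key : ∀ i ≤ m, nrm (S i - S0 i) ≤ i * (2 * α * h * (exp (dA + dZ) - 1)) := by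
    intro i
    induction i with
    | zero => intro _; simp [hS0, S0]
    | succ i ih =>
      intro hi
      have hi' : i < m := by omega
      have e : S (i + 1) - S0 (i + 1) =
          (S i - S0 i) * R i + ((A i - A0 i) * Z i + A0 i * (Z i - Z1 i)) := by
        rw [hS i hi']
        change _ - (S0 i * R i + A0 i * Z1 i) = _
        noncomm_ring
      have h1 := nrm_mul_prob_le (S i - S0 i) (hR i hi')
      have h2 := (nrm_mul_le (A i - A0 i) (Z i)).trans
        (mul_le_mul (hA1 i hi') ((hZ i hi').nrm_le (hR i hi')) (nrm_nonneg _)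
          (mul_nonneg hα (expm1_nonneg hdA)))
      have h3 : nrm (A0 i) ≤ α := by
        have := nrm_le (hA0 i hi')
        rwa [mass_smul, (hQp i hi'.le).2, mul_one] at this
      have h4 := (nrm_mul_le (A0 i) (Z i - Z1 i)).trans
        (mul_le_mul h3 (hZ3 i hi') (nrm_nonneg _) hα)
      have h5 := ih hi'.le
      have h6 := nrm_add_le ((A i - A0 i) * Z i) (A0 i * (Z i - Z1 i))
      have h7 := nrm_add_le ((S i - S0 i) * R i) ((A i - A0 i) * Z i + A0 i * (Z i - Z1 i))
      have h8 : (exp dA - 1) * exp dZ + 2 * (exp dZ - 1) ≤ 2 * (exp (dA + dZ) - 1) := by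
        have := expm1_nonneg hdA
        have := exp_pos dZ
        rw [Real.exp_add]; nlinarith
      have h9 := mul_le_mul_of_nonneg_left h8 (mul_nonneg hα hh)
      rw [e]; push_cast
      nlinarith
  rw [show α * (2 * h) * lam * r = 2 * α * h * lam * r by ring] at H
  refine H.perturb (by have := dst_nonneg lam; positivity) ?_
  have h1 := key m le_rfl
  have h2 := expm1_nat m (dA + dZ)
  have h3 := expm1_add (show 0 ≤ m * (dA + dZ) by positivity) (dst_nonneg lam)
  have h4 : 2 * α * h ≤ 2 * α * h * lam * r := by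
    have : 1 ≤ lam * r := by nlinarith
    nlinarith [mul_nonneg hα hh]
  have h5 : 2 * α * h * (m * (exp (dA + dZ) - 1)) ≤
      2 * α * h * lam * r * (exp (m * (dA + dZ)) - 1) :=
    mul_le_mul h4 h2 (by positivity) (by positivity)
  have h6 := mul_le_mul_of_nonneg_left h3 (show 0 ≤ 2 * α * h * lam * r by positivity)
  nlinarith

lemma avgA {Q R Z : Alg M} {A : ℕ → Alg M} {α h lam r dA dZ : ℝ} {m : ℕ} (hα : 0 ≤ α)
    (hdA : 0 ≤ dA) (hlam : 1 ≤ lam) (hr : 1 ≤ r) (hm : (m : ℝ) ≤ r ^ 2) (hQ : Prob Q)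
    (hR : Prob R) (hA : ∀ i < m, Dom (A i) Q α dA) (hZ : Dom Z R h dZ) (hZ0 : mass Z = 0) :
    Dom (∑ k ∈ Finset.range m, A k * R ^ k * Z * R ^ (m - 1 - k)) (Q * R ^ m)
      (2 * α * h * lam * r) (m * (dA + dZ) + dst lam) := by
  refine azuma (Q := fun i => Q * R ^ i) (R := fun _ => R)
    (S := fun i => ∑ k ∈ Finset.range i, A k * R ^ k * Z * R ^ (i - 1 - k))
    (A := fun i => A i * R ^ i) (Z := fun _ => Z) hα hZ.h_nonneg hdA hZ.d_nonneg hlam hr hm
    (by simpa using hQ) (by simp) (fun _ _ => hR) (fun i _ => by rw [pow_succ, mul_assoc])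
    (fun i _ => ?_) (fun i hi => (hA i hi).mul_right hQ (hR.pow i)) (fun _ _ => hZ) fun _ _ => hZ0
  rw [Finset.sum_range_succ, Finset.sum_mul]
  congr 1
  · refine Finset.sum_congr rfl fun k hk => ?_
    rw [Finset.mem_range] at hk
    rw [show i + 1 - 1 - k = (i - 1 - k) + 1 by omega, pow_succ, mul_assoc _ _ R]
  · simp

lemma avg {R Z : Alg M} {h lam r dZ : ℝ} {m : ℕ} (hlam : 1 ≤ lam) (hr : 1 ≤ r)
    (hm : (m : ℝ) ≤ r ^ 2) (hR : Prob R) (hZ : Dom Z R h dZ) (hZ0 : mass Z = 0) :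
    Dom (∑ k ∈ Finset.range m, R ^ k * Z * R ^ (m - 1 - k)) (R ^ m)
      (2 * h * lam * r) (m * dZ + dst lam) := by
  simpa using avgA (Q := 1) (A := fun _ => 1) zero_le_one le_rfl hlam hr hm Prob.one hR
    (fun _ _ => Dom.refl NN.one) hZ hZ0

noncomputable def i1 : Alg M →+* Alg (M × M) := mapDomainRingHom ℝ (MonoidHom.inl M M)
noncomputable def i2 : Alg M →+* Alg (M × M) := mapDomainRingHom ℝ (MonoidHom.inr M M)

lemma i1_eq (A : Alg M) : i1 A = mapDomain (fun t => (t, (1 : M))) A := rfl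
lemma i2_eq (A : Alg M) : i2 A = mapDomain (fun t => ((1 : M), t)) A := rfl

lemma i2_mul_i1 (A B : Alg M) : i2 B * i1 A = i1 A * i2 B := by
  induction A using MonoidAlgebra.induction_linear with
  | zero => simp
  | add a b ha hb => simp only [map_add, mul_add, add_mul, ha, hb]
  | single s r =>
    induction B using MonoidAlgebra.induction_linear with
    | zero => simp
    | add a b ha hb => simp only [map_add, mul_add, add_mul, ha, hb]
    | single t r' => simp [i1_eq, i2_eq, mapDomain_single, single_mul_single, mul_comm]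

lemma push_i1_i2 (A B : Alg M) :
    mapDomain (fun p : M × M => p.1 * p.2) (i1 A * i2 B) = A * B := by
  induction A using MonoidAlgebra.induction_linear with
  | zero => simp
  | add a b ha hb => simp only [map_add, add_mul, mapDomain_add, ha, hb]
  | single s r =>
    induction B using MonoidAlgebra.induction_linear with
    | zero => simp
    | add a b ha hb => simp only [map_add, mul_add, mapDomain_add, ha, hb]
    | single t r' => simp [i1_eq, i2_eq, mapDomain_single, single_mul_single]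

omit [Monoid M] in
lemma mapDomain_finsum {N : Type} (f : M → N) (g : ℕ → Alg M) (s : Finset ℕ) :
    mapDomain f (∑ k ∈ s, g k) = ∑ k ∈ s, mapDomain f (g k) := by
  induction s using Finset.induction_on with
  | empty => simp
  | insert a s ha ih => rw [Finset.sum_insert ha, Finset.sum_insert ha, mapDomain_add, ih]

lemma avgAB {Q Q' R Z : Alg M} {A B : ℕ → Alg M} {α β h lam r dA dB dZ : ℝ} {m : ℕ} (hα : 0 ≤ α)
    (hβ : 0 ≤ β) (hdA : 0 ≤ dA) (hdB : 0 ≤ dB) (hlam : 1 ≤ lam) (hr : 1 ≤ r)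
    (hm : (m : ℝ) ≤ r ^ 2) (hQ : Prob Q) (hQ' : Prob Q')
    (hR : Prob R) (hA : ∀ i < m, Dom (A i) Q α dA) (hB : ∀ i < m, Dom (B i) Q' β dB)
    (hZ : Dom Z R h dZ) (hZ0 : mass Z = 0) :
    Dom (∑ k ∈ Finset.range m, A k * R ^ k * Z * R ^ (m - 1 - k) * B k) (Q * R ^ m * Q')
      (2 * (α * β) * h * lam * r) (m * (dA + dB + dZ) + dst lam) := by
  have h1 : Prob (i1 Q) := hQ.mapDomain _
  have h2 : Prob (i2 Q') := hQ'.mapDomain _
  have H := avgA (Q := i1 Q * i2 Q') (R := i1 R) (Z := i1 Z) (A := fun k => i1 (A k) * i2 (B k))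
    (mul_nonneg hα hβ) (add_nonneg hdA hdB) hlam hr hm (h1.mul h2) (hR.mapDomain _)
    (fun i hi => ((hA i hi).mapDomain _).mul ((hB i hi).mapDomain _) h1 h2) (hZ.mapDomain _)
    (by rw [i1_eq, mass_mapDomain, hZ0])
  have H' := H.mapDomain (fun p : M × M => p.1 * p.2)
  rw [mapDomain_finsum] at H'
  convert H' using 1
  · refine Finset.sum_congr rfl fun k _ => ?_
    rw [← push_i1_i2]
    congr 1
    rw [← map_pow, ← map_pow, mul_assoc (i1 (A k)), mul_assoc (i1 (A k)), mul_assoc (i1 (A k)),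
      mul_assoc (i2 (B k)), mul_assoc (i2 (B k)), ← map_mul, ← map_mul, i2_mul_i1,
      ← mul_assoc (i1 (A k)), ← map_mul]
    simp only [mul_assoc]
  · rw [← push_i1_i2, ← map_pow, mul_assoc, i2_mul_i1, ← mul_assoc, ← map_mul]

lemma nrm_pow_sub_pow {R R' : Alg M} (hR : Prob R) (hR' : Prob R') :
    ∀ m : ℕ, nrm (R' ^ m - R ^ m) ≤ m * nrm (R' - R)
  | 0 => by simp
  | m + 1 => by
    have e : R' ^ (m + 1) - R ^ (m + 1) = (R' ^ m - R ^ m) * R + R' ^ m * (R' - R) := by
      rw [pow_succ, pow_succ]; noncomm_ring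
    have h1 := nrm_mul_prob_le (R' ^ m - R ^ m) hR
    have h2 := nrm_prob_mul_le (R' - R) (hR'.pow m)
    have h3 := nrm_pow_sub_pow hR hR' m
    rw [e]; push_cast
    linarith [nrm_add_le ((R' ^ m - R ^ m) * R) (R' ^ m * (R' - R))]

/-- The product lemma. -/
lemma prod_dom {R R' : Alg M} {h lam r d : ℝ} {m : ℕ} (hlam : 1 ≤ lam) (hr : 1 ≤ r)
    (hm : (m : ℝ) ≤ r ^ 2) (hR : Prob R) (hR' : Prob R') (H : Dom (R' - R) R h d)
    (hs : 4 * h * lam * r ≤ 1) :
    Dom (R' ^ m - R ^ m) (R ^ m) (4 * h * lam * r) ((m + 1) * (d + dst lam)) := by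
  have h0 := H.h_nonneg
  have hd := H.d_nonneg
  have hds := dst_nonneg lam
  have hlr : 1 ≤ lam * r := by nlinarith
  have hh : 4 * h ≤ 4 * h * lam * r := by nlinarith
  obtain ⟨Z, hZ1, hZ2, hZ3⟩ := H.split0 hR (by rw [mass_sub, hR.2, hR'.2, sub_self])
  have hR2 : Prob (R + Z) := by
    refine ⟨fun t => ?_, by rw [mass_add, hR.2, hZ2, add_zero]⟩
    have h1 := (neg_le_abs _).trans (hZ1 t)
    have h2 := hR.1 t
    simp only [coeff_smul, Finsupp.smul_apply, smul_eq_mul, coeff_add, Finsupp.add_apply] at h1 ⊢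
    nlinarith
  let V : ℕ → Alg M := fun i =>
    Nat.rec 1 (fun i T => T * R + clamp T ((2 : ℝ) • R ^ i) * Z) i
  have hV : ∀ i, V (i + 1) = V i * R + clamp (V i) ((2 : ℝ) • R ^ i) * Z := fun _ => rfl
  have key : ∀ i ≤ m, Dom (V i - R ^ i) (R ^ i) (4 * h * lam * r) (dst lam) := by
    intro i hi
    have := azuma_exact (Q := fun i => R ^ i) (R := fun _ => R) (S := fun i => V i - R ^ i)
      (A := fun i => clamp (V i) ((2 : ℝ) • R ^ i)) (Z := fun _ => Z) (m := i) (r := r)
      (show (0 : ℝ) ≤ 2 by norm_num) (show 0 ≤ 2 * h by positivity) hlam (by linarith)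
      (le_trans (by exact_mod_cast hi) hm) (by simpa using Prob.one) (by simp [V])
      (fun _ _ => hR) (fun i _ => pow_succ _ _)
      (fun i _ => by rw [hV, pow_succ]; noncomm_ring)
      (fun i _ => clamp_absLe _ ((hR.pow i).1.smul (by norm_num))) (fun _ _ => hZ1) fun _ _ => hZ2
    rwa [show 2 * (2 * h) * lam * r = 4 * h * lam * r by ring] at this
  set θ := 4 * h * lam * r with hθ
  have hθ0 : 0 ≤ θ := by positivity
  have hcl : ∀ i ≤ m, nrm (V i - clamp (V i) ((2 : ℝ) • R ^ i)) ≤ θ * (exp (dst lam) - 1) := by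
    intro i hi
    obtain ⟨-, -, E, hE, hm', hZ⟩ := key i hi
    refine (nrm_le (sub_clamp_absLe ((hR.pow i).1.smul (by norm_num)) hE fun t => ?_)).trans hm'
    have h1 := hZ t
    have h2 := (hR.pow i).1 t
    simp only [coeff_smul, Finsupp.smul_apply, smul_eq_mul, coeff_add, Finsupp.add_apply,
      coeff_sub, Finsupp.sub_apply, abs_le] at h1 ⊢
    constructor <;> nlinarith [h1.1, h1.2]
  have hZn : nrm Z ≤ 1 := by
    have := nrm_le hZ1
    rw [mass_smul, hR.2] at this
    linarith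
  have key2 : ∀ i ≤ m, nrm ((R + Z) ^ i - V i) ≤ i * (θ * (exp (dst lam) - 1)) := by
    intro i
    induction i with
    | zero => intro _; simp [V]
    | succ i ih =>
      intro hi
      have e : (R + Z) ^ (i + 1) - V (i + 1) =
          ((R + Z) ^ i - V i) * (R + Z) + (V i - clamp (V i) ((2 : ℝ) • R ^ i)) * Z := by
        rw [hV, pow_succ]; noncomm_ring
      have h1 := nrm_mul_prob_le ((R + Z) ^ i - V i) hR2
      have h2 := (nrm_mul_le (V i - clamp (V i) ((2 : ℝ) • R ^ i)) Z).trans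
        (mul_le_mul (hcl i (by omega)) hZn (nrm_nonneg _)
          (mul_nonneg hθ0 (expm1_nonneg hds)))
      have h3 := ih (by omega)
      rw [e]; push_cast
      linarith [nrm_add_le (((R + Z) ^ i - V i) * (R + Z))
        ((V i - clamp (V i) ((2 : ℝ) • R ^ i)) * Z)]
  refine (key m le_rfl).perturb (by positivity) ?_
  have h1 := key2 m le_rfl
  have h2 := nrm_pow_sub_pow hR2 hR' m
  rw [show R' - (R + Z) = R' - R - Z by abel] at h2
  have h3 := nrm_add_le (R' ^ m - (R + Z) ^ m) ((R + Z) ^ m - V m)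
  rw [show R' ^ m - R ^ m - (V m - R ^ m) = (R' ^ m - (R + Z) ^ m) + ((R + Z) ^ m - V m) by abel]
  have h4 : (m : ℝ) * nrm (R' - R - Z) ≤ m * (θ * (exp d - 1)) := by
    refine mul_le_mul_of_nonneg_left (hZ3.trans ?_) (Nat.cast_nonneg _)
    exact mul_le_mul_of_nonneg_right (by linarith) (expm1_nonneg hd)
  have h5 := expm1_nat (m + 1) (d + dst lam)
  have h6 := expm1_add hd hds
  have h7 := expm1_nonneg hd
  have h8 : θ * ((m + 1) * ((exp d - 1) + (exp (dst lam) - 1))) ≤
      θ * (exp ((m + 1) * (d + dst lam)) - 1) := by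
    refine mul_le_mul_of_nonneg_left ?_ hθ0
    push_cast at h5
    exact (mul_le_mul_of_nonneg_left h6 (by positivity)).trans h5
  nlinarith [mul_nonneg hθ0 h7]

end Vale.Agent.P321
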