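import Vale.Agent.P321.Dom

/-! An Azuma-type inequality in the domination calculus. -/

namespace Vale.Agent.P321

open MonoidAlgebra Real

variable {M : Type}

/-- Reweighting a measure by a density. -/
noncomputable def wt (Q : Alg M) (φ : M → ℝ) : Alg M :=
  ofCoeff (Finsupp.onFinset Q.coeff.support (fun t => Q.coeff t * φ t) (fun t h => by
    rw [Finsupp.mem_support_iff]; exact left_ne_zero_of_mul h))

@[simp] lemma coeff_wt (Q : Alg M) (φ : M → ℝ) (t : M) : (wt Q φ).coeff t = Q.coeff t * φ t := by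
  simp [wt]

lemma pair_wt (Q : Alg M) (φ g : M → ℝ) : pair (wt Q φ) g = pair Q fun t => φ t * g t := by
  have h : (wt Q φ).coeff.support ⊆ Q.coeff.support := fun t ht => by
    rw [Finsupp.mem_support_iff, coeff_wt] at ht
    exact Finsupp.mem_support_iff.2 (left_ne_zero_of_mul ht)
  rw [pair_eq_sum (wt Q φ) _ Q.coeff.support h, pair_eq_sum Q _ _ subset_rfl]
  simp [mul_assoc]

lemma mass_wt (Q : Alg M) (φ : M → ℝ) : mass (wt Q φ) = pair Q φ := by
  simp [mass, pair_wt]

/-- The density of `S` with respect to `Q`. -/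
noncomputable def dens (S Q : Alg M) (t : M) : ℝ := S.coeff t / Q.coeff t

lemma mul_dens {S Q : Alg M} {c : ℝ} (h : AbsLe S (c • Q)) (t : M) :
    Q.coeff t * dens S Q t = S.coeff t := by
  by_cases h0 : Q.coeff t = 0
  · have := h t
    simp only [coeff_smul, Finsupp.smul_apply, h0, smul_zero, abs_nonpos_iff] at this
    simp [h0, this]
  · rw [dens]; field_simp

lemma eq_wt_dens {S Q : Alg M} {c : ℝ} (h : AbsLe S (c • Q)) : S = wt Q (dens S Q) := by
  ext t; simp [mul_dens h]

lemma pair_dens {S Q : Alg M} {c : ℝ} (h : AbsLe S (c • Q)) (g : M → ℝ) :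
    pair S g = pair Q fun t => dens S Q t * g t := by
  conv_lhs => rw [eq_wt_dens h]
  exact pair_wt _ _ _

lemma abs_dens_le {S Q : Alg M} {c : ℝ} (hQ : NN Q) (hc : 0 ≤ c) (h : AbsLe S (c • Q)) (t : M) :
    |dens S Q t| ≤ c := by
  rcases (hQ t).eq_or_lt with h0 | h0
  · simp [dens, ← h0, hc]
  · have := h t
    simp only [coeff_smul, Finsupp.smul_apply, smul_eq_mul] at this
    rw [dens, abs_div, abs_of_pos h0, div_le_iff₀ h0]
    exact this

lemma exp_le_chord {u v : ℝ} (h : |u| ≤ v) : exp u ≤ cosh v + u * (sinh v / v) := by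
  rcases ((abs_nonneg u).trans h).eq_or_lt with h0 | h0
  · subst h0
    have : u = 0 := by simpa using h
    simp [this]
  · obtain ⟨h1, h2⟩ := abs_le.1 h
    have ha : 0 ≤ (v - u) / (2 * v) := div_nonneg (by linarith) (by linarith)
    have hb : 0 ≤ (v + u) / (2 * v) := div_nonneg (by linarith) (by linarith)
    have hab : (v - u) / (2 * v) + (v + u) / (2 * v) = 1 := by field_simp; ring
    have := convexOn_exp.2 (Set.mem_univ (-v)) (Set.mem_univ v) ha hb hab
    simp only [smul_eq_mul] at this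
    have e1 : (v - u) / (2 * v) * -v + (v + u) / (2 * v) * v = u := by field_simp; ring
    rw [e1] at this
    refine this.trans (le_of_eq ?_)
    rw [Real.cosh_eq, Real.sinh_eq]; field_simp; ring

lemma hoeffding_one {R : Alg M} (hR : Prob R) {f : M → ℝ} {c v : ℝ} (hf : ∀ t, |c * f t| ≤ v)
    (h0 : pair R f = 0) : pair R (fun t => exp (c * f t)) ≤ exp (v ^ 2 / 2) := by
  have h1 : pair R (fun t => exp (c * f t)) ≤
      pair R (fun t => cosh v + (c * (sinh v / v)) * f t) :=
    pair_mono hR.1 fun t => (exp_le_chord (hf t)).trans (le_of_eq (by ring))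
  rw [pair_add_fun, pair_const, pair_const_mul, h0, hR.2] at h1
  have := Real.cosh_le_exp_half_sq v
  linarith

noncomputable def mgf (S Q : Alg M) (s : ℝ) : ℝ := pair Q fun t => exp (s * dens S Q t)

lemma dom_of_mgf {S Q : Alg M} (hQ : NN Q) {c v lam : ℝ} (hS : AbsLe S (c • Q)) (hv : 0 < v)
    (hlam : 1 ≤ lam) (h : ∀ s, mgf S Q s ≤ exp (s ^ 2 * v ^ 2 / 2)) :
    Dom S Q (lam * v) (2 * exp (-lam ^ 2 / 2)) := by
  have hθ : 0 ≤ lam * v := by positivity
  have hc := clamp_absLe S (hQ.smul hθ)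
  refine (Dom.of_absLe hθ hc).perturb (by positivity) ?_
  set s := lam / v with hs
  have hs0 : 0 < s := by positivity
  have h1 : AbsLe (S - clamp S ((lam * v) • Q))
      (wt Q fun t => (exp (s * dens S Q t) + exp (-s * dens S Q t)) * (exp (-lam ^ 2) / s)) := by
    intro t
    have h2 := mul_dens hS t
    have h3 := hQ t
    simp only [coeff_sub, Finsupp.sub_apply, coeff_clamp, coeff_smul, Finsupp.smul_apply,
      smul_eq_mul, coeff_wt]
    set x := dens S Q t
    set y := Q.coeff t
    rw [← h2]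
    have key : ∀ z : ℝ, z - lam * v ≤ exp (s * z) * (exp (-lam ^ 2) / s) := by
      intro z
      rw [← mul_div_assoc, ← Real.exp_add, le_div_iff₀ hs0]
      have := Real.add_one_le_exp (s * z + -lam ^ 2)
      have e : (z - lam * v) * s = s * z + -lam ^ 2 := by rw [hs]; field_simp; ring
      linarith
    have k1 := mul_le_mul_of_nonneg_left (key x) h3
    have k2 := mul_le_mul_of_nonneg_left (key (-x)) h3
    have p1 : 0 ≤ y * (exp (s * x) * (exp (-lam ^ 2) / s)) := by positivity
    have p2 : 0 ≤ y * (exp (s * -x) * (exp (-lam ^ 2) / s)) := by positivity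
    have p3 : 0 ≤ lam * v * y := by positivity
    rw [show -s * x = s * -x by ring, add_mul, mul_add, abs_le]
    rcases le_total (y * x) (lam * v * y) with h4 | h4
    · rw [min_eq_left h4]
      rcases le_total (-(lam * v * y)) (y * x) with h5 | h5
      · rw [max_eq_right h5]; constructor <;> linarith
      · rw [max_eq_left h5]; constructor <;> nlinarith
    · rw [min_eq_right h4, max_eq_right (by linarith)]; constructor <;> nlinarith
  have h2 := nrm_le h1
  rw [mass_wt] at h2
  have h3 : pair Q (fun t => (exp (s * dens S Q t) + exp (-s * dens S Q t)) * (exp (-lam ^ 2) / s))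
      = (exp (-lam ^ 2) / s) * (mgf S Q s + mgf S Q (-s)) := by
    rw [mgf, mgf, ← pair_add_fun, ← pair_const_mul]
    congr 1; funext t; ring
  have h4 := h s
  have h5 := h (-s)
  have e : s ^ 2 * v ^ 2 / 2 = lam ^ 2 / 2 := by rw [hs]; field_simp
  rw [neg_sq] at h5
  rw [e] at h4 h5
  have h6 : exp (-lam ^ 2) / s * (mgf S Q s + mgf S Q (-s)) ≤
      exp (-lam ^ 2) / s * (2 * exp (lam ^ 2 / 2)) :=
    mul_le_mul_of_nonneg_left (by linarith) (by positivity)
  have h7 : exp (-lam ^ 2) / s * (2 * exp (lam ^ 2 / 2)) = v / lam * (2 * exp (-lam ^ 2 / 2)) := by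
    have : exp (-lam ^ 2) * exp (lam ^ 2 / 2) = exp (-lam ^ 2 / 2) := by
      rw [← Real.exp_add]; congr 1; ring
    rw [← this, hs]; field_simp
  have h8 : v / lam ≤ lam * v := by
    rw [div_le_iff₀ (by linarith)]; nlinarith [mul_pos hv (show 0 < lam by linarith)]
  have h9 := le_expm1 (2 * exp (-lam ^ 2 / 2))
  have h10 : v / lam * (2 * exp (-lam ^ 2 / 2)) ≤ lam * v * (exp (2 * exp (-lam ^ 2 / 2)) - 1) :=
    mul_le_mul h8 h9 (by positivity) hθ
  simp only [Real.exp_zero, sub_self, mul_zero, zero_add]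
  linarith

variable [Monoid M]

lemma mgf_step {Q R S A Z : Alg M} {c α η : ℝ} (hQ : NN Q) (hR : Prob R) (hα : 0 ≤ α) (hη : 0 ≤ η)
    (hS : AbsLe S (c • Q)) (hA : AbsLe A (α • Q)) (hZ : AbsLe Z (η • R)) (hZ0 : mass Z = 0)
    (s : ℝ) : mgf (S * R + A * Z) (Q * R) s ≤ mgf S Q s * exp (s ^ 2 * (α * η) ^ 2 / 2) := by
  have hS' : AbsLe (S * R + A * Z) ((c + α * η) • (Q * R)) := by
    have := (hS.mul hR.1.absLe).add (hA.mul hZ)
    convert this using 1
    simp only [smul_mul_assoc, mul_smul_comm]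
    module
  set y : M → ℝ := fun t => s * dens (S * R + A * Z) (Q * R) t with hy
  have e1 : mgf (S * R + A * Z) (Q * R) s =
      pair (Q * R) (fun t => exp (y t) * (1 - y t)) + s * pair (S * R + A * Z) fun t => exp (y t) := by
    rw [pair_dens hS', ← pair_const_mul, ← pair_add_fun, mgf]
    congr 1; funext t; simp only [hy]; ring
  rw [e1, pair_add, pair_mul, pair_mul, pair_mul, pair_dens hS, pair_dens hA, ← pair_add_fun,
    ← pair_const_mul, ← pair_add_fun, mgf, mul_comm, ← pair_const_mul]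
  refine pair_mono hQ fun t => ?_
  rw [pair_dens hZ]
  have h0 : pair R (dens Z R) = 0 := by
    have := pair_dens hZ fun _ => 1
    simp only [mul_one] at this
    rw [← this]; exact hZ0
  have h1 := hoeffding_one hR (f := dens Z R) (c := s * dens A Q t) (v := |s| * (α * η))
    (fun u => by
      rw [abs_mul, abs_mul, mul_assoc]
      exact mul_le_mul_of_nonneg_left (mul_le_mul (abs_dens_le hQ hα hA t)
        (abs_dens_le hR.1 hη hZ u) (abs_nonneg _) hα) (abs_nonneg _)) h0
  rw [mul_pow, sq_abs] at h1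
  refine le_trans ?_ (mul_le_mul_of_nonneg_right h1 (exp_pos _).le)
  rw [mul_add, ← mul_assoc, ← mul_assoc, ← pair_const_mul, ← pair_const_mul, ← pair_add_fun,
    ← pair_add_fun, mul_comm (pair R _), ← pair_const_mul]
  refine pair_mono hR.1 fun u => ?_
  rw [← Real.exp_add]
  set Y := y (t * u)
  set x := s * dens S Q t + s * dens A Q t * dens Z R u
  have h2 := Real.add_one_le_exp (x - Y)
  have h3 : exp x = exp Y * exp (x - Y) := by rw [← Real.exp_add]; congr 1; ring
  have h4 := mul_le_mul_of_nonneg_left h2 (exp_pos Y).le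
  rw [h3]
  refine le_trans (le_of_eq ?_) h4
  simp only [x]; ring

/-- The tail level. -/
noncomputable def dst (lam : ℝ) : ℝ := 2 * exp (-lam ^ 2 / 2)

omit [Monoid M] in
lemma dst_nonneg (lam : ℝ) : 0 ≤ dst lam := by unfold dst; positivity

/-- Azuma's inequality, exact form. -/
lemma azuma_exact {Q R S A Z : ℕ → Alg M} {α η lam r : ℝ} {m : ℕ} (hα : 0 ≤ α) (hη : 0 ≤ η)
    (hlam : 1 ≤ lam) (hr : 0 ≤ r) (hm : (m : ℝ) ≤ r ^ 2) (hQ0 : Prob (Q 0)) (hS0 : S 0 = 0)
    (hR : ∀ i < m, Prob (R i)) (hQ : ∀ i < m, Q (i + 1) = Q i * R i)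
    (hS : ∀ i < m, S (i + 1) = S i * R i + A i * Z i)
    (hA : ∀ i < m, AbsLe (A i) (α • Q i)) (hZ : ∀ i < m, AbsLe (Z i) (η • R i))
    (hZ0 : ∀ i < m, mass (Z i) = 0) : Dom (S m) (Q m) (α * η * lam * r) (dst lam) := by
  have key : ∀ i ≤ m, Prob (Q i) ∧ AbsLe (S i) ((i * (α * η)) • Q i) ∧
      ∀ s, mgf (S i) (Q i) s ≤ exp (s ^ 2 * (i * (α * η) ^ 2) / 2) := by
    intro i
    induction i with
    | zero =>
      intro _
      refine ⟨hQ0, by rw [hS0]; intro t; simp, fun s => ?_⟩
      simp [mgf, dens, hS0, pair_const, hQ0.2]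
    | succ i ih =>
      intro hi
      obtain ⟨h1, h2, h3⟩ := ih (by omega)
      have hi' : i < m := by omega
      rw [hQ i hi', hS i hi']
      refine ⟨h1.mul (hR i hi'), ?_, fun s => ?_⟩
      · have := (h2.mul (hR i hi').1.absLe).add ((hA i hi').mul (hZ i hi'))
        convert this using 1
        simp only [smul_mul_assoc, mul_smul_comm]
        push_cast
        module
      · refine (mgf_step h1.1 (hR i hi') hα hη h2 (hA i hi') (hZ i hi') (hZ0 i hi') s).trans ?_
        refine (mul_le_mul_of_nonneg_right (h3 s) (exp_pos _).le).trans (le_of_eq ?_)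
        rw [← Real.exp_add]; congr 1; push_cast; ring
  obtain ⟨h1, h2, h3⟩ := key m le_rfl
  have hv : 0 ≤ α * η * r := by positivity
  rcases hv.eq_or_lt with h0 | h0
  · have h4 : (m : ℝ) * (α * η) = 0 := by
      rcases mul_eq_zero.1 h0.symm with h5 | h5
      · simp [h5]
      · have : (m : ℝ) = 0 := le_antisymm (by simpa [h5] using hm) (Nat.cast_nonneg _)
        simp [this]
    rw [h4] at h2
    exact (Dom.of_absLe le_rfl h2).mono h1.1 (by positivity) (dst_nonneg _)
  · have := dom_of_mgf h1.1 h2 h0 hlam fun s => (h3 s).trans (Real.exp_le_exp.2 (by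
      have : (m : ℝ) * (α * η) ^ 2 ≤ (α * η * r) ^ 2 := by
        rw [mul_pow (α * η) r, mul_comm]
        exact mul_le_mul_of_nonneg_left hm (by positivity)
      have := mul_le_mul_of_nonneg_left this (sq_nonneg s)
      linarith))
    rw [show α * η * lam * r = lam * (α * η * r) by ring]
    exact this

end Vale.Agent.P321
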