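import Vale.Agent.P321.Level

/-! The first step of the hierarchy. -/

namespace Vale.Agent.P321

open MonoidAlgebra Real

variable {M : Type} [Monoid M] {X Y : Alg M}

lemma DP.pad (hX : Prob X) {Z : Alg M} {K K' : ℕ} {h d : ℝ}
    (H : DP X (X ^ K * Z * X ^ K) (K + 1 + K) h d) (hK : K ≤ K') :
    DP X (X ^ K' * Z * X ^ K') (K' + 1 + K') h d := by
  obtain ⟨k, rfl⟩ := Nat.exists_eq_add_of_le hK
  refine (H.ctx hX k k).of hX ?_ (by omega) le_rfl le_rfl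
  conv_lhs => arg 1; rw [add_comm, pow_add]
  rw [pow_add X K k]
  noncomm_ring

lemma Str.pad (hX : Prob X) {Z : Alg M} {K K' c lim : ℕ} {κ h d : ℝ} (hκ : 0 ≤ κ)
    (H : Str X c lim κ (X ^ K * Z * X ^ K) (K + 1 + K) h d) (hK : K ≤ K') :
    Str X c lim κ (X ^ K' * Z * X ^ K') (K' + 1 + K') h d := by
  obtain ⟨k, rfl⟩ := Nat.exists_eq_add_of_le hK
  refine (H.ctx hX hκ k k).of hX ?_ (by omega) le_rfl le_rfl
  conv_lhs => arg 1; rw [add_comm, pow_add]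
  rw [pow_add X K k]
  noncomm_ring

lemma Str.elim_pad (hX : Prob X) {Z : Alg M} {K c lim : ℕ} {κ h d : ℝ}
    (H : Str X c lim κ (X ^ K * Z * X ^ K) (K + 1 + K) h d) (hK : K + 1 + K ≤ lim) :
    DP X (X ^ (c + K) * Z * X ^ (c + K)) (c + K + 1 + (c + K)) h d := by
  refine (H.elim hX hK).of hX ?_ (by omega) le_rfl le_rfl
  conv_lhs => arg 2; rw [add_comm]
  rw [pow_add, pow_add]; noncomm_ring

lemma base_slip {l : ℕ} {lam cA : ℝ} (hX : Prob X) (hA : Slip X 0 cA 0) (hlam : 1 ≤ lam)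
    (hL1 : 2 * cA * lam ≤ 2 ^ l) (n : ℕ) : Slip X ((2 ^ l) ^ (2 * n)) (Ep l (1 - n)) (dst lam) :=
  (hA.amp hX hlam (r := (2 ^ l) ^ n) (Nat.one_le_pow _ _ (by positivity))).mono hX
    (le_of_eq (by ring)) (Ep_div_le hL1 n le_rfl) (by simp)

lemma base_iso {l : ℕ} {lam cA h0 : ℝ} (hX : Prob X) (hY : Prob Y) (hA : Slip X 0 cA 0)
    (hlam : 1 ≤ lam) (hL1 : 2 * cA * lam ≤ 2 ^ l) (hl4 : 8 * lam ≤ 2 ^ l) (hh0 : h0 ≤ 2 ^ l)
    (H : DP X (Y - X) 1 h0 0) (y lim : ℕ) (hy : y + 1 ≤ 2 ^ l) :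
    Str X ((2 ^ l) ^ (4 * y + 8)) lim (Ep l (2 * y))
      (X ^ (2 ^ l) ^ (2 * y) * (Y - X) * X ^ (2 ^ l) ^ (2 * y))
      ((2 ^ l) ^ (2 * y) + 1 + (2 ^ l) ^ (2 * y)) (Ep l (2 - y)) (2 ^ l * dst lam) := by
  have hr2 : ((2 ^ l) ^ y) ^ 2 = (2 ^ l) ^ (2 * y) := by rw [← pow_mul, mul_comm]
  have hL2 : (8 : ℝ) ≤ 2 ^ l := by linarith
  have hL2' : 8 ≤ 2 ^ l := by exact_mod_cast hL2
  have h1 := iso (lim := lim) (J := y) (r := (2 ^ l) ^ y) (ν := Ep l (-1)) hX hlam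
    (Nat.one_le_pow _ _ (by positivity)) H (by rw [mass_sub, hX.2, hY.2, sub_self])
    (base_slip hX hA hlam hL1 (2 * y + 3)) (by
      rw [hr2, Ep_nat, Nat.cast_one, mul_one, mul_assoc, ← Ep_add]
      exact Ep_mul_le (by linarith) (by push_cast; omega)) (by
      have : 2 * Ep l (-1) ≤ Ep l 0 := Ep_mul_le (by linarith) (by omega)
      rw [Ep_zero] at this; linarith)
  rw [hr2, mul_one] at h1
  have hκ : (((2 ^ l) ^ y : ℕ) : ℝ) ^ 2 = Ep l (2 * y) := by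
    rw [Ep_nat, Ep_pow]; congr 1; push_cast; ring
  rw [hκ] at h1
  refine (h1.mono_c hX ?_ le_rfl le_rfl).mono hX ?_ ?_
  · have h2 : (2 ^ l) ^ (2 * y) ≤ (2 ^ l) ^ (2 * (2 * y + 3)) := npow_le (by omega)
    have h3 : 2 * (2 ^ l) ^ (2 * (2 * y + 3)) ≤ (2 ^ l) ^ (4 * y + 7) := nmul_le (by omega) (by omega)
    have h4 : y * (2 ^ l) ^ (4 * y + 7) ≤ (2 ^ l) ^ (4 * y + 8) := nmul_le (by omega) (by omega)
    exact le_trans (Nat.mul_le_mul_left _ (by omega)) h4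
  · have h2 : 8 * lam / (((2 ^ l) ^ y : ℕ) : ℝ) ≤ Ep l (1 - y) := Ep_div_le hl4 y le_rfl
    have h3 : 2 * Ep l (-1) ^ y ≤ Ep l (1 - y) := by
      rw [Ep_pow]; exact Ep_mul_le (by linarith) (by omega)
    have h4 : 4 * lam / (((2 ^ l) ^ y : ℕ) : ℝ) + Ep l (-1) ^ y ≤ Ep l (1 - y) := by
      rw [show 8 * lam / (((2 ^ l) ^ y : ℕ) : ℝ) = 2 * (4 * lam / (((2 ^ l) ^ y : ℕ) : ℝ)) by ring]
        at h2
      linarith
    exact (mul_le_mul_of_nonneg_left h4 H.h_nonneg).trans (Ep_mul_le hh0 (by omega))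
  · have : (y : ℝ) + 1 ≤ 2 ^ l := by exact_mod_cast hy
    nlinarith [dst_nonneg lam]

set_option maxHeartbeats 2000000 in
lemma Lev.base {l : ℕ} {lam cA h0 : ℝ} {v β z g : ℕ} (hX : Prob X) (hY : Prob Y)
    (hA : Slip X 0 cA 0) (H : DP X (Y - X) 1 h0 0)
    (hβ : β + 12 = 1200 * v) (hz : z + 1 = 30 * v) (hv : 50 ≤ v) (hl : 8 ≤ l)
    (hlam : 1 ≤ lam) (hL1 : 2 * cA * lam ≤ 2 ^ l) (hl4 : 8 * lam ≤ 2 ^ l) (hh0 : h0 ≤ 2 ^ l)
    (hJ : 42 + 18 * (l * (18 * z)) ≤ 2 ^ l) (hg : nn g 0 = (2 ^ l) ^ (40 * z))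
    (hA1 : Slip (PQ X Y g 0).1 ((2 ^ l) ^ β - 1) cA (Ep l (3700 * v) * dst lam)) :
    Lev l lam cA (PQ X Y g 0).1 (PQ X Y g 0).2 v β 56 := by
  have hP := PQ_prob (g := g) hX hY 0
  have hL256 : 256 ≤ 2 ^ l := by
    have : 2 ^ 8 ≤ 2 ^ l := Nat.pow_le_pow_right (by norm_num) (by omega)
    omega
  have hL256' : (256 : ℝ) ≤ 2 ^ l := by exact_mod_cast hL256
  have hst := dst_nonneg lam
  have hz' : (z : ℤ) + 1 = 30 * v := by exact_mod_cast hz
  have hv' : (50 : ℤ) ≤ v := by exact_mod_cast hv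
  have hzl : 13 * z + 1 ≤ 2 ^ l := by
    have : 18 * z ≤ l * (18 * z) := Nat.le_mul_of_pos_left _ (by omega)
    omega
  obtain ⟨y, hy⟩ : ∃ y, 10 * z = y + 3 := ⟨10 * z - 3, by omega⟩
  obtain ⟨u, hu⟩ : ∃ u, 20 * z = u + 1 := ⟨20 * z - 1, by omega⟩
  obtain ⟨s, hs⟩ : ∃ s, 29 * z = s + 1 := ⟨29 * z - 1, by omega⟩
  have hy' : 10 * (z : ℤ) = y + 3 := by exact_mod_cast hy
  have hu' : 20 * (z : ℤ) = u + 1 := by exact_mod_cast hu
  have hs' : 29 * (z : ℤ) = s + 1 := by exact_mod_cast hs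
  set dW := Ep l (20 * z) * dst lam with hdW
  set J := l * (18 * z) with hJdef
  have hJp : 2 ^ J = (2 ^ l) ^ (18 * z) := pow_mul _ _ _
  have hdd : ∀ {c : ℝ} {k : ℤ}, c ≤ Ep l k → k ≤ 20 * z → c * dst lam ≤ dW := fun hc hk =>
    mul_le_mul_of_nonneg_right (hc.trans (Ep_mono l hk)) hst
  have hd1 : 2 ^ l * dst lam ≤ dW := hdd (Ep_one l).ge (by omega)
  have hd2 : dst lam ≤ dW := by simpa using hdd (Ep_zero l).ge (by omega)
  have hdW0 : 0 ≤ dW := hst.trans hd2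
  set K := (2 ^ l) ^ (2 * u + 1) with hK
  set e := Ep l (2 - y) with he
  have he0 : 0 < e := Ep_pos _ _
  have hL : DP X (X ^ K * (Y - X) * X ^ K) (K + 1 + K) e (2 ^ l * dst lam) := by
    refine DP.pad hX ((base_iso hX hY hA hlam hL1 hl4 hh0 H y _ (by omega)).elim_pad hX le_rfl) ?_
    have h1 : (2 ^ l) ^ (2 * y) ≤ (2 ^ l) ^ (4 * y + 8) := npow_le (by omega)
    have h2 : 2 * (2 ^ l) ^ (4 * y + 8) ≤ (2 ^ l) ^ (2 * u + 1) := nmul_le (by omega) (by omega)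
    omega
  have hG : ∀ lim, Str X ((2 ^ l) ^ (4 * (13 * z) + 8)) lim (Ep l (2 * (13 * z : ℕ)))
      (X ^ K * (Y - X) * X ^ K) (K + 1 + K) (Ep l (2 - (13 * z : ℕ))) dW := fun lim =>
    (Str.pad hX (Ep_pos _ _).le (base_iso hX hY hA hlam hL1 hl4 hh0 H (13 * z) lim hzl)
      (npow_le (by omega))).mono hX le_rfl hd1
  have hg1 : K + (2 ^ l) ^ (2 * u) ≤ g := by
    have h2 : 6 * (2 ^ l) ^ (2 * u + 1) ≤ (2 ^ l) ^ (40 * z) := nmul_le (by omega) (by omega)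
    have h3 : (2 ^ l) ^ (2 * u) ≤ (2 ^ l) ^ (2 * u + 1) := npow_le (by omega)
    have h4 : 1 ≤ (2 ^ l) ^ (2 * u) := Nat.one_le_pow _ _ (by positivity)
    have h5 : nn g 0 = 2 * g + 2 := by simp [nn]
    omega
  have hcell : DP X ((PQ X Y g 0).1 - X ^ nn g 0) (nn g 0) e (2 ^ l * dst lam) := by
    simpa using (W_cells hX (DP.pad hX hL (show K ≤ g by omega)) 0).1
  have hWgen : ∀ (ρ : ℕ) (r : ℝ), 1 ≤ r → (ρ : ℝ) ≤ r ^ 2 → r ≤ Ep l (9 * z + 1) →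
      4 * e * lam * r ≤ Ep l (-1) ∧
      DP X ((PQ X Y g 0).1 ^ ρ - X ^ (nn g 0 * ρ)) (nn g 0 * ρ) (4 * e * lam * r) dW := by
    intro ρ r hr hρ hrE
    have h1 : 4 * e * lam * r ≤ Ep l (-1) := by
      have h2 : 4 * lam * Ep l (2 - y + (9 * z + 1)) ≤ Ep l (-1) :=
        Ep_mul_le (by linarith only [hlam, hl4]) (by omega)
      rw [Ep_add] at h2
      have := mul_le_mul_of_nonneg_left hrE (show 0 ≤ 4 * e * lam by positivity)
      linarith only [h2, this]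
    refine ⟨h1, ?_⟩
    have h3 := prod_dom hlam hr hρ (hX.pow (nn g 0)) hP.1 hcell
      (h1.trans (Ep_le_one l (by omega)))
    rw [← pow_mul] at h3
    refine DP.mono h3 hX le_rfl ?_
    have h4 : r ^ 2 ≤ Ep l ((9 * z + 1) * (2 : ℕ)) := by
      rw [← Ep_pow]; exact pow_le_pow_left₀ (by positivity) hrE 2
    have h5 : 2 * Ep l ((9 * z + 1) * (2 : ℕ)) ≤ Ep l (18 * z + 3) :=
      Ep_mul_le (by linarith) (by push_cast; omega)
    have h6 : 2 ^ l * Ep l (18 * z + 3) ≤ Ep l (18 * z + 4) := Ep_mul_le le_rfl (by omega)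
    have h6' : 2 * Ep l (18 * z + 4) ≤ Ep l (18 * z + 5) := Ep_mul_le (by linarith) (by omega)
    have h7 := hdd h6' (by omega)
    have h8 : (ρ : ℝ) + 1 ≤ Ep l (18 * z + 3) := by
      have := one_le_pow₀ (n := 2) hr
      linarith
    have h9 : 2 ^ l * dst lam + dst lam ≤ 2 ^ l * (2 * dst lam) := by
      have := mul_le_mul_of_nonneg_right hL256' hst
      linarith
    have := mul_le_mul h8 h9 (by positivity) (Ep_pos _ _).le
    have := mul_le_mul_of_nonneg_right h6 hst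
    linarith
  set ω := Ep l (-1) with hω
  have hω0 : 0 < ω := Ep_pos _ _
  have hωL : 2 ^ l * ω ≤ 1 := (Ep_mul_le le_rfl (by omega)).trans (Ep_zero l).le
  have hω2 : ω ≤ 1 / 2 := by nlinarith only [hωL, hω0, hL256']
  have hWall : ∀ ρ ≤ 2 ^ J + 1 + 2 ^ J,
      DP X ((PQ X Y g 0).1 ^ ρ - X ^ (nn g 0 * ρ)) (nn g 0 * ρ) ω dW := by
    intro ρ hρ
    have h2 : 3 * (2 ^ l) ^ (18 * z) ≤ (2 ^ l) ^ (18 * z + 2) := nmul_le (by omega) (by omega)
    have h1 := Nat.one_le_two_pow (n := J)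
    have h3 : (ρ : ℝ) ≤ Ep l (9 * z + 1) ^ 2 := by
      rw [Ep_pow]
      refine le_trans ?_ (Ep_mono l (show ((18 * z + 2 : ℕ) : ℤ) ≤ _ by push_cast; omega))
      rw [← Ep_nat]; exact_mod_cast (show ρ ≤ _ by omega)
    obtain ⟨h4, h5⟩ := hWgen ρ _ (one_le_Ep l (by omega)) h3 le_rfl
    exact h5.mono hX h4 le_rfl
  have hhalf : ∀ k i : ℕ, i ≤ l * (2 * k) → (2 : ℝ) ^ (i / 2 + 1) ≤ Ep l (k + 1) := by
    intro k i hi
    have : 2 ^ (i / 2 + 1) ≤ (2 ^ l) ^ (k + 1) := by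
      rw [← pow_mul]
      refine Nat.pow_le_pow_right (by norm_num) ?_
      rw [← mul_assoc, mul_comm l 2, mul_assoc] at hi
      rw [mul_add]; omega
    rw [show (k + 1 : ℤ) = (k + 1 : ℕ) by push_cast; rfl, ← Ep_nat]
    exact_mod_cast this
  have hWj : ∀ i ≤ J, 4 * e * lam * 2 ^ (i / 2 + 1) ≤ ω ∧
      DP X ((PQ X Y g 0).1 ^ 2 ^ i - X ^ (nn g 0 * 2 ^ i)) (nn g 0 * 2 ^ i)
        (4 * e * lam * 2 ^ (i / 2 + 1)) dW := by
    intro i hi
    refine hWgen _ _ (one_le_pow₀ (by norm_num)) (by push_cast; exact half_pow_le i) ?_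
    simpa using hhalf (9 * z) i (by rwa [show 2 * (9 * z) = 18 * z by ring])
  have hJ' : 42 + 18 * (J : ℝ) ≤ 2 ^ l := by exact_mod_cast hJ
  set ψ := Ep l (8 - 30 * z) with hψ
  have hψ1 : 2 ^ l * (e * Ep l (1 - u)) ≤ ψ := by
    rw [he, ← Ep_add]; exact Ep_mul_le le_rfl (by omega)
  have heτ : 0 < e * Ep l (1 - u) := mul_pos he0 (Ep_pos _ _)
  let S : StepData X Y g 0 J K ψ ω dW :=
    { cg := (2 ^ l) ^ (2 * u)
      τg := Ep l (1 - u)
      cs := fun i => (2 ^ (i / 2) * (2 ^ l) ^ u) ^ 2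
      τ := fun i => 2 * cA * lam / (2 ^ (i / 2) * (2 ^ l) ^ u : ℕ)
      w := fun i => 4 * e * lam * 2 ^ (i / 2 + 1)
      w1 := 0
      hSg := (base_slip hX hA hlam hL1 u).mono hX le_rfl le_rfl hd2
      hcg := hg1
      hS := fun i _ => (hA.amp hX hlam (Nat.one_le_iff_ne_zero.2 (by positivity))).mono hX
        (by simp) le_rfl (by simpa using hd2)
      hcs := fun i _ => by
        have h1 : (2 ^ (i / 2)) ^ 2 ≤ 2 ^ i := by
          rw [← pow_mul]; exact Nat.pow_le_pow_right (by norm_num) (by omega)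
        have h2 : 2 * (2 ^ l) ^ (u * 2) ≤ (2 ^ l) ^ (40 * z) := nmul_le (by omega) (by omega)
        rw [hg]
        calc 2 * (2 ^ (i / 2) * (2 ^ l) ^ u) ^ 2
            = 2 * (2 ^ l) ^ (u * 2) * (2 ^ (i / 2)) ^ 2 := by rw [pow_mul (2 ^ l) u 2]; ring
          _ ≤ _ := Nat.mul_le_mul h2 h1
      hcell := fun t ht => absurd ht (by omega)
      hw10 := le_rfl
      hw1 := zero_le_one
      hW := fun i hi => (hWj i hi).2
      hw := fun i hi => (hWj i hi).1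
      hω := hω2
      hJ := by nlinarith only [hJ', hωL, hω0, Nat.cast_nonneg (α := ℝ) J]
      hψ1 := by rw [zero_mul]; exact (Ep_pos _ _).le
      hψ0 := by norm_num; nlinarith only [hψ1, heτ, hl4]
      hψ := fun i _ => by
        have h0 := Ep_div_le hL1 u (le_refl (1 - (u : ℤ)))
        have h1 : 2 * cA * lam / (2 ^ (i / 2) * (2 ^ l) ^ u : ℕ) ≤ Ep l (1 - u) / 2 ^ (i / 2) := by
          rw [Nat.cast_mul, mul_comm (((2 ^ (i / 2) : ℕ) : ℝ)), ← div_div]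
          push_cast at h0 ⊢
          exact div_le_div_of_nonneg_right h0 (by positivity)
        refine (mul_le_mul_of_nonneg_left h1 (by positivity)).trans ?_
        rw [pow_succ, show 4 * e * lam * (2 ^ (i / 2) * 2) * (Ep l (1 - u) / 2 ^ (i / 2)) =
          8 * lam * (e * Ep l (1 - u)) by field_simp; ring]
        nlinarith only [hψ1, heτ, hl4] }
  have hT := (tiny_gen (g := g) (m := 0) (J := J) hX ((hG _).elim_pad hX le_rfl)
    ((base_slip hX hA hlam hL1 s).mono hX le_rfl le_rfl hd2) le_rfl (by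
      have h1 : (2 ^ l) ^ (4 * (13 * z) + 8) ≤ (2 ^ l) ^ (2 * s) := npow_le (by omega)
      have h2 : (2 ^ l) ^ (2 * u + 1) ≤ (2 ^ l) ^ (2 * s) := npow_le (by omega)
      have h3 : 3 * (2 ^ l) ^ (2 * s) ≤ (2 ^ l) ^ (40 * z + 18 * z) := nmul_le (by omega) (by omega)
      rw [hg, hJp, ← pow_add]
      omega)).mono hX (show _ ≤ 2 * Ep l (4 - 42 * z) by
        rw [pow_zero, mul_one, mul_assoc, ← Ep_add]
        exact mul_le_mul_of_nonneg_left (Ep_mono l (by push_cast; omega)) (by norm_num))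
      (le_of_eq (show _ = ((0 : ℕ) + 2) * dW by push_cast; ring))
  have hp0 : 2 ^ (l * (12 * z + 9)) = (2 ^ l) ^ (12 * z + 9) := pow_mul _ _ _
  have hj0 : l * (12 * z + 9) < J := Nat.mul_lt_mul_of_pos_left (by omega) (by omega)
  have h1 := stepL (wc := Ep l (12 - 4 * z)) hX hY (one_le_Ep l (by positivity)) S
    (hL.mono hX le_rfl hd1) (hG _) hj0
    (by rw [hg, hp0, ← pow_add]; exact nmul_le (by omega) (by omega)) le_rfl hWall (by
      have h1 := hhalf (6 * z + 5) (l * (12 * z + 9)) (Nat.mul_le_mul_left _ (by omega))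
      have h2 : 4 * lam * Ep l (2 - y + ((6 * z + 5 : ℕ) + 1)) ≤ Ep l (12 - 4 * z) :=
        Ep_mul_le (by linarith only [hlam, hl4]) (by push_cast; omega)
      rw [Ep_add] at h2
      have := mul_le_mul_of_nonneg_left h1 (show 0 ≤ 4 * e * lam by positivity)
      change 4 * e * lam * 2 ^ (l * (12 * z + 9) / 2 + 1) ≤ _
      linarith only [h2, this]) hT
  rw [hJp] at h1
  have hGam : Gam 0 J * ψ ≤ Ep l (9 - 30 * z) :=
    Ep_mul_le (by simpa [Gam] using hJ') (by omega)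
  have h2 := (DP.pad hP.1 h1 (npow_le (show 18 * z ≤ β by omega))).mono hP.1
    (show _ ≤ Ep l (-((1203 + (56 : ℕ)) * v)) by
      have k1 : Gam 0 J * ψ * Ep l (2 - (13 * z : ℕ)) ≤ Ep l (4 - 42 * z) := by
        refine (mul_le_mul_of_nonneg_right hGam (Ep_pos _ _).le).trans ?_
        rw [← Ep_add]; exact Ep_mono l (by push_cast; omega)
      have k2 : Gam 0 J * ψ * (Ep l (12 - 4 * z) * e) ≤ Ep l (4 - 42 * z) := by
        refine (mul_le_mul_of_nonneg_right hGam (mul_pos (Ep_pos _ _) he0).le).trans ?_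
        rw [he, ← Ep_add, ← Ep_add]; exact Ep_mono l (by omega)
      have k3 : 38 * Ep l (4 - 42 * z) ≤ Ep l (-((1203 + (56 : ℕ)) * v)) :=
        Ep_mul_le (by linarith only [hL256']) (by push_cast; omega)
      linarith only [k1, k2, k3])
    (show _ ≤ Ep l (3700 * v) * dst lam by
      have k1 : ((0 : ℕ) : ℝ) + 2 * J + 9 ≤ 2 ^ l := by
        push_cast; linarith only [hJ', Nat.cast_nonneg (α := ℝ) J]
      have k2 := mul_le_mul_of_nonneg_left (mul_le_mul_of_nonneg_right k1 hdW0)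
        (Ep_pos l (2 * (13 * z : ℕ))).le
      refine k2.trans ?_
      rw [hdW, ← Ep_one, ← mul_assoc, ← mul_assoc, ← Ep_add, ← Ep_add]
      exact mul_le_mul_of_nonneg_right (Ep_mono l (by push_cast; omega)) hst)
  exact ⟨hP.1, hP.2, hA1, h2.mono hP.1 (Ep_mono l (by push_cast; omega)) le_rfl,
    Str.of_dp h2 hP.1 (one_le_Ep l (by omega))⟩

end Vale.Agent.P321
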