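import Mathlib

/-! Signed measures with finite support on a monoid, and a domination calculus for them. -/

namespace Vale.Agent.P321

open MonoidAlgebra

abbrev Alg (M : Type) := MonoidAlgebra ℝ M

variable {M : Type}

/-- Integration of a function against a finitely supported signed measure. -/
noncomputable def pair (Z : Alg M) (g : M → ℝ) : ℝ := Z.coeff.sum fun t r => r * g t

noncomputable def mass (Z : Alg M) : ℝ := pair Z fun _ => 1

def NN (P : Alg M) : Prop := ∀ t, 0 ≤ P.coeff t

def AbsLe (Z P : Alg M) : Prop := ∀ t, |Z.coeff t| ≤ P.coeff t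

def Prob (R : Alg M) : Prop := NN R ∧ mass R = 1

lemma pair_eq_sum (Z : Alg M) (g : M → ℝ) (s : Finset M) (hs : Z.coeff.support ⊆ s) :
    pair Z g = ∑ t ∈ s, Z.coeff t * g t := by
  unfold pair
  exact Finsupp.sum_of_support_subset _ hs _ (by simp)

@[simp] lemma pair_zero (g : M → ℝ) : pair 0 g = 0 := by simp [pair]

lemma pair_add (Z W : Alg M) (g : M → ℝ) : pair (Z + W) g = pair Z g + pair W g := by
  unfold pair
  rw [coeff_add]
  exact Finsupp.sum_add_index' (by simp) (fun _ _ _ => by ring)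

lemma pair_smul (c : ℝ) (Z : Alg M) (g : M → ℝ) : pair (c • Z) g = c * pair Z g := by
  classical
  rw [pair_eq_sum (c • Z) g Z.coeff.support (by rw [coeff_smul]; exact Finsupp.support_smul),
    pair_eq_sum Z g _ subset_rfl, Finset.mul_sum]
  refine Finset.sum_congr rfl fun t _ => ?_
  simp [mul_assoc]

lemma pair_neg (Z : Alg M) (g : M → ℝ) : pair (-Z) g = -pair Z g := by
  have := pair_smul (-1) Z g
  simpa using this

lemma pair_sub (Z W : Alg M) (g : M → ℝ) : pair (Z - W) g = pair Z g - pair W g := by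
  rw [sub_eq_add_neg, pair_add, pair_neg]; ring

@[simp] lemma pair_single (t : M) (r : ℝ) (g : M → ℝ) : pair (single t r) g = r * g t := by
  unfold pair
  rw [coeff_single]
  exact Finsupp.sum_single_index (by simp)

lemma pair_sum {ι : Type} (s : Finset ι) (f : ι → Alg M) (g : M → ℝ) :
    pair (∑ i ∈ s, f i) g = ∑ i ∈ s, pair (f i) g := by
  classical
  induction s using Finset.induction_on with
  | empty => simp
  | insert a s ha ih => rw [Finset.sum_insert ha, Finset.sum_insert ha, pair_add, ih]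

lemma pair_add_fun (Z : Alg M) (f g : M → ℝ) :
    pair Z (fun t => f t + g t) = pair Z f + pair Z g := by
  simp only [pair_eq_sum Z _ _ subset_rfl, ← Finset.sum_add_distrib, mul_add]

lemma pair_sub_fun (Z : Alg M) (f g : M → ℝ) :
    pair Z (fun t => f t - g t) = pair Z f - pair Z g := by
  simp only [pair_eq_sum Z _ _ subset_rfl, ← Finset.sum_sub_distrib, mul_sub]

lemma pair_const_mul (Z : Alg M) (c : ℝ) (g : M → ℝ) :
    pair Z (fun t => c * g t) = c * pair Z g := by
  simp only [pair_eq_sum Z _ _ subset_rfl, Finset.mul_sum]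
  exact Finset.sum_congr rfl fun t _ => by ring

lemma pair_const (Z : Alg M) (c : ℝ) : pair Z (fun _ => c) = c * mass Z := by
  have := pair_const_mul Z c (fun _ => 1)
  simpa [mass] using this

lemma pair_mono {P : Alg M} (hP : NN P) {f g : M → ℝ} (h : ∀ t, f t ≤ g t) :
    pair P f ≤ pair P g := by
  simp only [pair_eq_sum P _ _ subset_rfl]
  exact Finset.sum_le_sum fun t _ => mul_le_mul_of_nonneg_left (h t) (hP t)

lemma pair_nonneg {P : Alg M} (hP : NN P) {g : M → ℝ} (h : ∀ t, 0 ≤ g t) : 0 ≤ pair P g := by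
  have := pair_mono hP (f := fun _ => 0) h
  simpa [pair_const] using this

lemma pair_le_pair {P Q : Alg M} (h : ∀ t, P.coeff t ≤ Q.coeff t) {g : M → ℝ} (hg : ∀ t, 0 ≤ g t) :
    pair P g ≤ pair Q g := by
  have h1 : NN (Q - P) := fun t => by simp [h t]
  have := pair_nonneg h1 hg
  rw [pair_sub] at this
  linarith

lemma coeff_eq_pair [DecidableEq M] (Z : Alg M) (t : M) :
    Z.coeff t = pair Z fun s => if s = t then 1 else 0 := by
  rw [pair_eq_sum Z _ (insert t Z.coeff.support) (Finset.subset_insert _ _)]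
  simp

lemma AbsLe.nn {Z P : Alg M} (h : AbsLe Z P) : NN P := fun t => (abs_nonneg _).trans (h t)

lemma abs_pair_le {Z P : Alg M} (h : AbsLe Z P) (g : M → ℝ) :
    |pair Z g| ≤ pair P fun t => |g t| := by
  classical
  rw [pair_eq_sum Z g (Z.coeff.support ∪ P.coeff.support) Finset.subset_union_left,
    pair_eq_sum P _ (Z.coeff.support ∪ P.coeff.support) Finset.subset_union_right]
  refine (Finset.abs_sum_le_sum_abs _ _).trans (Finset.sum_le_sum fun t _ => ?_)
  rw [abs_mul]
  exact mul_le_mul_of_nonneg_right (h t) (abs_nonneg _)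

lemma mass_add (Z W : Alg M) : mass (Z + W) = mass Z + mass W := pair_add _ _ _
lemma mass_sub (Z W : Alg M) : mass (Z - W) = mass Z - mass W := pair_sub _ _ _
lemma mass_neg (Z : Alg M) : mass (-Z) = -mass Z := pair_neg _ _
lemma mass_smul (c : ℝ) (Z : Alg M) : mass (c • Z) = c * mass Z := pair_smul _ _ _
@[simp] lemma mass_zero : mass (0 : Alg M) = 0 := pair_zero _
lemma mass_sum {ι : Type} (s : Finset ι) (f : ι → Alg M) :
    mass (∑ i ∈ s, f i) = ∑ i ∈ s, mass (f i) := pair_sum _ _ _
@[simp] lemma mass_single (t : M) (r : ℝ) : mass (single t r) = r := by simp [mass]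

lemma NN.mass_nonneg {P : Alg M} (h : NN P) : 0 ≤ mass P := pair_nonneg h fun _ => zero_le_one

lemma abs_mass_le {Z P : Alg M} (h : AbsLe Z P) : |mass Z| ≤ mass P := by
  simpa [mass] using abs_pair_le h fun _ => 1

lemma NN.add {P Q : Alg M} (hP : NN P) (hQ : NN Q) : NN (P + Q) :=
  fun t => by simpa using add_nonneg (hP t) (hQ t)

lemma NN.smul {P : Alg M} (hP : NN P) {c : ℝ} (hc : 0 ≤ c) : NN (c • P) :=
  fun t => by simpa using mul_nonneg hc (hP t)

lemma NN.zero : NN (0 : Alg M) := fun t => by simp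

lemma NN.single (t : M) {r : ℝ} (hr : 0 ≤ r) : NN (single t r) := fun s => by
  classical
  rw [coeff_single, Finsupp.single_apply]
  split_ifs <;> simp [hr]

lemma NN.absLe {P : Alg M} (hP : NN P) : AbsLe P P := fun t => (abs_of_nonneg (hP t)).le

lemma AbsLe.add {Z W P Q : Alg M} (h : AbsLe Z P) (h' : AbsLe W Q) : AbsLe (Z + W) (P + Q) :=
  fun t => by
    simp only [coeff_add, Finsupp.add_apply]
    exact (abs_add_le _ _).trans (add_le_add (h t) (h' t))

lemma AbsLe.neg {Z P : Alg M} (h : AbsLe Z P) : AbsLe (-Z) P := fun t => by simpa using h t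

lemma AbsLe.smul {Z P : Alg M} (h : AbsLe Z P) (c : ℝ) : AbsLe (c • Z) (|c| • P) := fun t => by
  simp only [coeff_smul, Finsupp.smul_apply, smul_eq_mul, abs_mul]
  exact mul_le_mul_of_nonneg_left (h t) (abs_nonneg _)

lemma AbsLe.trans_le {Z P Q : Alg M} (h : AbsLe Z P) (h' : ∀ t, P.coeff t ≤ Q.coeff t) :
    AbsLe Z Q := fun t => (h t).trans (h' t)

/-- The total variation measure. -/
noncomputable def av (Z : Alg M) : Alg M := ofCoeff (Z.coeff.mapRange (fun r => |r|) abs_zero)

@[simp] lemma coeff_av (Z : Alg M) (t : M) : (av Z).coeff t = |Z.coeff t| := by simp [av]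

lemma absLe_av (Z : Alg M) : AbsLe Z (av Z) := fun t => by simp

/-- The total variation norm. -/
noncomputable def nrm (Z : Alg M) : ℝ := mass (av Z)

lemma nrm_le {Z P : Alg M} (h : AbsLe Z P) : nrm Z ≤ mass P :=
  pair_le_pair (fun t => by simpa using h t) fun _ => zero_le_one

lemma nrm_nonneg (Z : Alg M) : 0 ≤ nrm Z := (absLe_av Z).nn.mass_nonneg

lemma nrm_add_le (Z W : Alg M) : nrm (Z + W) ≤ nrm Z + nrm W := by
  have := nrm_le ((absLe_av Z).add (absLe_av W))
  rwa [mass_add] at this

lemma nrm_neg (Z : Alg M) : nrm (-Z) = nrm Z := by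
  have : av (-Z) = av Z := by ext t; simp
  rw [nrm, this, nrm]

lemma nrm_sub_le (Z W : Alg M) : nrm (Z - W) ≤ nrm Z + nrm W := by
  rw [sub_eq_add_neg]; exact (nrm_add_le _ _).trans (by rw [nrm_neg])

lemma nrm_sub_comm (Z W : Alg M) : nrm (Z - W) = nrm (W - Z) := by rw [← nrm_neg, neg_sub]

@[simp] lemma nrm_zero : nrm (0 : Alg M) = 0 := by
  have : av (0 : Alg M) = 0 := by ext t; simp
  rw [nrm, this, mass_zero]

lemma nrm_smul_le (c : ℝ) (Z : Alg M) : nrm (c • Z) ≤ |c| * nrm Z := by
  have := nrm_le ((absLe_av Z).smul c)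
  rwa [mass_smul] at this

lemma nrm_sum_le {ι : Type} (s : Finset ι) (f : ι → Alg M) :
    nrm (∑ i ∈ s, f i) ≤ ∑ i ∈ s, nrm (f i) := by
  classical
  induction s using Finset.induction_on with
  | empty => simp
  | insert a s ha ih =>
    rw [Finset.sum_insert ha, Finset.sum_insert ha]
    exact (nrm_add_le _ _).trans (by linarith)

lemma NN.nrm_eq {P : Alg M} (h : NN P) : nrm P = mass P := by
  have : av P = P := by ext t; simp [abs_of_nonneg (h t)]
  rw [nrm, this]

lemma abs_pair_le_nrm (Z : Alg M) {g : M → ℝ} {c : ℝ} (hg : ∀ t, |g t| ≤ c) :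
    |pair Z g| ≤ c * nrm Z := by
  refine (abs_pair_le (absLe_av Z) g).trans ?_
  rw [nrm, ← pair_const]
  exact pair_mono (absLe_av Z).nn hg

lemma abs_mass_le_nrm (Z : Alg M) : |mass Z| ≤ nrm Z := abs_mass_le (absLe_av Z)

/-- Clamping a signed measure between `-P` and `P`. -/
noncomputable def clamp (Z P : Alg M) : Alg M :=
  ofCoeff (Finsupp.zipWith (fun z p => max (-p) (min z p)) (by simp) Z.coeff P.coeff)

@[simp] lemma coeff_clamp (Z P : Alg M) (t : M) :
    (clamp Z P).coeff t = max (-P.coeff t) (min (Z.coeff t) (P.coeff t)) := by simp [clamp]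

lemma clamp_absLe (Z : Alg M) {P : Alg M} (hP : NN P) : AbsLe (clamp Z P) P := fun t => by
  rw [coeff_clamp, abs_le]
  have := hP t
  constructor
  · exact le_max_left _ _
  · exact max_le (by linarith) (min_le_right _ _)

lemma sub_clamp_absLe {Z P E : Alg M} (hP : NN P) (hE : NN E) (h : AbsLe Z (P + E)) :
    AbsLe (Z - clamp Z P) E := fun t => by
  have h1 := h t
  have h2 := hP t
  have h3 := hE t
  simp only [coeff_add, Finsupp.add_apply, abs_le] at h1
  simp only [coeff_sub, Finsupp.sub_apply, coeff_clamp, abs_le]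
  rcases le_total (Z.coeff t) (P.coeff t) with h4 | h4
  · rw [min_eq_left h4]
    rcases le_total (-P.coeff t) (Z.coeff t) with h5 | h5
    · rw [max_eq_right h5]; constructor <;> linarith
    · rw [max_eq_left h5]; constructor <;> linarith
  · rw [min_eq_right h4, max_eq_right (by linarith)]; constructor <;> linarith

section push
variable {N : Type}

lemma pair_mapDomain (f : M → N) (Z : Alg M) (g : N → ℝ) :
    pair (mapDomain f Z) g = pair Z fun t => g (f t) := by
  induction Z using MonoidAlgebra.induction_linear with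
  | zero => simp
  | add a b ha hb => rw [mapDomain_add, pair_add, pair_add, ha, hb]
  | single t r => simp [mapDomain_single]

lemma mass_mapDomain (f : M → N) (Z : Alg M) : mass (mapDomain f Z) = mass Z :=
  pair_mapDomain f Z _

lemma AbsLe.mapDomain {Z P : Alg M} (h : AbsLe Z P) (f : M → N) :
    AbsLe (mapDomain f Z) (mapDomain f P) := fun t => by
  classical
  rw [coeff_eq_pair, coeff_eq_pair (MonoidAlgebra.mapDomain f P), pair_mapDomain, pair_mapDomain]
  refine (abs_pair_le h _).trans (le_of_eq ?_)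
  congr 1
  funext s
  split_ifs <;> simp

lemma NN.mapDomain {P : Alg M} (h : NN P) (f : M → N) : NN (mapDomain f P) :=
  (h.absLe.mapDomain f).nn

lemma Prob.mapDomain {P : Alg M} (h : Prob P) (f : M → N) : Prob (mapDomain f P) :=
  ⟨h.1.mapDomain f, by rw [mass_mapDomain, h.2]⟩

end push

variable [Monoid M]

lemma pair_mul (Z W : Alg M) (g : M → ℝ) :
    pair (Z * W) g = pair Z fun s => pair W fun t => g (s * t) := by
  induction Z using MonoidAlgebra.induction_linear with
  | zero => simp
  | add a b ha hb => rw [add_mul, pair_add, pair_add, ha, hb]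
  | single s r =>
    induction W using MonoidAlgebra.induction_linear with
    | zero => simp
    | add a b ha hb =>
      rw [mul_add, pair_add, ha, hb]
      simp only [pair_single, pair_add]; ring
    | single t r' => simp [single_mul_single, mul_assoc]

@[simp] lemma pair_one (g : M → ℝ) : pair (1 : Alg M) g = g 1 := by simp [one_def]

@[simp] lemma mass_one : mass (1 : Alg M) = 1 := by simp [mass]

lemma mass_mul (Z W : Alg M) : mass (Z * W) = mass Z * mass W := by
  rw [mass, pair_mul]
  change pair Z (fun _ => mass W) = _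
  rw [pair_const, mul_comm]

lemma AbsLe.mul {Z W P Q : Alg M} (h : AbsLe Z P) (h' : AbsLe W Q) : AbsLe (Z * W) (P * Q) :=
  fun t => by
  classical
  rw [coeff_eq_pair, coeff_eq_pair (P * Q), pair_mul, pair_mul]
  refine (abs_pair_le h _).trans (pair_mono h.nn fun s => ?_)
  refine (abs_pair_le h' _).trans (le_of_eq ?_)
  congr 1
  funext s
  split_ifs <;> simp

lemma NN.mul {P Q : Alg M} (hP : NN P) (hQ : NN Q) : NN (P * Q) := (hP.absLe.mul hQ.absLe).nn

lemma NN.one : NN (1 : Alg M) := by rw [one_def]; exact NN.single _ zero_le_one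

lemma Prob.one : Prob (1 : Alg M) := ⟨NN.one, mass_one⟩

lemma Prob.mul {P Q : Alg M} (hP : Prob P) (hQ : Prob Q) : Prob (P * Q) :=
  ⟨hP.1.mul hQ.1, by rw [mass_mul, hP.2, hQ.2, one_mul]⟩

lemma Prob.pow {P : Alg M} (hP : Prob P) : ∀ n : ℕ, Prob (P ^ n)
  | 0 => by simpa using Prob.one
  | n + 1 => by rw [pow_succ]; exact (hP.pow n).mul hP

lemma nrm_mul_le (Z W : Alg M) : nrm (Z * W) ≤ nrm Z * nrm W := by
  have := nrm_le ((absLe_av Z).mul (absLe_av W))
  rwa [mass_mul] at this

omit [Monoid M] in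
lemma Prob.nrm_eq {P : Alg M} (h : Prob P) : nrm P = 1 := by rw [h.1.nrm_eq, h.2]

lemma nrm_mul_prob_le (Z : Alg M) {P : Alg M} (h : Prob P) : nrm (Z * P) ≤ nrm Z := by
  simpa [h.nrm_eq] using nrm_mul_le Z P

lemma nrm_prob_mul_le (Z : Alg M) {P : Alg M} (h : Prob P) : nrm (P * Z) ≤ nrm Z := by
  simpa [h.nrm_eq] using nrm_mul_le P Z

end Vale.Agent.P321
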