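import Mathlib

/-! Elementary estimates for binomial probabilities. -/

namespace Vale.Agent.P321

open Finset

noncomputable def bn (θ : ℝ) (g t : ℕ) : ℝ := g.choose t * (1 - θ) ^ t * θ ^ (g - t)

variable {θ : ℝ}

lemma bn_nonneg (h0 : 0 ≤ θ) (h1 : θ ≤ 1) (g t : ℕ) : 0 ≤ bn θ g t := by
  have : 0 ≤ 1 - θ := by linarith
  unfold bn; positivity

lemma bn_eq_zero {g t : ℕ} (h : g < t) : bn θ g t = 0 := by simp [bn, Nat.choose_eq_zero_of_lt h]

lemma bn_succ_zero (g : ℕ) : bn θ (g + 1) 0 = θ * bn θ g 0 := by simp [bn, pow_succ']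

lemma bn_succ_succ (g t : ℕ) :
    bn θ (g + 1) (t + 1) = θ * bn θ g (t + 1) + (1 - θ) * bn θ g t := by
  unfold bn
  rw [Nat.choose_succ_succ, Nat.add_sub_add_right]
  rcases lt_or_ge t g with h | h
  · obtain ⟨k, rfl⟩ : ∃ k, g = t + 1 + k := ⟨g - (t + 1), by omega⟩
    rw [show t + 1 + k - t = k + 1 by omega, show t + 1 + k - (t + 1) = k by omega]
    push_cast; ring
  · rw [Nat.choose_eq_zero_of_lt (show g < t.succ by omega)]
    push_cast; ring

lemma bn_idA (g t : ℕ) : (t + 1) * bn θ (g + 1) (t + 1) = (g + 1) * (1 - θ) * bn θ g t := by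
  have h : ((g + 1 : ℕ) : ℝ) * g.choose t = ((g + 1).choose (t + 1) : ℕ) * (t + 1 : ℕ) := by
    exact_mod_cast Nat.add_one_mul_choose_eq g t
  unfold bn
  rw [Nat.add_sub_add_right]
  push_cast at h
  linear_combination (-(1 - θ) ^ (t + 1) * θ ^ (g - t)) * h

lemma bn_idB (g t : ℕ) : ((g : ℝ) + 1 - t) * bn θ (g + 1) t = (g + 1) * θ * bn θ g t := by
  rcases lt_or_ge g t with h | h
  · rw [bn_eq_zero h]
    rcases (show g + 1 = t ∨ g + 1 < t by omega) with h1 | h1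
    · rw [← h1]; push_cast; ring
    · rw [bn_eq_zero h1]; ring
  · have h2 : ((g.choose t * (g + 1) : ℕ) : ℝ) = ((g + 1).choose t * (g + 1 - t) : ℕ) := by
      exact_mod_cast Nat.choose_mul_succ_eq g t
    rw [Nat.cast_mul, Nat.cast_mul, Nat.cast_sub (by omega)] at h2
    unfold bn
    rw [show g + 1 - t = (g - t) + 1 by omega]
    push_cast at h2
    linear_combination (-(1 - θ) ^ t * θ ^ (g - t + 1)) * h2

noncomputable def Ex (θ : ℝ) (g : ℕ) (f : ℕ → ℝ) : ℝ := ∑ t ∈ range (g + 1), bn θ g t * f t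

lemma Ex_succ (g : ℕ) (f : ℕ → ℝ) :
    Ex θ (g + 1) f = θ * Ex θ g f + (1 - θ) * Ex θ g fun t => f (t + 1) := by
  have h : Ex θ g f = ∑ t ∈ range (g + 1), bn θ g (t + 1) * f (t + 1) + bn θ g 0 * f 0 := by
    rw [← sum_range_succ' (fun t => bn θ g t * f t), sum_range_succ _ (g + 1),
      bn_eq_zero (Nat.lt_succ_self g), zero_mul, add_zero, Ex]
  rw [h, Ex, sum_range_succ', Ex, bn_succ_zero]
  simp only [bn_succ_succ, add_mul, sum_add_distrib, mul_add, mul_sum, mul_assoc]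
  ring

lemma Ex_one : ∀ g : ℕ, Ex θ g (fun _ => 1) = 1
  | 0 => by simp [Ex, bn]
  | g + 1 => by rw [Ex_succ, Ex_one g]; ring

lemma Ex_var : ∀ (g : ℕ) (c : ℝ),
    Ex θ g (fun t => (t - c) ^ 2) = (g * (1 - θ) - c) ^ 2 + g * (1 - θ) * θ
  | 0, c => by simp [Ex, bn]
  | g + 1, c => by
    have h : (fun t : ℕ => (((t + 1 : ℕ) : ℝ) - c) ^ 2) = fun t : ℕ => ((t : ℝ) - (c - 1)) ^ 2 := by
      funext t; push_cast; ring
    rw [Ex_succ, h, Ex_var g, Ex_var g]; push_cast; ring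

lemma sum_le_Ex (h0 : 0 ≤ θ) (h1 : θ ≤ 1) (g : ℕ) {f : ℕ → ℝ} (hf : ∀ t, 0 ≤ f t) (s : Finset ℕ) :
    ∑ t ∈ s, bn θ g t * f t ≤ Ex θ g f := by
  rw [← sum_filter_add_sum_filter_not s (fun t => t < g + 1)]
  rw [sum_eq_zero (s := filter (fun t => ¬t < g + 1) s) fun t ht => by
    rw [bn_eq_zero (by have := (mem_filter.1 ht).2; omega), zero_mul], add_zero]
  exact sum_le_sum_of_subset_of_nonneg (fun t ht => mem_range.2 (mem_filter.1 ht).2)
    fun t _ _ => mul_nonneg (bn_nonneg h0 h1 g t) (hf t)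

lemma sum_bn_le_one (h0 : 0 ≤ θ) (h1 : θ ≤ 1) (g : ℕ) (s : Finset ℕ) : ∑ t ∈ s, bn θ g t ≤ 1 := by
  simpa [Ex_one] using sum_le_Ex h0 h1 g (f := fun _ => 1) (fun _ => zero_le_one) s

lemma bn_le (h0 : 0 < θ) (h1 : θ < 1) (g t : ℕ) :
    bn θ g t ≤ 1 / ((1 - θ) * θ) / √(g + 1) := by
  have hp : 0 < 1 - θ := by linarith
  set D := √((g : ℝ) + 1) with hD
  have hD0 : 0 < D := by positivity
  have hD2 : D ^ 2 = g + 1 := Real.sq_sqrt (by positivity)
  set c : ℝ := (g + 1) * (1 - θ) with hc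
  have hdiff : ∀ s : ℕ, (g + 1) * (1 - θ) * θ * (bn θ g s - bn θ g (s + 1)) ≤
      bn θ (g + 1) (s + 1) * (((((s + 1 : ℕ) : ℝ) - c) ^ 2 / D + D) / 2) := by
    intro s
    have a := bn_idA (θ := θ) g s
    have b := bn_idB (θ := θ) g (s + 1)
    have e : (g + 1) * (1 - θ) * θ * (bn θ g s - bn θ g (s + 1)) =
        bn θ (g + 1) (s + 1) * (((s + 1 : ℕ) : ℝ) - c) := by
      rw [hc]; push_cast at b ⊢; linear_combination (-θ) * a + (1 - θ) * b
    rw [e]
    refine mul_le_mul_of_nonneg_left ?_ (bn_nonneg h0.le h1.le _ _)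
    set x := ((s + 1 : ℕ) : ℝ) - c
    rw [le_div_iff₀ (by norm_num), div_add' _ _ _ hD0.ne', le_div_iff₀ hD0]
    nlinarith [sq_nonneg (x - D)]
  have htel : bn θ g t = ∑ i ∈ range (g + 1), (bn θ g (t + i) - bn θ g (t + i + 1)) := by
    have := sum_range_sub' (fun i => bn θ g (t + i)) (g + 1)
    rw [bn_eq_zero (show g < t + (g + 1) by omega), sub_zero] at this
    exact this.symm
  have h2 : (g + 1) * (1 - θ) * θ * bn θ g t ≤
      Ex θ (g + 1) fun s => (((s : ℝ) - c) ^ 2 / D + D) / 2 := by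
    rw [htel, mul_sum]
    refine (sum_le_sum fun i _ => hdiff (t + i)).trans ?_
    have := sum_le_Ex h0.le h1.le (g + 1) (f := fun s => (((s : ℝ) - c) ^ 2 / D + D) / 2)
      (fun s => by positivity) ((range (g + 1)).image fun i => t + i + 1)
    rwa [sum_image fun a _ b _ h => by simpa using h] at this
  have h3 : Ex θ (g + 1) (fun s => (((s : ℝ) - c) ^ 2 / D + D) / 2) =
      (Ex θ (g + 1) (fun s => ((s : ℝ) - c) ^ 2) / D + D * Ex θ (g + 1) fun _ => 1) / 2 := by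
    simp only [Ex, sum_div, mul_sum, ← sum_add_distrib]
    exact sum_congr rfl fun s _ => by ring
  rw [h3, Ex_var, Ex_one, hc] at h2
  push_cast at h2
  rw [← hD2] at h2
  have h4 : (1 - θ) * θ ≤ 1 := by nlinarith
  have h5 : ((D ^ 2 * (1 - θ) - D ^ 2 * (1 - θ)) ^ 2 + D ^ 2 * (1 - θ) * θ) / D =
      D * ((1 - θ) * θ) := by field_simp; ring
  rw [h5] at h2
  rw [div_div, le_div_iff₀ (by positivity)]
  have h6 : D * (bn θ g t * ((1 - θ) * θ * D)) ≤ D * 1 := by nlinarith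
  exact le_of_mul_le_mul_left h6 hD0

lemma sum_bn_left (h0 : 0 < θ) (h1 : θ < 1) :
    ∀ t G : ℕ, (1 - θ) * ∑ g ∈ range G, bn θ g t ≤ 1
  | 0, G => by
    have : ∑ g ∈ range G, bn θ g 0 = ∑ g ∈ range G, θ ^ g := by simp [bn]
    rw [this, mul_comm, geom_sum_mul_neg]
    have := pow_pos h0 G
    linarith
  | t + 1, 0 => by simp
  | t + 1, G + 1 => by
    have ih := sum_bn_left h0 h1 t G
    have h2 : ∑ g ∈ range (G + 1), bn θ g (t + 1) =
        θ * ∑ g ∈ range G, bn θ g (t + 1) + (1 - θ) * ∑ g ∈ range G, bn θ g t := by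
      rw [sum_range_succ', bn_eq_zero (Nat.succ_pos t), add_zero]
      simp only [bn_succ_succ, sum_add_distrib, mul_sum]
    have h3 : ∑ g ∈ range G, bn θ g (t + 1) ≤ ∑ g ∈ range (G + 1), bn θ g (t + 1) := by
      rw [sum_range_succ]; linarith [bn_nonneg h0.le h1.le G (t + 1)]
    have h4 : (1 - θ) * ∑ g ∈ range (G + 1), bn θ g (t + 1) ≤ (1 - θ) * ∑ g ∈ range G, bn θ g t := by
      nlinarith
    linarith

lemma ap_sum {a : ℕ → ℝ} {G N g0 : ℕ} {S A : ℝ} (ha : ∀ g, 0 ≤ a g) (hN : 1 ≤ N)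
    (hup : ∀ g < G, a g ≤ a (g + 1)) (hdown : ∀ g, G ≤ g → a (g + 1) ≤ a g)
    (hS : ∀ n, ∑ g ∈ range n, a g ≤ S) (hA : ∀ g, g0 ≤ g → a g ≤ A) (ρ : ℕ) :
    ∑ δ ∈ range ρ, a (g0 + δ * N) ≤ 2 * A + 2 * S / N := by
  have hN' : (0 : ℝ) < N := by exact_mod_cast hN
  have hA0 : 0 ≤ A := (ha g0).trans (hA g0 le_rfl)
  have up : ∀ i g, g + i ≤ G → a g ≤ a (g + i) := by
    intro i
    induction i with
    | zero => simp
    | succ i ih => exact fun g hg => (ih g (by omega)).trans (hup (g + i) (by omega))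
  have down : ∀ i g, G ≤ g → a (g + i) ≤ a g := by
    intro i
    induction i with
    | zero => simp
    | succ i ih => exact fun g hg => (hdown (g + i) (by omega)).trans (ih g hg)
  let w : ℕ → ℝ := fun δ => ∑ i ∈ range N, a (g0 + δ * N + i)
  have hw0 : ∀ δ, 0 ≤ w δ := fun δ => sum_nonneg fun i _ => ha _
  have hw : ∀ k, ∑ g ∈ range g0, a g + ∑ δ ∈ range k, w δ = ∑ g ∈ range (g0 + k * N), a g := by
    intro k
    induction k with
    | zero => simp
    | succ k ih => rw [sum_range_succ, ← add_assoc, ih, add_mul, one_mul, ← add_assoc, sum_range_add _ _ N]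
  have hw1 : ∀ k, ∑ δ ∈ range k, w δ ≤ S := fun k => by
    have := hw k
    have := hS (g0 + k * N)
    have : 0 ≤ ∑ g ∈ range g0, a g := sum_nonneg fun i _ => ha _
    linarith
  let w' : ℕ → ℝ := fun δ => if δ = 0 then 0 else w (δ - 1)
  have hw2 : ∑ δ ∈ range ρ, w' δ ≤ S := by
    rcases ρ with _ | ρ
    · simpa using hw1 0
    · rw [sum_range_succ']; simpa [w'] using hw1 ρ
  have hw0' : ∀ δ, 0 ≤ w' δ := fun δ => by simp only [w']; split_ifs <;> simp [hw0]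
  set d := (G - g0) / N with hd
  have key : ∀ δ, a (g0 + δ * N) ≤ (w δ + w' δ) / N +
      ((if δ = d then A else 0) + if δ = d + 1 then A else 0) := by
    intro δ
    have i1 : 0 ≤ (if δ = d then A else 0) := by split_ifs <;> simp [hA0]
    have i2 : 0 ≤ (if δ = d + 1 then A else 0) := by split_ifs <;> simp [hA0]
    have i3 : 0 ≤ (w δ + w' δ) / N := div_nonneg (add_nonneg (hw0 _) (hw0' _)) hN'.le
    rcases lt_trichotomy δ d with h | h | h
    · have h1 : (δ + 1) * N ≤ G - g0 := (Nat.le_div_iff_mul_le hN).1 h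
      have h2 : N * a (g0 + δ * N) ≤ w δ := by
        have := card_nsmul_le_sum (range N) (fun i => a (g0 + δ * N + i)) (a (g0 + δ * N))
          fun i hi => up i _ (by have := mem_range.1 hi; rw [add_mul] at h1; omega)
        simpa using this
      have : a (g0 + δ * N) ≤ (w δ + w' δ) / N := by
        rw [le_div_iff₀ hN']; linarith [hw0' δ]
      linarith
    · have := hA (g0 + δ * N) (by omega)
      rw [if_pos h]; linarith
    · rcases (show δ = d + 1 ∨ d + 1 < δ by omega) with h1 | h1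
      · have := hA (g0 + δ * N) (by omega)
        rw [if_pos h1]; linarith
      · obtain ⟨k, rfl⟩ : ∃ k, δ = k + 1 := Nat.exists_eq_succ_of_ne_zero (Nat.ne_zero_of_lt h)
        have h2 : G - g0 < k * N := (Nat.div_lt_iff_lt_mul hN).1 (Nat.lt_of_succ_lt_succ h1)
        have h3 : N * a (g0 + (k + 1) * N) ≤ w k := by
          have := card_nsmul_le_sum (range N) (fun i => a (g0 + k * N + i)) (a (g0 + (k + 1) * N))
            fun i hi => by
              have := mem_range.1 hi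
              have := down (N - i) (g0 + k * N + i) (by omega)
              rwa [show g0 + k * N + i + (N - i) = g0 + (k + 1) * N by rw [add_mul]; omega] at this
          simpa using this
        have : a (g0 + (k + 1) * N) ≤ (w (k + 1) + w' (k + 1)) / N := by
          rw [le_div_iff₀ hN']
          have : w' (k + 1) = w k := by simp [w']
          linarith [hw0 (k + 1)]
        linarith
  refine (sum_le_sum fun δ _ => key δ).trans ?_
  rw [sum_add_distrib, sum_add_distrib, ← sum_div, sum_add_distrib, sum_ite_eq', sum_ite_eq']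
  have h1 : (∑ δ ∈ range ρ, w δ + ∑ δ ∈ range ρ, w' δ) / N ≤ 2 * S / N :=
    div_le_div_of_nonneg_right (by linarith [hw1 ρ]) hN'.le
  split_ifs <;> linarith

lemma bn_ap_sum (h0 : 0 < θ) (h1 : θ < 1) {N : ℕ} (hN : 1 ≤ N) (g0 t ρ : ℕ) :
    ∑ δ ∈ range ρ, bn θ (g0 + δ * N) t ≤
      2 * (1 / ((1 - θ) * θ) / √(g0 + 1)) + 2 * (1 / (1 - θ)) / N := by
  have hp : 0 < 1 - θ := by linarith
  refine ap_sum (a := fun g => bn θ g t) (G := ⌊t / (1 - θ)⌋₊) (fun g => bn_nonneg h0.le h1.le _ _)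
    hN (fun g hg => ?_) (fun g hg => ?_) (fun n => ?_) (fun g hg => ?_) ρ
  · have h2 : ((g + 1 : ℕ) : ℝ) ≤ t / (1 - θ) := (Nat.le_floor_iff (by positivity)).1 hg
    rw [le_div_iff₀ hp] at h2
    push_cast at h2
    have h3 := bn_idB (θ := θ) g t
    have h4 := bn_nonneg h0.le h1.le (g + 1) t
    have h5 : (g + 1) * θ * bn θ g t ≤ (g + 1) * θ * bn θ (g + 1) t := by nlinarith
    exact le_of_mul_le_mul_left h5 (by positivity)
  · have h2 : (t : ℝ) / (1 - θ) < g + 1 :=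
      (Nat.lt_floor_add_one _).trans_le (by exact_mod_cast Nat.succ_le_succ hg)
    rw [div_lt_iff₀ hp] at h2
    have h3 := bn_idB (θ := θ) g t
    have h4 := bn_nonneg h0.le h1.le (g + 1) t
    have h5 : (g + 1) * θ * bn θ (g + 1) t ≤ (g + 1) * θ * bn θ g t := by nlinarith
    exact le_of_mul_le_mul_left h5 (by positivity)
  · rw [le_div_iff₀ hp, mul_comm]; exact sum_bn_left h0 h1 t n
  · refine (bn_le h0 h1 g t).trans (div_le_div_of_nonneg_left (by positivity) (by positivity) ?_)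
    exact Real.sqrt_le_sqrt (by exact_mod_cast Nat.succ_le_succ hg)

lemma sq_sum_le : ∀ (ρ : ℕ) {a T : ℕ → ℝ}, (∀ δ, 0 ≤ a δ) →
    (∀ δ k, ∑ j ∈ range k, a (δ + j) ≤ T δ) →
    (∑ δ ∈ range ρ, a δ) ^ 2 ≤ 2 * ∑ δ ∈ range ρ, a δ * T δ
  | 0, _, _, _, _ => by simp
  | ρ + 1, a, T, ha, hT => by
    have ih := sq_sum_le ρ (a := fun δ => a (δ + 1)) (T := fun δ => T (δ + 1)) (fun δ => ha _)
      fun δ k => by simpa [add_assoc, add_comm, add_left_comm] using hT (δ + 1) k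
    have h1 := hT 0 (ρ + 1)
    simp only [zero_add] at h1
    rw [sum_range_succ'] at h1
    rw [sum_range_succ', sum_range_succ' (fun δ => a δ * T δ)]
    nlinarith [mul_le_mul_of_nonneg_left h1 (ha 0), sq_nonneg (a 0)]

lemma sum_inv_sqrt_le : ∀ ρ : ℕ, ∑ δ ∈ range ρ, 1 / √((δ : ℝ) + 1) ≤ 2 * √ρ
  | 0 => by simp
  | ρ + 1 => by
    rw [sum_range_succ]
    have ih := sum_inv_sqrt_le ρ
    have h1 : 0 < √((ρ : ℝ) + 1) := by positivity
    have h2 : √((ρ : ℝ) + 1) ^ 2 = ρ + 1 := Real.sq_sqrt (by positivity)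
    have h3 : √(ρ : ℝ) ^ 2 = ρ := Real.sq_sqrt (by positivity)
    have h4 : 1 / √((ρ : ℝ) + 1) ≤ 2 * √((ρ : ℝ) + 1) - 2 * √ρ := by
      rw [div_le_iff₀ h1]; nlinarith [sq_nonneg (√((ρ : ℝ) + 1) - √ρ)]
    push_cast; linarith

lemma mu_le (h0 : 0 < θ) (h1 : θ < 1) {N g0 ρ : ℕ} {w : ℝ} (hN : 1 ≤ N) (hg : N ≤ 4 * (g0 + 1))
    (hw0 : 0 ≤ w) (hw1 : w ≤ 1) (hρ : (ρ : ℝ) ≤ w ^ 12 * N) (n : ℕ) :
    ∑ t ∈ range n, (∑ δ ∈ range ρ, bn θ (g0 + δ * N) t) ^ 2 ≤ 20 / ((1 - θ) * θ) * w ^ 6 := by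
  have hp : 0 < 1 - θ := by linarith
  have hN' : (0 : ℝ) < N := by exact_mod_cast hN
  set c := 1 / ((1 - θ) * θ) with hc
  have hc0 : 0 < c := by positivity
  let T : ℕ → ℝ := fun δ => 2 * (c / √((g0 + δ * N : ℕ) + 1)) + 2 * (1 / (1 - θ)) / N
  have hT0 : ∀ δ, 0 ≤ T δ := fun δ => by simp only [T]; positivity
  have k1 : ∀ t, (∑ δ ∈ range ρ, bn θ (g0 + δ * N) t) ^ 2 ≤
      2 * ∑ δ ∈ range ρ, bn θ (g0 + δ * N) t * T δ := fun t =>
    sq_sum_le ρ (fun δ => bn_nonneg h0.le h1.le _ _) fun δ k => by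
      simpa [add_mul, add_assoc, T, hc] using bn_ap_sum h0 h1 hN (g0 + δ * N) t k
  refine (sum_le_sum fun t _ => k1 t).trans ?_
  rw [← mul_sum, sum_comm]
  have k2 : ∀ δ ∈ range ρ, ∑ t ∈ range n, bn θ (g0 + δ * N) t * T δ ≤
      4 * c / √N * (1 / √((δ : ℝ) + 1)) + 2 * c / N := by
    intro δ _
    rw [← sum_mul]
    refine (mul_le_of_le_one_left (hT0 δ) (sum_bn_le_one h0.le h1.le _ _)).trans (add_le_add ?_ ?_)
    · have a1 : √N * √((δ : ℝ) + 1) ≤ 2 * √((g0 + δ * N : ℕ) + 1) := by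
        rw [← Real.sqrt_mul hN'.le, show (2 : ℝ) = √4 by
          rw [show (4 : ℝ) = 2 ^ 2 by norm_num, Real.sqrt_sq (by norm_num)],
          ← Real.sqrt_mul (by norm_num)]
        refine Real.sqrt_le_sqrt ?_
        have : (N : ℝ) ≤ 4 * (g0 + 1) := by exact_mod_cast hg
        push_cast
        nlinarith [show 0 ≤ (δ : ℝ) * N by positivity]
      rw [div_mul_div_comm, ← mul_div_assoc, div_le_div_iff₀ (by positivity) (by positivity)]
      nlinarith
    · refine div_le_div_of_nonneg_right ?_ hN'.le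
      have : 1 / (1 - θ) ≤ c := one_div_le_one_div_of_le (by positivity) (by nlinarith)
      linarith
  have k3 := sum_le_sum k2
  rw [sum_add_distrib, ← mul_sum, sum_const, card_range, nsmul_eq_mul] at k3
  have k4 := mul_le_mul_of_nonneg_left (sum_inv_sqrt_le ρ) (show 0 ≤ 4 * c / √N by positivity)
  have k5 : √ρ ≤ w ^ 6 * √N := by
    rw [← Real.sqrt_sq (show 0 ≤ w ^ 6 by positivity), ← Real.sqrt_mul (by positivity)]
    exact Real.sqrt_le_sqrt (by rw [← pow_mul]; exact hρ)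
  have k6 : 4 * c / √N * (2 * √ρ) ≤ 8 * c * w ^ 6 := by
    rw [div_mul_eq_mul_div, div_le_iff₀ (by positivity)]
    nlinarith
  have k7 : ρ * (2 * c / N) ≤ 2 * c * w ^ 6 := by
    rw [← mul_div_assoc, div_le_iff₀ hN']
    have : w ^ 12 ≤ w ^ 6 := pow_le_pow_of_le_one hw0 hw1 (by norm_num)
    nlinarith [mul_le_mul_of_nonneg_right this hN'.le]
  rw [show 20 / ((1 - θ) * θ) = 20 * c by rw [hc]; ring]
  linarith

end Vale.Agent.P321
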