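import Vale.Agent.P321.L2
import Vale.Agent.P321.Binom

/-! Sparse periodic defects are invisible in total variation just below the critical length. -/

namespace Vale.Agent.P321

open Finset Polynomial

lemma tele {R : Type} [Ring R] (x z : R) (p p' : ℕ) : ∀ j d : ℕ,
    (x ^ p * (x + z) * x ^ p') ^ j * x ^ d = x ^ ((p + p' + 1) * j + d) +
      ∑ i ∈ range j, (x ^ p * (x + z) * x ^ p') ^ i * x ^ p * z *
        x ^ (p' + d + (j - 1 - i) * (p + p' + 1))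
  | 0, d => by simp
  | j + 1, d => by
    have e : (x ^ p * (x + z) * x ^ p') ^ (j + 1) * x ^ d =
        (x ^ p * (x + z) * x ^ p') ^ j * x ^ (p + p' + 1 + d) +
          (x ^ p * (x + z) * x ^ p') ^ j * x ^ p * z * x ^ (p' + d) := by
      rw [pow_succ, show p + p' + 1 + d = p + 1 + p' + d by omega, pow_add, pow_add, pow_succ,
        pow_add]
      noncomm_ring
    rw [e, tele x z p p' j, sum_range_succ, add_assoc]
    congr 2
    · ring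
    · refine sum_congr rfl fun i hi => ?_
      rw [mem_range] at hi
      rw [show j + 1 - 1 - i = (j - 1 - i) + 1 by omega]
      congr 2; ring
    · simp

noncomputable def nu (b0 b : ℕ → ℝ) (s : ℝ) (m : ℕ) : ℝ :=
  b0 m ^ 2 + s * ∑ k : Fin m, b (m - 1 - k) ^ 2 * nu b0 b s k
termination_by m
decreasing_by exact k.2

lemma nu_eq (b0 b : ℕ → ℝ) (s : ℝ) (m : ℕ) :
    nu b0 b s m = b0 m ^ 2 + s * ∑ k ∈ range m, b (m - 1 - k) ^ 2 * nu b0 b s k := by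
  rw [nu, Fin.sum_univ_eq_sum_range (fun k => b (m - 1 - k) ^ 2 * nu b0 b s k)]

lemma nu_nonneg (b0 b : ℕ → ℝ) {s : ℝ} (hs : 0 ≤ s) (m : ℕ) : 0 ≤ nu b0 b s m := by
  induction m using Nat.strong_induction_on with
  | _ m ih =>
    rw [nu_eq]
    exact add_nonneg (sq_nonneg _) (mul_nonneg hs
      (sum_nonneg fun k hk => mul_nonneg (sq_nonneg _) (ih k (mem_range.1 hk))))

lemma nu_sum_le {b0 b : ℕ → ℝ} {s μ : ℝ} (hs : 0 ≤ s) (h0 : ∀ n, ∑ t ∈ range n, b0 t ^ 2 ≤ μ)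
    (h1 : ∀ n, ∑ t ∈ range n, b t ^ 2 ≤ μ) (hμ : s * μ ≤ 1 / 2) :
    ∀ n, ∑ m ∈ range n, nu b0 b s m ≤ 2 * μ
  | 0 => by have := h0 0; simp at this ⊢; linarith
  | n + 1 => by
    have hn := nu_nonneg b0 b hs
    have e : ∑ m ∈ range (n + 1), ∑ k ∈ range m, b (m - 1 - k) ^ 2 * nu b0 b s k ≤
        μ * ∑ m ∈ range n, nu b0 b s m := by
      rw [sum_range_succ']
      simp only [Nat.add_sub_cancel, range_zero, sum_empty, add_zero]
      rw [sum_range_diag_flip n fun k t => b t ^ 2 * nu b0 b s k, mul_sum]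
      refine sum_le_sum fun k _ => ?_
      rw [← sum_mul]
      exact mul_le_mul_of_nonneg_right (h1 _) (hn k)
    have ih := nu_sum_le hs h0 h1 hμ n
    have h2 : 0 ≤ ∑ m ∈ range n, nu b0 b s m := sum_nonneg fun k _ => hn k
    rw [sum_congr rfl fun m _ => nu_eq b0 b s m, sum_add_distrib, ← mul_sum]
    have h3 := mul_le_mul_of_nonneg_left e hs
    have h4 := h0 (n + 1)
    nlinarith

variable {M : Type} [Monoid M]

noncomputable def Xt (θ : ℝ) (u : Alg M) : (Alg M)[X] := C (θ • 1) + C ((1 - θ) • u) * X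
noncomputable def Zt (z : Alg M) : (Alg M)[X] := C z * X

variable {θ : ℝ} {u z : Alg M}

lemma coeff_mul_Zt_zero (P : (Alg M)[X]) : (P * Zt z).coeff 0 = 0 := by
  rw [Zt, ← mul_assoc, coeff_mul_X_zero]

lemma coeff_mul_Zt_succ (P : (Alg M)[X]) (m : ℕ) : (P * Zt z).coeff (m + 1) = P.coeff m * z := by
  rw [Zt, ← mul_assoc, coeff_mul_X, coeff_mul_C]

lemma coeff_mul_Xt_zero (P : (Alg M)[X]) : (P * Xt θ u).coeff 0 = θ • P.coeff 0 := by
  rw [Xt, mul_add, coeff_add, ← mul_assoc, coeff_mul_X_zero, coeff_mul_C]; simp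

lemma coeff_mul_Xt_succ (P : (Alg M)[X]) (m : ℕ) :
    (P * Xt θ u).coeff (m + 1) = θ • P.coeff (m + 1) + P.coeff m * ((1 - θ) • u) := by
  rw [Xt, mul_add, coeff_add, ← mul_assoc, coeff_mul_X, coeff_mul_C, coeff_mul_C]; simp

lemma coeff_Xt_pow : ∀ g t : ℕ, (Xt θ u ^ g).coeff t = bn θ g t • u ^ t
  | 0, 0 => by simp [bn]
  | 0, t + 1 => by simp [bn, coeff_one]
  | g + 1, 0 => by rw [pow_succ, coeff_mul_Xt_zero, coeff_Xt_pow g, bn_succ_zero, smul_smul]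
  | g + 1, t + 1 => by
    rw [pow_succ, coeff_mul_Xt_succ, coeff_Xt_pow g, coeff_Xt_pow g, bn_succ_succ, add_smul,
      smul_smul, smul_mul_smul_comm, ← pow_succ, mul_comm (bn θ g t)]

lemma coeff_mul_Zt_Xt (P : (Alg M)[X]) (g m : ℕ) : (P * Zt z * Xt θ u ^ g).coeff m =
    ∑ k ∈ range m, bn θ g (m - 1 - k) • (P.coeff k * z * u ^ (m - 1 - k)) := by
  rw [coeff_mul, Finset.Nat.sum_antidiagonal_eq_sum_range_succ
    (fun a b => (P * Zt z).coeff a * (Xt θ u ^ g).coeff b), sum_range_succ', coeff_mul_Zt_zero,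
    zero_mul, add_zero]
  refine sum_congr rfl fun k _ => ?_
  rw [coeff_mul_Zt_succ, coeff_Xt_pow, mul_smul_comm, show m - (k + 1) = m - 1 - k by omega]

def Grd (θ : ℝ) (n : ℕ) (P : (Alg M)[X]) : Prop :=
  ∀ m, NN (P.coeff m) ∧ mass (P.coeff m) = bn θ n m

lemma Grd.one : Grd θ 0 (1 : (Alg M)[X])
  | 0 => by simpa [bn] using NN.one
  | m + 1 => by simpa [bn, coeff_one] using NN.zero

lemma Grd.step (h0 : 0 ≤ θ) (hu : Prob u) (hk : NN ((1 - θ) • u + z)) (hz : mass z = 0) {n : ℕ}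
    {P : (Alg M)[X]} (H : Grd θ n P) : Grd θ (n + 1) (P * (Xt θ u + Zt z))
  | 0 => by
    rw [mul_add, coeff_add, coeff_mul_Xt_zero, coeff_mul_Zt_zero, add_zero, mass_smul, (H 0).2,
      bn_succ_zero]
    exact ⟨(H 0).1.smul h0, rfl⟩
  | m + 1 => by
    rw [mul_add, coeff_add, coeff_mul_Xt_succ, coeff_mul_Zt_succ, add_assoc, ← mul_add]
    refine ⟨((H _).1.smul h0).add ((H _).1.mul hk), ?_⟩
    rw [mass_add, mass_smul, mass_mul, mass_add, mass_smul, hu.2, hz, (H _).2, (H _).2,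
      bn_succ_succ]
    ring

lemma Grd.xpow (h0 : 0 ≤ θ) (h1 : θ ≤ 1) (hu : Prob u) {n : ℕ} {P : (Alg M)[X]} (H : Grd θ n P) :
    ∀ g, Grd θ (n + g) (P * Xt θ u ^ g)
  | 0 => by simpa using H
  | g + 1 => by
    have := (H.xpow h0 h1 hu g).step (z := 0) h0 hu
      (by simpa using hu.1.smul (show 0 ≤ 1 - θ by linarith)) mass_zero
    rw [pow_succ, ← mul_assoc, ← add_assoc]
    simpa [Zt] using this

lemma Grd.bpow (h0 : 0 ≤ θ) (h1 : θ ≤ 1) (hu : Prob u) (hk : NN ((1 - θ) • u + z))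
    (hz : mass z = 0) (p p' : ℕ) :
    ∀ j, Grd θ ((p + p' + 1) * j) ((Xt θ u ^ p * (Xt θ u + Zt z) * Xt θ u ^ p') ^ j)
  | 0 => by simpa using Grd.one
  | j + 1 => by
    have := ((((Grd.bpow h0 h1 hu hk hz p p' j).xpow h0 h1 hu p).step h0 hu hk hz).xpow h0 h1 hu p')
    rw [pow_succ, ← mul_assoc, ← mul_assoc, show (p + p' + 1) * (j + 1) =
      (p + p' + 1) * j + p + 1 + p' by ring]
    exact this

lemma L2_slices (h0 : 0 ≤ θ) (h1 : θ ≤ 1) (hu : Prob u) {s : ℝ} (hs : 0 ≤ s) (hz2 : L2 z u s)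
    (hz : mass z = 0) (p p' ρ : ℕ) (m : ℕ) : ∀ (Φ : ℝ) (φ : ℕ → ℝ), (∀ i, |φ i| ≤ Φ) →
    L2 (∑ j ∈ range ρ, φ j • ((Xt θ u ^ p * (Xt θ u + Zt z) * Xt θ u ^ p') ^ j * Xt θ u ^ p).coeff m)
      (u ^ m) (Φ ^ 2 * nu (fun t => ∑ δ ∈ range ρ, bn θ (p + δ * (p + p' + 1)) t)
        (fun t => ∑ δ ∈ range ρ, bn θ (p' + p + δ * (p + p' + 1)) t) s m) := by
  induction m using Nat.strong_induction_on with
  | _ m ih =>
  intro Φ φ hφ
  have hΦ : 0 ≤ Φ := (abs_nonneg _).trans (hφ 0)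
  set N := p + p' + 1 with hN
  set V : ℕ → (Alg M)[X] := fun j => (Xt θ u ^ p * (Xt θ u + Zt z) * Xt θ u ^ p') ^ j * Xt θ u ^ p
    with hV
  set b : ℕ → ℝ := fun t => ∑ δ ∈ range ρ, bn θ (p' + p + δ * N) t with hb
  set b0 : ℕ → ℝ := fun t => ∑ δ ∈ range ρ, bn θ (p + δ * N) t with hb0
  let ψ : ℕ → ℕ → ℝ := fun t i =>
    ∑ j ∈ range ρ, if i < j then φ j * bn θ (p' + p + (j - 1 - i) * N) t else 0
  have hψ : ∀ t i, |ψ t i| ≤ Φ * b t := by
    intro t i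
    refine (abs_sum_le_sum_abs _ _).trans ?_
    have h2 : ∑ j ∈ range ρ, |if i < j then φ j * bn θ (p' + p + (j - 1 - i) * N) t else 0| ≤
        ∑ j ∈ (range ρ).filter (i < ·), Φ * bn θ (p' + p + (j - 1 - i) * N) t := by
      rw [sum_filter]
      refine sum_le_sum fun j _ => ?_
      split_ifs
      · rw [abs_mul, abs_of_nonneg (bn_nonneg h0 h1 _ _)]
        exact mul_le_mul_of_nonneg_right (hφ j) (bn_nonneg h0 h1 _ _)
      · simp
    refine h2.trans ?_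
    rw [← mul_sum]
    refine mul_le_mul_of_nonneg_left ?_ hΦ
    rw [← sum_image (s := (range ρ).filter (i < ·)) (g := fun j => j - 1 - i)
      (f := fun δ => bn θ (p' + p + δ * N) t) (fun a ha c hc h => by
        simp only [coe_filter, Set.mem_ofPred_eq] at ha hc
        have : a - 1 - i = c - 1 - i := h
        omega)]
    refine sum_le_sum_of_subset_of_nonneg (fun δ hδ => ?_) fun _ _ _ => bn_nonneg h0 h1 _ _
    obtain ⟨j, hj, rfl⟩ := mem_image.1 hδ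
    have := mem_range.1 (mem_filter.1 hj).1
    exact mem_range.2 (by omega)
  have H := L2.ortho_sum (c := ∑ j ∈ range ρ, φ j * bn θ (N * j + p) m)
    (A := fun k => ∑ i ∈ range ρ, ψ (m - 1 - k) i • (V i).coeff k)
    (v := fun k => (Φ * b (m - 1 - k)) ^ 2 * nu b0 b s k) hu hs hz2 hz m
    (fun k _ => mul_nonneg (sq_nonneg _) (nu_nonneg _ _ hs k))
    (fun k hk => ih k hk _ _ (hψ _))
  have e : ∑ j ∈ range ρ, φ j • (V j).coeff m = (∑ j ∈ range ρ, φ j * bn θ (N * j + p) m) • u ^ m +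
      ∑ k ∈ range m, (∑ i ∈ range ρ, ψ (m - 1 - k) i • (V i).coeff k) * z * u ^ (m - 1 - k) := by
    have e1 : ∀ j ∈ range ρ, φ j • (V j).coeff m = (φ j * bn θ (N * j + p) m) • u ^ m +
        ∑ k ∈ range m, ∑ i ∈ range ρ,
          (if i < j then φ j * bn θ (p' + p + (j - 1 - i) * N) (m - 1 - k) else 0) •
            ((V i).coeff k * z * u ^ (m - 1 - k)) := by
      intro j hj
      rw [mem_range] at hj
      have e2 : V j = _ := tele (Xt θ u) (Zt z) p p' j p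
      rw [e2, coeff_add, coeff_Xt_pow, finsetSum_coeff, smul_add, smul_smul, sum_comm]
      congr 1
      rw [smul_sum, ← sum_subset (range_subset_range.2 hj.le) (fun i _ hi => by
        have : ¬i < j := by simpa using hi
        simp [this])]
      refine sum_congr rfl fun i hi => ?_
      rw [coeff_mul_Zt_Xt, smul_sum]
      refine sum_congr rfl fun k _ => ?_
      rw [if_pos (mem_range.1 hi), smul_smul]
    rw [sum_congr rfl e1, sum_add_distrib, ← sum_smul, sum_comm]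
    congr 1
    refine sum_congr rfl fun k _ => ?_
    rw [sum_comm, sum_mul, sum_mul]
    refine sum_congr rfl fun i _ => ?_
    rw [← sum_smul, smul_mul_assoc, smul_mul_assoc]
  rw [e]
  refine H.mono (hu.pow m).1 ?_
  have h3 : |∑ j ∈ range ρ, φ j * bn θ (N * j + p) m| ≤ Φ * b0 m := by
    refine (abs_sum_le_sum_abs _ _).trans ?_
    rw [hb0, mul_sum]
    refine sum_le_sum fun j _ => ?_
    rw [abs_mul, abs_of_nonneg (bn_nonneg h0 h1 _ _), show N * j + p = p + j * N by ring]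
    exact mul_le_mul_of_nonneg_right (hφ j) (bn_nonneg h0 h1 _ _)
  have h4 := pow_le_pow_left₀ (abs_nonneg _) h3 2
  rw [sq_abs] at h4
  have e3 : ∑ k ∈ range m, (Φ * b (m - 1 - k)) ^ 2 * nu b0 b s k =
      Φ ^ 2 * ∑ k ∈ range m, b (m - 1 - k) ^ 2 * nu b0 b s k := by
    rw [mul_sum]
    exact sum_congr rfl fun k _ => by ring
  rw [nu_eq, e3]
  rw [mul_pow] at h4
  nlinarith

noncomputable def ev1 : (Alg M)[X] →+* Alg M :=
  eval₂RingHom' (RingHom.id _) 1 fun a => Commute.one_right a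

lemma ev1_Xt : ev1 (Xt θ u) = θ • 1 + (1 - θ) • u := by simp [ev1, Xt, eval₂_mul_X]

lemma ev1_Zt : ev1 (Zt z) = z := by simp [ev1, Zt, eval₂_mul_X]

lemma ev1_eq (P : (Alg M)[X]) : ev1 P = ∑ m ∈ P.support, P.coeff m := by
  simp [ev1, eval₂_eq_sum, Polynomial.sum]

lemma card_window (s : Finset ℕ) {μ R : ℝ} (hμ : 0 ≤ μ) (hR : 0 ≤ R) :
    ((s.filter fun m : ℕ => |(m : ℝ) - μ| ≤ R).card : ℝ) ≤ 2 * R + 1 := by
  have h1 : (s.filter fun m : ℕ => |(m : ℝ) - μ| ≤ R) ⊆ Icc ⌈μ - R⌉₊ ⌊μ + R⌋₊ := by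
    intro m hm
    have := abs_le.1 (mem_filter.1 hm).2
    exact mem_Icc.2 ⟨Nat.ceil_le.2 (by linarith), Nat.le_floor (by linarith)⟩
  refine (Nat.cast_le.2 (card_le_card h1)).trans ?_
  rw [Nat.card_Icc]
  rcases le_total ⌈μ - R⌉₊ (⌊μ + R⌋₊ + 1) with h | h
  · rw [Nat.cast_sub h]
    have h2 := Nat.le_ceil (μ - R)
    have h3 := Nat.floor_le (show 0 ≤ μ + R by linarith)
    push_cast
    linarith
  · rw [Nat.sub_eq_zero_of_le h]; push_cast; linarith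

lemma nrm_ev1_le (h0 : 0 ≤ θ) (h1 : θ ≤ 1) {P : (Alg M)[X]} {A R : ℝ} {n : ℕ} (hR : 0 < R)
    (hA : ∀ m, nrm (P.coeff m) ≤ A) (hb : ∀ m, nrm (P.coeff m) ≤ 2 * bn θ n m) :
    nrm (ev1 P) ≤ (2 * R + 1) * A + n / R ^ 2 := by
  have hA0 : 0 ≤ A := (nrm_nonneg _).trans (hA 0)
  rw [ev1_eq]
  refine (nrm_sum_le _ _).trans ?_
  rw [← sum_filter_add_sum_filter_not _ fun m : ℕ => |(m : ℝ) - n * (1 - θ)| ≤ R]
  refine add_le_add ?_ ?_
  · refine (sum_le_card_nsmul _ _ A fun m _ => hA m).trans ?_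
    rw [nsmul_eq_mul]
    exact mul_le_mul_of_nonneg_right (card_window _ (mul_nonneg n.cast_nonneg (by linarith)) hR.le)
      hA0
  · have h2 := sum_le_Ex h0 h1 n (f := fun t => ((t : ℝ) - n * (1 - θ)) ^ 2) (fun _ => sq_nonneg _)
      (P.support.filter fun m : ℕ => ¬|(m : ℝ) - n * (1 - θ)| ≤ R)
    rw [Ex_var] at h2
    rw [le_div_iff₀ (by positivity), sum_mul]
    have h3 : (n : ℝ) * (1 - θ) * θ * 2 ≤ n := by
      rw [mul_assoc, mul_assoc]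
      exact mul_le_of_le_one_right n.cast_nonneg (by nlinarith [sq_nonneg (1 - 2 * θ)])
    refine le_trans ?_ (le_trans ?_ h3 : 2 * ∑ t ∈ P.support.filter fun m : ℕ =>
      ¬|(m : ℝ) - n * (1 - θ)| ≤ R, bn θ n t * ((t : ℝ) - n * (1 - θ)) ^ 2 ≤ (n : ℝ))
    · rw [mul_sum]
      refine sum_le_sum fun m hm => ?_
      have h4 := not_le.1 (mem_filter.1 hm).2
      have h5 : R ^ 2 ≤ ((m : ℝ) - n * (1 - θ)) ^ 2 := by
        rw [← sq_abs ((m : ℝ) - _)]; exact pow_le_pow_left₀ hR.le h4.le 2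
      have h6 := bn_nonneg h0 h1 n m
      calc _ ≤ 2 * bn θ n m * R ^ 2 := mul_le_mul_of_nonneg_right (hb m) (sq_nonneg _)
        _ ≤ _ := by rw [mul_assoc]; gcongr
    · nlinarith

lemma nrm_slice (h0 : 0 < θ) (h1 : θ < 1) (hu : Prob u) {s : ℝ} (hs : 0 ≤ s) (hz2 : L2 z u s)
    (hz : mass z = 0) {p p' ρ : ℕ} (d : ℕ) {w A0 : ℝ} (hp : p + p' + 1 ≤ 4 * (p + 1))
    (hw0 : 0 ≤ w) (hw1 : w ≤ 1) (hρ : (ρ : ℝ) ≤ w ^ 12 * (p + p' + 1 : ℕ))
    (hsw : s * (20 / ((1 - θ) * θ) * w ^ 6) ≤ 1 / 2) (hA0 : 0 ≤ A0)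
    (hA : 40 * s / ((1 - θ) * θ) ≤ A0 ^ 2) (m : ℕ) :
    nrm (((Xt θ u ^ p * (Xt θ u + Zt z) * Xt θ u ^ p') ^ ρ * Xt θ u ^ d -
      Xt θ u ^ ((p + p' + 1) * ρ + d)).coeff m) ≤
      A0 * w ^ 3 * (1 / ((1 - θ) * θ) / √(p' + d + 1)) := by
  have hθ : 0 < (1 - θ) * θ := mul_pos (by linarith) h0
  set Φ := 1 / ((1 - θ) * θ) / √(p' + d + 1) with hΦ
  have hΦ0 : 0 ≤ Φ := by positivity
  rw [tele, add_sub_cancel_left, finsetSum_coeff]
  set N := p + p' + 1 with hN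
  set V : ℕ → (Alg M)[X] := fun j => (Xt θ u ^ p * (Xt θ u + Zt z) * Xt θ u ^ p') ^ j * Xt θ u ^ p
    with hV
  have H := L2.ortho_sum (c := 0)
    (A := fun k => ∑ i ∈ range ρ, bn θ (p' + d + (ρ - 1 - i) * N) (m - 1 - k) • (V i).coeff k)
    hu hs hz2 hz m (fun k _ => mul_nonneg (sq_nonneg Φ) (nu_nonneg _ _ hs k))
    (fun k _ => L2_slices h0.le h1.le hu hs hz2 hz p p' ρ k Φ _ fun i => by
      rw [abs_of_nonneg (bn_nonneg h0.le h1.le _ _)]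
      refine (bn_le h0 h1 _ _).trans (div_le_div_of_nonneg_left (by positivity) (by positivity)
        (Real.sqrt_le_sqrt ?_))
      push_cast
      have : (0 : ℝ) ≤ ((ρ - 1 - i : ℕ) : ℝ) * (N : ℝ) := by positivity
      linarith)
  have e : ∑ i ∈ range ρ, (V i * Zt z * Xt θ u ^ (p' + d + (ρ - 1 - i) * N)).coeff m =
      (0 : ℝ) • u ^ m + ∑ k ∈ range m, (∑ i ∈ range ρ,
        bn θ (p' + d + (ρ - 1 - i) * N) (m - 1 - k) • (V i).coeff k) * z * u ^ (m - 1 - k) := by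
    rw [zero_smul, zero_add, sum_congr rfl fun i _ => coeff_mul_Zt_Xt _ _ _, sum_comm]
    refine sum_congr rfl fun k _ => ?_
    rw [sum_mul, sum_mul]
    refine sum_congr rfl fun i _ => ?_
    rw [smul_mul_assoc, smul_mul_assoc]
  rw [← e] at H
  refine H.nrm_le (hu.pow m) (by positivity) ?_
  have h2 := nu_sum_le hs (mu_le h0 h1 (N := N) (g0 := p) (by omega) hp hw0 hw1 hρ)
    (mu_le h0 h1 (N := N) (g0 := p' + p) (by omega) (by omega) hw0 hw1 hρ) hsw m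
  rw [← mul_sum]
  calc _ ≤ s * (Φ ^ 2 * (2 * (20 / ((1 - θ) * θ) * w ^ 6))) := by
        rw [zero_pow two_ne_zero, zero_add]; gcongr
    _ = (40 * s / ((1 - θ) * θ)) * (w ^ 6 * Φ ^ 2) := by ring
    _ ≤ A0 ^ 2 * (w ^ 6 * Φ ^ 2) := by gcongr
    _ = _ := by ring

lemma nrm_core (h0 : 0 < θ) (h1 : θ < 1) (hu : Prob u) {s : ℝ} (hs : 0 ≤ s) (hz2 : L2 z u s)
    (hz : mass z = 0) (hk : NN ((1 - θ) • u + z)) {p p' ρ : ℕ} (d : ℕ) {w A0 : ℝ}
    (hp : p + p' + 1 ≤ 4 * (p + 1)) (hw0 : 0 < w) (hw1 : w ≤ 1)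
    (hρ : (ρ : ℝ) ≤ w ^ 12 * (p + p' + 1 : ℕ)) (hsw : s * (20 / ((1 - θ) * θ) * w ^ 6) ≤ 1 / 2)
    (hA0 : 0 ≤ A0) (hA : 40 * s / ((1 - θ) * θ) ≤ A0 ^ 2) (hρ1 : 1 ≤ ρ)
    (hd : (p + p' + 1) * ρ + d ≤ 4 * (p' + d + 1)) {x : Alg M} (hx : x = θ • 1 + (1 - θ) • u) :
    nrm ((x ^ p * (x + z) * x ^ p') ^ ρ * x ^ d - x ^ ((p + p' + 1) * ρ + d)) ≤
      (6 * A0 / ((1 - θ) * θ) + 1) * w ^ 2 := by
  have hθ : 0 < (1 - θ) * θ := mul_pos (by linarith) h0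
  set n := (p + p' + 1) * ρ + d with hn
  have hn1 : (1 : ℝ) ≤ n := by
    have : 1 ≤ n := le_trans (Nat.mul_pos (by omega) hρ1) (Nat.le_add_right _ _)
    exact_mod_cast this
  have hsn : 1 ≤ √(n : ℝ) := Real.one_le_sqrt.2 hn1
  have H := nrm_ev1_le h0.le h1.le (n := n) (R := √n / w) (by positivity)
    (nrm_slice h0 h1 hu hs hz2 hz d hp hw0.le hw1 hρ hsw hA0 hA) fun m => by
      have g1 := (Grd.bpow h0.le h1.le hu hk hz p p' ρ).xpow h0.le h1.le hu d m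
      have g2 := (Grd.one (M := M)).xpow h0.le h1.le hu n m
      rw [one_mul, zero_add] at g2
      rw [coeff_sub]
      refine (nrm_sub_le _ _).trans ?_
      rw [g1.1.nrm_eq, g2.1.nrm_eq, g1.2, g2.2]
      linarith
  simp only [map_sub, map_mul, map_pow, map_add, ev1_Xt, ev1_Zt, ← hx] at H
  refine H.trans ?_
  have e1 : (n : ℝ) / (√n / w) ^ 2 = w ^ 2 := by
    rw [div_pow, Real.sq_sqrt (by linarith)]; field_simp
  have e2 : √(n : ℝ) ≤ 2 * √(p' + d + 1) := by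
    rw [show (2 : ℝ) = √4 by rw [show (4 : ℝ) = 2 ^ 2 by norm_num, Real.sqrt_sq zero_le_two],
      ← Real.sqrt_mul (by norm_num)]
    exact Real.sqrt_le_sqrt (by exact_mod_cast hd)
  have e3 : 0 < √((p' : ℝ) + d + 1) := by positivity
  have e4 : 2 * (√n / w) + 1 ≤ 6 * √(p' + d + 1) / w := by
    rw [le_div_iff₀ hw0, add_mul, mul_assoc, div_mul_cancel₀ _ hw0.ne']
    linarith
  have e5 : 0 ≤ A0 * w ^ 3 * (1 / ((1 - θ) * θ) / √(p' + d + 1)) := by positivity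
  have e6 := mul_le_mul_of_nonneg_right e4 e5
  have e7 : 6 * √(p' + d + 1) / w * (A0 * w ^ 3 * (1 / ((1 - θ) * θ) / √(p' + d + 1))) =
      6 * A0 / ((1 - θ) * θ) * w ^ 2 := by field_simp
  rw [e1]
  linarith

lemma nrm_crit (h0 : 0 < θ) (h1 : θ < 1) (hu : Prob u) {s : ℝ} (hs : 0 ≤ s) (hz2 : L2 z u s)
    (hz : mass z = 0) (hk : NN ((1 - θ) • u + z)) {p p' : ℕ} {A0 : ℝ}
    (hp : p + p' + 1 ≤ 4 * (p + 1)) (hp' : p + p' + 1 ≤ 4 * (p' + 1))
    (hA0 : 0 ≤ A0) (hA : 40 * s / ((1 - θ) * θ) ≤ A0 ^ 2) {x : Alg M}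
    (hx : x = θ • 1 + (1 - θ) • u) (ρ : ℕ) : ∀ w : ℝ, 0 < w → w ≤ 1 →
    (ρ : ℝ) ≤ w ^ 12 * (p + p' + 1 : ℕ) → s * (20 / ((1 - θ) * θ) * w ^ 6) ≤ 1 / 2 →
    nrm ((x ^ p * (x + z) * x ^ p') ^ ρ - x ^ ((p + p' + 1) * ρ)) ≤
      11 * (6 * A0 / ((1 - θ) * θ) + 1) * w ^ 2 := by
  have hθ : 0 < (1 - θ) * θ := mul_pos (by linarith) h0
  have hX : Prob x := by
    rw [hx]
    refine ⟨(NN.one.smul h0.le).add (hu.1.smul (by linarith)), ?_⟩
    rw [mass_add, mass_smul, mass_smul, mass_one, hu.2]; ring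
  have hY : Prob (x + z) := by
    refine ⟨?_, by rw [mass_add, hX.2, hz, add_zero]⟩
    rw [hx, add_assoc]
    exact (NN.one.smul h0.le).add hk
  have hB := ((hX.pow p).mul hY).mul (hX.pow p')
  induction ρ using Nat.strong_induction_on with
  | _ ρ ih =>
  intro w hw0 hw1 hρ hsw
  have hC : 0 ≤ 6 * A0 / ((1 - θ) * θ) + 1 := by positivity
  rcases Nat.eq_zero_or_pos ρ with rfl | hρ1
  · rw [pow_zero, mul_zero, pow_zero, sub_self, NN.zero.nrm_eq, mass_zero]; positivity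
  set N := p + p' + 1 with hN
  set B := x ^ p * (x + z) * x ^ p'
  have hw12 : 0 ≤ w ^ 12 * (N : ℝ) := by positivity
  have k1 := ih (ρ / 2) (by omega) (0.95 * w) (by positivity) (by linarith) (by
      have : ((ρ / 2 : ℕ) : ℝ) ≤ ρ / 2 := Nat.cast_div_le
      rw [mul_pow, mul_assoc]
      have h2 : (1 / 2 : ℝ) ≤ 0.95 ^ 12 := by norm_num
      nlinarith) (le_trans (by gcongr; linarith) hsw)
  have k2 := nrm_core h0 h1 hu hs hz2 hz hk (ρ := ρ - ρ / 2) (N * (ρ / 2)) hp hw0 hw1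
    (le_trans (Nat.cast_le.2 (Nat.sub_le _ _)) hρ) hsw hA0 hA (by omega) (by
      rw [← hN, ← mul_add, Nat.sub_add_cancel (Nat.div_le_self _ _)]
      rcases Nat.lt_or_ge ρ 2 with h | h
      · obtain rfl : ρ = 1 := by omega
        omega
      · calc N * ρ ≤ N * (4 * (ρ / 2)) := Nat.mul_le_mul_left _ (by omega)
          _ = 4 * (N * (ρ / 2)) := by ring
          _ ≤ _ := by omega) hx
  have e : B ^ ρ - x ^ (N * ρ) = B ^ (ρ - ρ / 2) * (B ^ (ρ / 2) - x ^ (N * (ρ / 2))) +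
      (B ^ (ρ - ρ / 2) * x ^ (N * (ρ / 2)) - x ^ (N * (ρ - ρ / 2) + N * (ρ / 2))) := by
    rw [mul_sub, ← pow_add, ← mul_add, Nat.sub_add_cancel (Nat.div_le_self _ _)]
    abel
  rw [e]
  refine (nrm_add_le _ _).trans ((add_le_add ((nrm_prob_mul_le _ (hB.pow _)).trans k1) k2).trans ?_)
  have : 0 ≤ (6 * A0 / ((1 - θ) * θ) + 1) * w ^ 2 := by positivity
  nlinarith

end Vale.Agent.P321
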