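import Vale.Agent.P321.Str

/-! The Thue-Morse block construction and the decomposition of the new defect. -/

namespace Vale.Agent.P321

open MonoidAlgebra Real

/-- The two new blocks. -/
def PQ {G : Type} [Monoid G] (x y : G) (g : ℕ) : ℕ → G × G
  | 0 => (x ^ g * (x * y) * x ^ g, x ^ g * (y * x) * x ^ g)
  | t + 1 => ((PQ x y g t).1 * (PQ x y g t).2, (PQ x y g t).2 * (PQ x y g t).1)

lemma PQ_map {G G' : Type} [Monoid G] [Monoid G'] (f : G →* G') (x y : G) (g : ℕ) :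
    ∀ t, PQ (f x) (f y) g t = (f (PQ x y g t).1, f (PQ x y g t).2)
  | 0 => by simp [PQ]
  | t + 1 => by simp [PQ, PQ_map f x y g t]

def nn (g t : ℕ) : ℕ := 2 ^ t * (2 * g + 2)

lemma nn_succ (g t : ℕ) : nn g (t + 1) = nn g t + nn g t := by simp [nn, pow_succ]; ring

lemma nn_mono (g : ℕ) {s t : ℕ} (h : s ≤ t) : nn g s ≤ nn g t :=
  Nat.mul_le_mul_right _ (Nat.pow_le_pow_right (by norm_num) h)

variable {M : Type} [Monoid M]

/-- The first-order part of the new defect. -/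
noncomputable def TT (X Y : Alg M) (g : ℕ) : ℕ → Alg M
  | 0 => X ^ g * ((Y - X) * X - X * (Y - X)) * X ^ g
  | t + 1 => TT X Y g t * X ^ nn g t - X ^ nn g t * TT X Y g t

variable {X Y : Alg M} {g c lim : ℕ} {κ : ℝ}

lemma PQ_prob (hX : Prob X) (hY : Prob Y) : ∀ t, Prob (PQ X Y g t).1 ∧ Prob (PQ X Y g t).2
  | 0 => ⟨((hX.pow g).mul (hX.mul hY)).mul (hX.pow g), ((hX.pow g).mul (hY.mul hX)).mul (hX.pow g)⟩
  | t + 1 => ⟨(PQ_prob hX hY t).1.mul (PQ_prob hX hY t).2,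
      (PQ_prob hX hY t).2.mul (PQ_prob hX hY t).1⟩

lemma mass_TT : ∀ t, mass (TT X Y g t) = 0
  | 0 => by simp only [TT, mass_mul, mass_sub]; ring
  | t + 1 => by simp only [TT, mass_mul, mass_sub]; ring

lemma W_cells (hX : Prob X) {e d : ℝ} (H : DP X (X ^ g * (Y - X) * X ^ g) (g + 1 + g) e d) :
    ∀ t, DP X ((PQ X Y g t).1 - X ^ nn g t) (nn g t) ((1 + e) ^ 2 ^ t - 1) (2 ^ t * d) ∧
      DP X ((PQ X Y g t).2 - X ^ nn g t) (nn g t) ((1 + e) ^ 2 ^ t - 1) (2 ^ t * d)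
  | 0 => by
    have e0 : X ^ nn g 0 = X ^ g * (X * X) * X ^ g := by
      rw [← pow_two, ← pow_add, ← pow_add]; congr 1; simp [nn]; ring
    constructor
    · refine (H.ctx hX 1 0).of hX ?_ (by simp [nn]; ring) (by simp) (by simp)
      rw [e0, PQ, pow_zero, pow_one, mul_one, ← mul_assoc X, ← mul_assoc X, ← pow_succ', pow_succ]
      noncomm_ring
    · refine (H.ctx hX 0 1).of hX ?_ (by simp [nn]; ring) (by simp) (by simp)
      rw [e0, PQ, pow_zero, pow_one, one_mul, mul_assoc _ _ X, ← pow_succ, pow_succ']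
      noncomm_ring
  | t + 1 => by
    obtain ⟨h1, h2⟩ := W_cells hX H t
    have hd := H.d_nonneg
    have key : ∀ {A B : Alg M}, DP X (A - X ^ nn g t) (nn g t) ((1 + e) ^ 2 ^ t - 1) (2 ^ t * d) →
        DP X (B - X ^ nn g t) (nn g t) ((1 + e) ^ 2 ^ t - 1) (2 ^ t * d) →
        DP X (A * B - X ^ nn g (t + 1)) (nn g (t + 1)) ((1 + e) ^ 2 ^ (t + 1) - 1)
          (2 ^ (t + 1) * d) := by
      intro A B hA hB
      have hdd : 2 ^ t * d ≤ 2 ^ (t + 1) * d := by
        rw [pow_succ]; nlinarith [show 0 ≤ 2 ^ t * d by positivity]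
      have k1 := (hA.ctx hX 0 (nn g t)).of hX rfl (show nn g (t + 1) = _ by rw [nn_succ]; omega)
        le_rfl hdd
      have k2 := (hB.ctx hX (nn g t) 0).of hX rfl (show nn g (t + 1) = _ by rw [nn_succ]; omega)
        le_rfl hdd
      have k3 := (hA.mul hB hX).of hX rfl (nn_succ g t) le_rfl
        (le_of_eq (show _ = 2 ^ (t + 1) * d by ring))
      refine ((k1.add k2).add k3).of hX ?_ rfl (le_of_eq ?_) le_rfl
      · rw [nn_succ, pow_add, pow_zero]; noncomm_ring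
      · rw [pow_succ 2 t, pow_mul]; ring
    exact ⟨key h1 h2, key h2 h1⟩

lemma T_str (hX : Prob X) (hκ : 0 ≤ κ) {R : ℕ} {θ d : ℝ}
    (H : Str X c lim κ (X ^ R * TT X Y g 0 * X ^ R) (R + nn g 0 + R) θ d) :
    ∀ t, Str X c lim κ (X ^ R * TT X Y g t * X ^ R) (R + nn g t + R) (2 ^ t * θ) d
  | 0 => by simpa using H
  | t + 1 => by
    have h := T_str hX hκ H t
    have k1 := (h.ctx hX hκ 0 (nn g t)).of hX rfl
      (show R + nn g (t + 1) + R = _ by rw [nn_succ]; omega) le_rfl le_rfl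
    have k2 := (h.ctx hX hκ (nn g t) 0).of hX rfl
      (show R + nn g (t + 1) + R = _ by rw [nn_succ]; omega) le_rfl le_rfl
    refine (k1.sub k2 hX).of hX ?_ rfl (le_of_eq (by ring)) le_rfl
    have hc : X ^ R * X ^ nn g t = X ^ nn g t * X ^ R := by rw [← pow_add, ← pow_add, add_comm]
    simp only [TT, pow_zero, one_mul, mul_one, mul_sub, sub_mul, mul_assoc, hc]
    simp only [← mul_assoc, hc]

lemma H_str (hX : Prob X) (hκ : 0 ≤ κ) {m : ℕ} {θ d w dW : ℝ}
    (H : Str X c lim κ (TT X Y g 0) (nn g 0) θ d) (hw0 : 0 ≤ w) (hw : w ≤ 1) (hdW : 0 ≤ dW)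
    (hW : ∀ t < m, DP X ((PQ X Y g t).1 - X ^ nn g t) (nn g t) w dW) :
    ∀ t ≤ m, Str X c lim κ ((PQ X Y g t).2 - (PQ X Y g t).1 - TT X Y g t) (nn g t)
      (8 ^ t * θ * w) (d + κ * (t * dW))
  | 0, _ => by
    refine (Str.zero hκ H.2.1).of hX ?_ rfl (by have := H.1; positivity) (by simp)
    simp only [PQ, TT]; noncomm_ring
  | t + 1, ht => by
    have h1 := H_str hX hκ H hw0 hw hdW hW t (by omega)
    have h2 := hW t (by omega)
    have h3 : DP X (PQ X Y g t).1 (nn g t) 2 dW :=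
      DP.mono (Dom.fwd h2 (hX.pow _).1) hX (by linarith) le_rfl
    have h4 : Str X c lim κ (TT X Y g t) (nn g t) (2 ^ t * θ) d := by
      simpa using T_str (R := 0) hX hκ (by simpa using H) t
    have hθ := H.1
    have e1 : d + κ * (t * dW) + κ * dW = d + κ * ((t + 1 : ℕ) * dW) := by push_cast; ring
    have e2 : d + κ * dW ≤ d + κ * ((t + 1 : ℕ) * dW) := by
      push_cast; nlinarith [mul_nonneg hκ (show 0 ≤ (t : ℝ) * dW by positivity)]
    have k1 := (h1.rmul h3 hX hκ).of hX rfl (nn_succ g t) le_rfl e1.le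
    have k2 := (h1.lmul h3 hX hκ).of hX rfl (nn_succ g t) le_rfl e1.le
    have k3 := (h4.rmul h2 hX hκ).of hX rfl (nn_succ g t) le_rfl e2
    have k4 := (h4.lmul h2 hX hκ).of hX rfl (nn_succ g t) le_rfl e2
    refine (((k1.sub k2 hX).add k3 hX).sub k4 hX).of hX ?_ rfl ?_ le_rfl
    · simp only [PQ, TT]; noncomm_ring
    · have : (2 : ℝ) ^ t ≤ 8 ^ t := pow_le_pow_left₀ (by norm_num) (by norm_num) t
      have := mul_le_mul_of_nonneg_right this (mul_nonneg hθ hw0)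
      have : 0 ≤ (8 : ℝ) ^ t * (θ * w) := by positivity
      rw [pow_succ]; nlinarith

lemma T_tiny (hX : Prob X) {R N m c' : ℕ} {θ d τ ds : ℝ}
    (H : DP X (X ^ R * TT X Y g 0 * X ^ R) (R + nn g 0 + R) θ d) (S : Slip X c' τ ds)
    (hN : nn g m ≤ N) : ∀ t ≤ m, DP X (X ^ (R + t * c') * TT X Y g t * X ^ (R + t * c'))
      (R + t * c' + nn g t + (R + t * c')) (θ * (2 * N * τ) ^ t) (d + t * ds)
  | 0, _ => by simpa using H
  | t + 1, ht => by
    have h := T_tiny hX H S hN t (by omega)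
    refine (h.commn hX S (nn g t)).neg.of hX ?_ (by rw [nn_succ]; ring) ?_
      (le_of_eq (by push_cast; ring))
    · simp only [TT, mul_sub, sub_mul, neg_sub]
      simp only [← mul_assoc, ← pow_add]
      simp only [mul_assoc, ← pow_add]
      congr 3 <;> ring_nf
    · have h1 : (nn g t : ℝ) ≤ N := by exact_mod_cast (nn_mono g (by omega)).trans hN
      have h2 := h.h_nonneg
      have h3 := S.h_nonneg
      rw [pow_succ]
      nlinarith [mul_le_mul_of_nonneg_right h1 (mul_nonneg h3 h2)]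

end Vale.Agent.P321
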