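import Mathlib

/-! Worst-case trace reconstruction: the model. -/

namespace Vale.Agent.P321

/-- The trace of `x`: the bits `x i` with `keep i = true`, in their original order. -/
def trace {n : ℕ} (x keep : Fin n → Bool) : List Bool :=
  ((List.ofFn fun i => (x i, keep i)).filter fun b => b.2).map fun b => b.1

/-- The probability of the pattern `keep`: each bit is deleted independently with probability `q`. -/
noncomputable def maskWeight (q : ℝ) {n : ℕ} (keep : Fin n → Bool) : ℝ :=
  ∏ i, if keep i then 1 - q else q

/-- The probability that the randomized estimator `est`, given `m` independent traces of `x`,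
outputs `x`. -/
noncomputable def successProb (q : ℝ) {n m : ℕ}
    (est : (Fin m → List Bool) → PMF (Fin n → Bool)) (x : Fin n → Bool) : ℝ :=
  ∑ S : Fin m → Fin n → Bool,
    (∏ j, maskWeight q (S j)) * (est (fun j => trace x (S j)) x).toReal

end Vale.Agent.P321
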