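import Vale.Agent.P321.Basic

/-! Pointwise domination up to a small remainder. -/

namespace Vale.Agent.P321

open MonoidAlgebra Real

variable {M : Type}

/-- `Z` is dominated by `h • R` up to a remainder of mass `h (e^d - 1)`. -/
def Dom (Z R : Alg M) (h d : ℝ) : Prop :=
  0 ≤ h ∧ 0 ≤ d ∧ ∃ E, NN E ∧ mass E ≤ h * (exp d - 1) ∧ AbsLe Z (h • R + E)

lemma expm1_nonneg {d : ℝ} (hd : 0 ≤ d) : 0 ≤ exp d - 1 := by
  have := Real.add_one_le_exp d; linarith

lemma expm1_mono {a b : ℝ} (h : a ≤ b) : exp a - 1 ≤ exp b - 1 := by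
  have := Real.exp_le_exp.2 h; linarith

lemma expm1_add {a b : ℝ} (ha : 0 ≤ a) (hb : 0 ≤ b) :
    (exp a - 1) + (exp b - 1) ≤ exp (a + b) - 1 := by
  have h1 := expm1_nonneg ha
  have h2 := expm1_nonneg hb
  rw [Real.exp_add]; nlinarith [mul_nonneg h1 h2]

lemma expm1_mul {c : ℝ} (hc : 1 ≤ c) (x : ℝ) : c * (exp x - 1) ≤ exp (c * x) - 1 := by
  have h := one_add_mul_self_le_rpow_one_add (s := exp x - 1)
    (by have := Real.exp_pos x; linarith) hc
  have h2 : (1 + (exp x - 1)) ^ c = exp (c * x) := by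
    rw [add_sub_cancel, ← Real.exp_mul, mul_comm]
  linarith

lemma le_expm1 (x : ℝ) : x ≤ exp x - 1 := by have := Real.add_one_le_exp x; linarith

lemma Dom.h_nonneg {Z R : Alg M} {h d : ℝ} (H : Dom Z R h d) : 0 ≤ h := H.1
lemma Dom.d_nonneg {Z R : Alg M} {h d : ℝ} (H : Dom Z R h d) : 0 ≤ d := H.2.1

lemma Dom.mono {Z R : Alg M} {h d h' d' : ℝ} (H : Dom Z R h d) (hR : NN R) (hh : h ≤ h')
    (hd : d ≤ d') : Dom Z R h' d' := by
  obtain ⟨h0, d0, E, hE, hm, hZ⟩ := H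
  refine ⟨h0.trans hh, d0.trans hd, E, hE, hm.trans ?_, hZ.trans_le fun t => ?_⟩
  · exact mul_le_mul hh (expm1_mono hd) (expm1_nonneg d0) (h0.trans hh)
  · simpa using mul_le_mul_of_nonneg_right hh (hR t)

lemma Dom.of_absLe {Z R : Alg M} {h : ℝ} (h0 : 0 ≤ h) (H : AbsLe Z (h • R)) : Dom Z R h 0 :=
  ⟨h0, le_rfl, 0, NN.zero, by simp, by simpa using H⟩

lemma Dom.refl {R : Alg M} (hR : NN R) : Dom R R 1 0 :=
  Dom.of_absLe zero_le_one (by simpa using hR.absLe)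

lemma Dom.zero {R : Alg M} {d : ℝ} (hd : 0 ≤ d) : Dom 0 R 0 d :=
  ⟨le_rfl, hd, 0, NN.zero, by simp, fun t => by simp⟩

lemma Dom.add {Z W R : Alg M} {h h' d : ℝ} (H : Dom Z R h d) (H' : Dom W R h' d) :
    Dom (Z + W) R (h + h') d := by
  obtain ⟨h0, d0, E, hE, hm, hZ⟩ := H
  obtain ⟨h0', -, E', hE', hm', hZ'⟩ := H'
  refine ⟨add_nonneg h0 h0', d0, E + E', hE.add hE', by rw [mass_add]; linarith, ?_⟩
  have := hZ.add hZ'
  rwa [show h • R + E + (h' • R + E') = (h + h') • R + (E + E') by rw [add_smul]; abel] at this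

lemma Dom.neg {Z R : Alg M} {h d : ℝ} (H : Dom Z R h d) : Dom (-Z) R h d := by
  obtain ⟨h0, d0, E, hE, hm, hZ⟩ := H
  exact ⟨h0, d0, E, hE, hm, hZ.neg⟩

lemma Dom.sub {Z W R : Alg M} {h h' d : ℝ} (H : Dom Z R h d) (H' : Dom W R h' d) :
    Dom (Z - W) R (h + h') d := by
  rw [sub_eq_add_neg]; exact H.add H'.neg

lemma Dom.smul {Z R : Alg M} {h d : ℝ} (H : Dom Z R h d) (c : ℝ) :
    Dom (c • Z) R (|c| * h) d := by
  obtain ⟨h0, d0, E, hE, hm, hZ⟩ := H
  refine ⟨mul_nonneg (abs_nonneg _) h0, d0, |c| • E, hE.smul (abs_nonneg _), ?_, ?_⟩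
  · rw [mass_smul, mul_assoc]; exact mul_le_mul_of_nonneg_left hm (abs_nonneg _)
  · have := hZ.smul c
    rwa [smul_add, smul_smul] at this

lemma Dom.sum_range {R : Alg M} {h d : ℝ} (hd : 0 ≤ d) (f : ℕ → Alg M) :
    ∀ n : ℕ, (∀ k < n, Dom (f k) R h d) → Dom (∑ k ∈ Finset.range n, f k) R (n * h) d
  | 0, _ => by simpa using Dom.zero hd
  | n + 1, H => by
    rw [Finset.sum_range_succ]
    have := (Dom.sum_range hd f n fun k hk => H k (by omega)).add (H n (by omega))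
    convert this using 1
    push_cast; ring

lemma Dom.split {Z R : Alg M} {h d : ℝ} (H : Dom Z R h d) (hR : NN R) :
    ∃ Z0, AbsLe Z0 (h • R) ∧ nrm (Z - Z0) ≤ h * (exp d - 1) := by
  obtain ⟨h0, -, E, hE, hm, hZ⟩ := H
  exact ⟨clamp Z (h • R), clamp_absLe _ (hR.smul h0),
    (nrm_le (sub_clamp_absLe (hR.smul h0) hE hZ)).trans hm⟩

/-- Perturbing a dominated measure in total variation. -/
lemma Dom.perturb {Z Z0 R : Alg M} {h d d' : ℝ} (H : Dom Z0 R h d) (hd' : 0 ≤ d')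
    (hn : h * (exp d - 1) + nrm (Z - Z0) ≤ h * (exp d' - 1)) : Dom Z R h d' := by
  obtain ⟨h0, -, E, hE, hm, hZ⟩ := H
  refine ⟨h0, hd', E + av (Z - Z0), hE.add (absLe_av _).nn, ?_, ?_⟩
  · rw [mass_add]; change _ + nrm _ ≤ _; linarith
  · have := hZ.add (absLe_av (Z - Z0))
    rwa [add_sub_cancel, add_assoc] at this

lemma Dom.nrm_le {Z R : Alg M} {h d : ℝ} (H : Dom Z R h d) (hR : Prob R) : nrm Z ≤ h * exp d := by
  obtain ⟨-, -, E, -, hm, hZ⟩ := H
  have := Vale.Agent.P321.nrm_le hZ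
  rw [mass_add, mass_smul, hR.2] at this
  linarith

lemma Dom.trans {Z R R' : Alg M} {h c d d' : ℝ} (H : Dom Z R h d) (H' : Dom R R' c d')
    (hc : 1 ≤ c) : Dom Z R' (h * c) (d + d') := by
  obtain ⟨h0, d0, E, hE, hm, hZ⟩ := H
  obtain ⟨-, d0', E', hE', hm', hR⟩ := H'
  refine ⟨mul_nonneg h0 (by linarith), add_nonneg d0 d0', h • E' + E, (hE'.smul h0).add hE, ?_,
    hZ.trans_le fun t => ?_⟩
  · rw [mass_add, mass_smul]
    have h1 := expm1_add d0 d0'
    have h2 := expm1_nonneg d0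
    have h3 : h * mass E' ≤ h * (c * (exp d' - 1)) := mul_le_mul_of_nonneg_left hm' h0
    have h4 : h * (exp d - 1) ≤ h * (c * (exp d - 1)) :=
      mul_le_mul_of_nonneg_left (by nlinarith) h0
    have h5 : h * c * ((exp d - 1) + (exp d' - 1)) ≤ h * c * (exp (d + d') - 1) :=
      mul_le_mul_of_nonneg_left h1 (mul_nonneg h0 (by linarith))
    nlinarith
  · have h1 := (le_abs_self _).trans (hR t)
    simp only [coeff_add, coeff_smul, Finsupp.add_apply, Finsupp.smul_apply, smul_eq_mul] at h1 ⊢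
    nlinarith [mul_le_mul_of_nonneg_left h1 h0]

lemma Dom.fwd {R R' : Alg M} {w d : ℝ} (H : Dom (R' - R) R w d) (hR : NN R) :
    Dom R' R (1 + w) d := by
  have := ((Dom.refl hR).mono hR le_rfl H.d_nonneg).add H
  rwa [add_sub_cancel] at this

lemma Dom.rev {R R' : Alg M} {w d : ℝ} (H : Dom (R' - R) R w d) (hR : NN R) (hw : w ≤ 1 / 2) :
    Dom R R' 2 d := by
  obtain ⟨h0, d0, E, hE, hm, hZ⟩ := H
  refine ⟨by norm_num, d0, (2 : ℝ) • E, hE.smul (by norm_num), ?_, fun t => ?_⟩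
  · rw [mass_smul]; nlinarith [expm1_nonneg d0]
  · have h1 := (neg_le_abs _).trans (hZ t)
    have h2 := hR t
    simp only [coeff_add, coeff_sub, coeff_smul, Finsupp.add_apply, Finsupp.sub_apply,
      Finsupp.smul_apply, smul_eq_mul] at h1 ⊢
    rw [abs_of_nonneg h2]
    nlinarith

lemma Dom.mapDomain {N : Type} {Z R : Alg M} {h d : ℝ} (H : Dom Z R h d) (f : M → N) :
    Dom (mapDomain f Z) (mapDomain f R) h d := by
  obtain ⟨h0, d0, E, hE, hm, hZ⟩ := H
  refine ⟨h0, d0, MonoidAlgebra.mapDomain f E, hE.mapDomain f, by rwa [mass_mapDomain], ?_⟩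
  have := hZ.mapDomain f
  rwa [mapDomain_add, mapDomain_smul] at this

/-- Removing the mass of a dominated measure of total mass zero. -/
lemma Dom.split0 {Z R : Alg M} {h d : ℝ} (H : Dom Z R h d) (hR : Prob R) (hZ : mass Z = 0) :
    ∃ Z1, AbsLe Z1 ((2 * h) • R) ∧ mass Z1 = 0 ∧ nrm (Z - Z1) ≤ 2 * h * (exp d - 1) := by
  obtain ⟨Z0, h1, h2⟩ := H.split hR.1
  have h3 : |mass Z0| ≤ h := by
    have := abs_mass_le h1
    rwa [mass_smul, hR.2, mul_one] at this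
  have h4 : |mass Z0| ≤ h * (exp d - 1) := by
    have := (abs_mass_le_nrm (Z - Z0)).trans h2
    rwa [mass_sub, hZ, zero_sub, abs_neg] at this
  refine ⟨Z0 - mass Z0 • R, ?_, by rw [mass_sub, mass_smul, hR.2]; ring, ?_⟩
  · have := h1.add (hR.1.absLe.smul (mass Z0)).neg
    rw [← sub_eq_add_neg] at this
    refine this.trans_le fun t => ?_
    simp only [coeff_add, coeff_smul, Finsupp.add_apply, Finsupp.smul_apply, smul_eq_mul]
    nlinarith [hR.1 t]
  · rw [show Z - (Z0 - mass Z0 • R) = (Z - Z0) + mass Z0 • R by abel]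
    have := nrm_smul_le (mass Z0) R
    rw [hR.nrm_eq] at this
    linarith [nrm_add_le (Z - Z0) (mass Z0 • R)]

variable [Monoid M]

lemma Dom.mul {Z W R S : Alg M} {h h' d d' : ℝ} (H : Dom Z R h d) (H' : Dom W S h' d')
    (hR : Prob R) (hS : Prob S) : Dom (Z * W) (R * S) (h * h') (d + d') := by
  obtain ⟨h0, d0, E, hE, hm, hZ⟩ := H
  obtain ⟨h0', d0', E', hE', hm', hW⟩ := H'
  refine ⟨mul_nonneg h0 h0', add_nonneg d0 d0', h • (R * E') + h' • (E * S) + E * E',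
    (((hR.1.mul hE').smul h0).add ((hE.mul hS.1).smul h0')).add (hE.mul hE'), ?_, ?_⟩
  · rw [mass_add, mass_add, mass_smul, mass_smul, mass_mul, mass_mul, mass_mul, hR.2, hS.2,
      Real.exp_add]
    have h1 := mul_le_mul hm hm' hE'.mass_nonneg (mul_nonneg h0 (expm1_nonneg d0))
    have h2 := mul_le_mul_of_nonneg_left hm' h0
    have h3 := mul_le_mul_of_nonneg_left hm h0'
    nlinarith
  · have := hZ.mul hW
    convert this using 1
    simp only [add_mul, mul_add, smul_mul_assoc, mul_smul_comm]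
    module

lemma Dom.mul_left {Z R P : Alg M} {h d : ℝ} (H : Dom Z R h d) (hR : Prob R) (hP : Prob P) :
    Dom (P * Z) (P * R) h d := by
  simpa using (Dom.refl hP.1).mul H hP hR

lemma Dom.mul_right {Z R P : Alg M} {h d : ℝ} (H : Dom Z R h d) (hR : Prob R) (hP : Prob P) :
    Dom (Z * P) (R * P) h d := by
  simpa using H.mul (Dom.refl hP.1) hR hP

end Vale.Agent.P321
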