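import Vale.Agent.P321.LeCam

/-! Choice of the parameters. -/

namespace Vale.Agent.P321

open Real

lemma exists_scale {k0 n : ℕ} (hn : 2 ^ 2 ^ (3 * k0 + 38) ≤ n) :
    ∃ k, k0 ≤ k ∧ 2 ^ 2 ^ (3 * k + 38) ≤ n ∧ n ≤ 2 ^ 2 ^ (3 * k + 41) := by
  have hn0 : n ≠ 0 := (lt_of_lt_of_le (Nat.two_pow_pos _) hn).ne'
  have hs : 2 ^ (3 * k0 + 38) ≤ Nat.log 2 n := Nat.le_log_of_pow_le one_lt_two hn
  have hs0 : Nat.log 2 n ≠ 0 := (lt_of_lt_of_le (Nat.two_pow_pos _) hs).ne'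
  have ht : 3 * k0 + 38 ≤ Nat.log 2 (Nat.log 2 n) := Nat.le_log_of_pow_le one_lt_two hs
  obtain ⟨k, hk0, hk1, hk2⟩ : ∃ k, k0 ≤ k ∧ 3 * k + 38 ≤ Nat.log 2 (Nat.log 2 n) ∧
      Nat.log 2 (Nat.log 2 n) + 1 ≤ 3 * k + 41 := by
    clear hs hn
    exact ⟨(Nat.log 2 (Nat.log 2 n) - 38) / 3, by omega, by omega, by omega⟩
  exact ⟨k, hk0, (Nat.pow_le_pow_right two_pos ((Nat.pow_le_pow_right two_pos hk1).trans
      (Nat.pow_log_le_self 2 hs0))).trans (Nat.pow_log_le_self 2 hn0),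
    (Nat.lt_pow_succ_log_self one_lt_two n).le.trans (Nat.pow_le_pow_right two_pos
      (Nat.succ_le_of_lt ((Nat.lt_pow_succ_log_self one_lt_two _).trans_le
        (Nat.pow_le_pow_right two_pos hk2))))⟩

lemma param1 (k : ℕ) : k ≤ 2 * 2 ^ (2 * k + 18) ∧
    (1266 + k) * (100 * 2 ^ k) ≤ 2 ^ (2 * k + 18) ∧
    4 * 2 ^ (2 * k + 18) * (2400 * (100 * 2 ^ k)) ≤ 2 ^ (3 * k + 38) ∧
    (3 * k + 41) * 2 ^ (3 * k + 24) + 4 ≤
      4 * 2 ^ (2 * k + 18) * ((1256 + k) * (100 * 2 ^ k)) := by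
  obtain ⟨A, hA⟩ : ∃ A, A = 2 ^ k := ⟨_, rfl⟩
  have hkA : k + 1 ≤ A := hA ▸ Nat.lt_two_pow_self
  have e1 : 2 ^ (2 * k + 18) = 262144 * (A * A) := by rw [hA]; ring
  have e2 : 2 ^ (3 * k + 38) = 274877906944 * (A * A * A) := by rw [hA]; ring
  have e3 : 2 ^ (3 * k + 24) = 16777216 * (A * A * A) := by rw [hA]; ring
  have hA0 : 0 < A := by omega
  have h1 : 1 ≤ A * A * A := Nat.mul_pos (Nat.mul_pos hA0 hA0) hA0
  rw [e1, e2, e3, ← hA]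
  clear e1 e2 e3 hA
  refine ⟨by nlinarith, by nlinarith, by nlinarith, ?_⟩
  rw [show 4 * (262144 * (A * A)) * ((1256 + k) * (100 * A)) =
    (1256 + k) * 104857600 * (A * A * A) by ring]
  nlinarith [Nat.zero_le (k * (A * A * A))]

lemma rpow_le_scale {n k : ℕ} (hn : 1 < n) (hi : n ≤ 2 ^ 2 ^ (3 * k + 41)) :
    (n : ℝ) ^ (1 / 2 ^ 17 * log (log n)) ≤ 2 ^ ((3 * k + 41) * 2 ^ (3 * k + 24)) := by
  have hn1 : (1 : ℝ) < n := by exact_mod_cast hn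
  have l2 : 0 < log 2 := log_pos one_lt_two
  have l3 : log 2 ≤ 1 := by linarith [log_le_sub_one_of_pos (two_pos (α := ℝ))]
  have h5 : log n ≤ (2 ^ (3 * k + 41) : ℕ) * log 2 := by
    rw [← log_pow]
    refine log_le_log (by linarith) ((Nat.cast_le.2 hi).trans (le_of_eq ?_))
    rw [Nat.cast_pow, Nat.cast_ofNat]
  clear hi hn
  have h6 : log (log n) ≤ (3 * k + 41 : ℕ) := by
    refine le_trans ?_ (mul_le_of_le_one_right (Nat.cast_nonneg _) l3)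
    rw [← log_pow]
    refine log_le_log (log_pos hn1) (h5.trans ?_)
    rw [Nat.cast_pow, Nat.cast_ofNat]
    exact mul_le_of_le_one_right (by positivity) l3
  rw [rpow_def_of_pos (by linarith), ← exp_log (show (0 : ℝ) <
    2 ^ ((3 * k + 41) * 2 ^ (3 * k + 24)) by positivity), log_pow, exp_le_exp]
  calc _ ≤ log n * (1 / 2 ^ 17 * (3 * k + 41 : ℕ)) :=
        mul_le_mul_of_nonneg_left (mul_le_mul_of_nonneg_left h6 (by positivity)) (log_pos hn1).le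
    _ ≤ (2 ^ (3 * k + 41) : ℕ) * log 2 * (1 / 2 ^ 17 * (3 * k + 41 : ℕ)) :=
        mul_le_mul_of_nonneg_right h5 (by positivity)
    _ = _ := by push_cast; ring

lemma lower_bound {q : ℝ} (hq0 : 0 < q) (hq1 : q < 1) : ∃ N : ℕ, ∀ n : ℕ, N ≤ n →
    ∀ (m : ℕ) (est : (Fin m → List Bool) → PMF (Fin n → Bool)),
      (∀ x, 2 / 3 ≤ successProb q est x) → (n : ℝ) ^ (1 / 2 ^ 17 * log (log n)) ≤ m := by
  obtain ⟨D, H⟩ := words hq0 hq1
  obtain ⟨k0, hk0⟩ := pow_unbounded_of_one_lt D (one_lt_two (α := ℝ))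
  refine ⟨2 ^ 2 ^ (3 * k0 + 38), fun n hn m est hest => ?_⟩
  obtain ⟨k, hk, lo, hi⟩ := exists_scale hn
  obtain ⟨p1, p2, p3, p4⟩ := param1 k
  refine (rpow_le_scale (lt_of_lt_of_le (Nat.one_lt_two_pow (Nat.two_pow_pos _).ne') lo) hi).trans ?_
  generalize 2 ^ (2 * k + 18) = M at p1 p2 p3 p4
  generalize 2 ^ (3 * k + 38) = B at p3 lo
  generalize (3 * k + 41) * 2 ^ (3 * k + 24) = T at p4 ⊢
  clear hn hi
  obtain ⟨a, b, hab, ha, hb, hd⟩ := H k M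
    (hk0.le.trans (pow_le_pow_right₀ one_le_two (hk.trans p1))) p2 n (le_trans (by
      rw [← pow_mul]
      exact Nat.pow_le_pow_right two_pos p3) lo)
  have h1 := (lecam hq0.le hq1.le est hest hab ha hb).trans
    (mul_le_mul_of_nonneg_left hd m.cast_nonneg)
  rw [show ((1256 + k) * (100 * 2 ^ k : ℕ) : ℤ) = ((1256 + k) * (100 * 2 ^ k) : ℕ) by
      push_cast; ring, Ep, zpow_neg, zpow_natCast, ← pow_mul, ← mul_assoc,
      le_mul_inv_iff₀ (by positivity)] at h1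
  have h2 := pow_le_pow_right₀ (one_le_two (α := ℝ)) p4
  rw [pow_add] at h2
  have : (0 : ℝ) ≤ m := m.cast_nonneg
  linarith

end Vale.Agent.P321
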