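import Vale.Agent.P321.Basic

/-! A second-moment calculus in dual form. -/

namespace Vale.Agent.P321

open MonoidAlgebra

variable {M : Type}

def L2 (Z R : Alg M) (v : ℝ) : Prop := ∀ g : M → ℝ, pair Z g ^ 2 ≤ v * pair R fun t => g t ^ 2

lemma pair_sq_nonneg {R : Alg M} (hR : NN R) (g : M → ℝ) : 0 ≤ pair R fun t => g t ^ 2 :=
  pair_nonneg hR fun _ => sq_nonneg _

lemma pair_var {R : Alg M} (hR : Prob R) (g : M → ℝ) :
    pair R (fun t => (g t - pair R g) ^ 2) = (pair R fun t => g t ^ 2) - pair R g ^ 2 := by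
  have : (fun t => (g t - pair R g) ^ 2) =
      fun t => (g t ^ 2 - 2 * pair R g * g t) + pair R g ^ 2 := by funext t; ring
  rw [this, pair_add_fun, pair_sub_fun, pair_const_mul, pair_const, hR.2]; ring

lemma L2.refl {R : Alg M} (hR : Prob R) : L2 R R 1 := fun g => by
  have := pair_sq_nonneg hR.1 fun t => g t - pair R g
  rw [pair_var hR] at this
  linarith

lemma L2.mono {Z R : Alg M} {v v' : ℝ} (H : L2 Z R v) (hR : NN R) (h : v ≤ v') : L2 Z R v' :=
  fun g => (H g).trans (mul_le_mul_of_nonneg_right h (pair_sq_nonneg hR g))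

lemma L2.smul {Z R : Alg M} {v : ℝ} (H : L2 Z R v) (c : ℝ) : L2 (c • Z) R (c ^ 2 * v) := fun g => by
  rw [pair_smul, mul_pow, mul_assoc]
  exact mul_le_mul_of_nonneg_left (H g) (sq_nonneg c)

lemma L2.of_absLe {Z R : Alg M} {h : ℝ} (hR : Prob R) (H : AbsLe Z (h • R)) : L2 Z R (h ^ 2) :=
  fun g => by
  have h1 := abs_pair_le H g
  rw [pair_smul] at h1
  have h2 := L2.refl hR fun t => |g t|
  simp only [sq_abs, one_mul] at h2
  calc pair Z g ^ 2 = |pair Z g| ^ 2 := (sq_abs _).symm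
    _ ≤ (h * pair R fun t => |g t|) ^ 2 := pow_le_pow_left₀ (abs_nonneg _) h1 2
    _ ≤ _ := by rw [mul_pow]; exact mul_le_mul_of_nonneg_left h2 (sq_nonneg h)

lemma L2.nrm_le {Z R : Alg M} {v A : ℝ} (H : L2 Z R v) (hR : Prob R) (hA : 0 ≤ A)
    (hv : v ≤ A ^ 2) : nrm Z ≤ A := by
  have h1 : nrm Z = pair Z fun t => if 0 ≤ Z.coeff t then 1 else -1 := by
    have hs : (av Z).coeff.support ⊆ Z.coeff.support := Finsupp.support_mapRange (hf := abs_zero)
    rw [nrm, mass, pair_eq_sum (av Z) _ Z.coeff.support hs, pair_eq_sum Z _ _ subset_rfl]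
    refine Finset.sum_congr rfl fun t _ => ?_
    rw [coeff_av]
    split_ifs with h
    · rw [abs_of_nonneg h]
    · rw [abs_of_neg (not_le.1 h)]; ring
  have h2 := H fun t => if 0 ≤ Z.coeff t then 1 else -1
  have h3 : (fun t => (if 0 ≤ Z.coeff t then (1 : ℝ) else -1) ^ 2) = fun _ => 1 := by
    funext t; split_ifs <;> norm_num
  rw [h3, pair_const, hR.2, ← h1] at h2
  exact abs_le_of_sq_le_sq' (by linarith) hA |>.2

lemma sq_add_le {x y p q a b : ℝ} (hp : 0 ≤ p) (hq : 0 ≤ q) (ha : 0 ≤ a) (hb : 0 ≤ b)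
    (hx : x ^ 2 ≤ p * a) (hy : y ^ 2 ≤ q * b) : (x + y) ^ 2 ≤ (p + q) * (a + b) := by
  have h1 : (x * y) ^ 2 ≤ (p * b) * (q * a) := by
    rw [mul_pow]
    calc _ ≤ (p * a) * (q * b) := mul_le_mul hx hy (sq_nonneg _) (by positivity)
      _ = _ := by ring
  have h2 : 2 * (x * y) ≤ p * b + q * a := by
    refine (abs_le_of_sq_le_sq' ?_ (by positivity)).2
    nlinarith [sq_nonneg (p * b - q * a)]
  nlinarith

/-- A positive overlap from a second-moment bound and total variation closeness. -/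
lemma overlap_of_L2 {B Q V : Alg M} {K : ℝ} (hB : L2 B Q K) (hK : 1 ≤ K) (hQ : NN Q) (hV : Prob V)
    (hd : nrm (V - B) ≤ 1 / 4) :
    ∃ G, NN G ∧ (∀ t, G.coeff t ≤ V.coeff t) ∧ (∀ t, G.coeff t ≤ Q.coeff t) ∧
      1 / (32 * K) ≤ mass G := by
  classical
  let g : M → ℝ := fun t => if 16 * K * Q.coeff t < V.coeff t then 1 else 0
  have hg0 : ∀ t, 0 ≤ g t := fun t => by simp only [g]; split_ifs <;> norm_num
  have hg1 : ∀ t, |g t| ≤ 1 := fun t => by simp only [g]; split_ifs <;> norm_num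
  have hg2 : (fun t => g t ^ 2) = g := by funext t; simp only [g]; split_ifs <;> norm_num
  have sub1 : V.coeff.support ⊆ V.coeff.support ∪ Q.coeff.support := Finset.subset_union_left
  have sub2 : Q.coeff.support ⊆ V.coeff.support ∪ Q.coeff.support := Finset.subset_union_right
  have h1 : 16 * K * pair Q g ≤ 1 := by
    rw [← hV.2, mass, pair_eq_sum _ _ _ sub1, pair_eq_sum _ _ _ sub2, Finset.mul_sum]
    refine Finset.sum_le_sum fun t _ => ?_
    simp only [g]
    split_ifs with h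
    · linarith
    · simpa using hV.1 t
  have h2 : pair B g ≤ 1 / 4 := by
    have := hB g
    rw [hg2] at this
    exact (abs_le_of_sq_le_sq' (by linarith) (by norm_num)).2
  have h3 : pair V g ≤ 1 / 2 := by
    have := (le_abs_self _).trans (abs_pair_le_nrm (V - B) hg1)
    rw [pair_sub] at this
    linarith
  have hc : ∀ t, (clamp V Q).coeff t = min (V.coeff t) (Q.coeff t) := fun t => by
    rw [coeff_clamp, max_eq_right]
    exact le_min (by linarith [hV.1 t, hQ t]) (by linarith [hQ t])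
  refine ⟨clamp V Q, fun t => by rw [hc]; exact le_min (hV.1 t) (hQ t),
    fun t => by rw [hc]; exact min_le_left _ _, fun t => by rw [hc]; exact min_le_right _ _, ?_⟩
  have h4 : pair V (fun t => 1 - g t) ≤ 16 * K * mass (clamp V Q) := by
    have sub3 : (clamp V Q).coeff.support ⊆ V.coeff.support ∪ Q.coeff.support :=
      Finsupp.support_zipWith
    rw [mass, pair_eq_sum _ _ _ sub1, pair_eq_sum _ _ _ sub3, Finset.mul_sum]
    refine Finset.sum_le_sum fun t _ => ?_
    have a1 := hV.1 t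
    have a2 := hQ t
    rw [hc]
    simp only [g]
    split_ifs with h
    · have := le_min a1 a2
      simp only [sub_self, mul_zero, mul_one]
      positivity
    · rcases le_total (V.coeff t) (Q.coeff t) with h5 | h5
      · rw [min_eq_left h5]; nlinarith
      · rw [min_eq_right h5]; linarith
  rw [pair_sub_fun, pair_const, hV.2] at h4
  rw [div_le_iff₀ (by positivity)]
  linarith

variable [Monoid M]

lemma L2.mul {Z W R S : Alg M} {v w : ℝ} (H : L2 Z R v) (H' : L2 W S w) (hR : NN R) (hv : 0 ≤ v) :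
    L2 (Z * W) (R * S) (v * w) := fun g => by
  rw [pair_mul, pair_mul]
  refine (H _).trans ?_
  rw [mul_assoc, ← pair_const_mul R w]
  exact mul_le_mul_of_nonneg_left (pair_mono hR fun t => H' _) hv

lemma L2.pow {Z R : Alg M} {v : ℝ} (H : L2 Z R v) (hR : Prob R) (hv : 0 ≤ v) :
    ∀ n : ℕ, L2 (Z ^ n) (R ^ n) (v ^ n)
  | 0 => by simpa using L2.refl Prob.one
  | n + 1 => by
    rw [pow_succ, pow_succ, pow_succ]
    exact (H.pow hR hv n).mul H (hR.pow n).1 (by positivity)

lemma L2.ortho {Q R S A Z : Alg M} {v0 v1 s : ℝ} (hQ : NN Q) (hR : Prob R) (h0 : 0 ≤ v0)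
    (h1 : 0 ≤ v1) (hs : 0 ≤ s) (hS : L2 S Q v0) (hA : L2 A Q v1) (hZ : L2 Z R s)
    (hZ0 : mass Z = 0) : L2 (S * R + A * Z) (Q * R) (v0 + v1 * s) := fun g => by
  rw [pair_add, pair_mul, pair_mul, pair_mul]
  have hvar : ∀ t, 0 ≤ (pair R fun u => g (t * u) ^ 2) - pair R (fun u => g (t * u)) ^ 2 :=
    fun t => by have := L2.refl hR fun u => g (t * u); linarith
  have k1 := hS fun t => pair R fun u => g (t * u)
  have k2 := hA fun t => pair Z fun u => g (t * u)
  have k3 : pair Q (fun t => pair Z (fun u => g (t * u)) ^ 2) ≤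
      s * pair Q fun t => (pair R fun u => g (t * u) ^ 2) - pair R (fun u => g (t * u)) ^ 2 := by
    rw [← pair_const_mul]
    refine pair_mono hQ fun t => ?_
    have := hZ fun u => g (t * u) - pair R fun u => g (t * u)
    rwa [pair_var hR, pair_sub_fun, pair_const, hZ0, mul_zero, sub_zero] at this
  have k4 := sq_add_le h0 (mul_nonneg h1 hs) (pair_sq_nonneg hQ _) (pair_nonneg hQ hvar) k1
    (k2.trans ((mul_le_mul_of_nonneg_left k3 h1).trans (le_of_eq (mul_assoc _ _ _).symm)))
  rwa [pair_sub_fun, add_sub_cancel] at k4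

lemma L2.ortho_sum {u z : Alg M} {s c : ℝ} {A : ℕ → Alg M} {v : ℕ → ℝ} (hu : Prob u) (hs : 0 ≤ s)
    (hz : L2 z u s) (hz0 : mass z = 0) : ∀ m : ℕ, (∀ k < m, 0 ≤ v k) →
    (∀ k < m, L2 (A k) (u ^ k) (v k)) →
    L2 (c • u ^ m + ∑ k ∈ Finset.range m, A k * z * u ^ (m - 1 - k)) (u ^ m)
      (c ^ 2 + s * ∑ k ∈ Finset.range m, v k)
  | 0, _, _ => by simpa using (L2.refl (Prob.one (M := M))).smul c
  | m + 1, hv, hA => by
    have ih := L2.ortho_sum (c := c) hu hs hz hz0 m (fun k hk => hv k (by omega))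
      (fun k hk => hA k (by omega))
    have h0 : 0 ≤ ∑ k ∈ Finset.range m, v k :=
      Finset.sum_nonneg fun k hk => hv k (by have := Finset.mem_range.1 hk; omega)
    have := L2.ortho (hu.pow m).1 hu (by positivity) (hv m (by omega)) hs ih (hA m (by omega)) hz hz0
    rw [← pow_succ] at this
    convert this using 1
    · rw [Finset.sum_range_succ, add_mul, smul_mul_assoc, ← pow_succ, Finset.sum_mul, add_assoc]
      congr 2
      · refine Finset.sum_congr rfl fun k hk => ?_
        rw [Finset.mem_range] at hk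
        rw [show m + 1 - 1 - k = (m - 1 - k) + 1 by omega, pow_succ, mul_assoc _ _ u]
      · simp
    · rw [Finset.sum_range_succ]; ring

/-- Removing one factor from a power costs little in the second moment. -/
lemma L2.drop {X : Alg M} {h : ℝ} (hX : Prob X) (H : AbsLe (X - 1) (h • X)) (r : ℕ) :
    L2 (X ^ r) (X ^ (r + 1)) (1 + h ^ 2 / (r + 1)) := by
  have hr : (0 : ℝ) < r + 1 := by positivity
  have := L2.ortho_sum (c := 1) (A := fun k => (-1 / (r + 1) : ℝ) • X ^ k)
    (v := fun _ => (-1 / (r + 1) : ℝ) ^ 2 * 1) hX (sq_nonneg h) (L2.of_absLe hX H)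
    (by rw [mass_sub, hX.2, mass_one, sub_self]) (r + 1) (fun _ _ => by positivity)
    (fun k _ => (L2.refl (hX.pow k)).smul _)
  convert this using 1
  · rw [Finset.sum_congr rfl (g := fun _ => (-1 / (r + 1) : ℝ) • (X ^ (r + 1) - X ^ r))]
    · rw [Finset.sum_const, Finset.card_range, ← Nat.cast_smul_eq_nsmul ℝ, smul_smul]
      push_cast
      rw [show ((r : ℝ) + 1) * (-1 / (r + 1)) = -1 by field_simp]
      simp
    · intro k hk
      rw [Finset.mem_range] at hk
      rw [smul_mul_assoc, smul_mul_assoc, mul_sub, sub_mul, mul_one, ← pow_succ, ← pow_add,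
        ← pow_add, show k + 1 + (r + 1 - 1 - k) = r + 1 by omega,
        show k + (r + 1 - 1 - k) = r by omega]
  · rw [Finset.sum_const, Finset.card_range, nsmul_eq_mul]
    push_cast
    field_simp

end Vale.Agent.P321
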