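import Vale.Agent.P321.Start

/-! Two words whose trace laws are very close. -/

namespace Vale.Agent.P321

open Real

abbrev W := FreeMonoid Bool

noncomputable def letter (q : ℝ) (c : Bool) : Alg W :=
  q • 1 + (1 - q) • MonoidAlgebra.single (FreeMonoid.of c) 1

noncomputable def law (q : ℝ) : W →* Alg W := FreeMonoid.lift (letter q)

lemma law_of (q : ℝ) (c : Bool) : law q (FreeMonoid.of c) = letter q c := FreeMonoid.lift_eval_of _ _

lemma letter_prob {q : ℝ} (h0 : 0 ≤ q) (h1 : q ≤ 1) (c : Bool) : Prob (letter q c) := by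
  refine ⟨(NN.one.smul h0).add ((NN.single _ zero_le_one).smul (by linarith)), ?_⟩
  rw [letter, mass_add, mass_smul, mass_smul, mass_one, mass, pair_single]; ring

lemma law_prob {q : ℝ} (h0 : 0 ≤ q) (h1 : q ≤ 1) (x : W) : Prob (law q x) := by
  induction x using FreeMonoid.inductionOn' with
  | one => rw [map_one]; exact Prob.one
  | of_mul c x ih => rw [map_mul, law_of]; exact (letter_prob h0 h1 c).mul ih

lemma length_pow (x : W) : ∀ n : ℕ, (x ^ n).length = n * x.length
  | 0 => by simp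
  | n + 1 => by rw [pow_succ, FreeMonoid.length_mul, length_pow x n]; ring

lemma mul_ne_mul_swap {x y : W} (h : x.length = y.length) (hne : x ≠ y) : x * y ≠ y * x := fun e =>
  hne (FreeMonoid.toList.injective (List.append_inj (congrArg FreeMonoid.toList e) h).1)

lemma PQ_ne {x y : W} (g : ℕ) (h : x * y ≠ y * x) : ∀ t,
    (PQ x y g t).1 ≠ (PQ x y g t).2 ∧ (PQ x y g t).1.length = (PQ x y g t).2.length ∧
      (PQ x y g t).1.length = 2 ^ t * ((2 * g + 1) * x.length + y.length)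
  | 0 => by
    refine ⟨fun e => h (mul_left_cancel (mul_right_cancel e)), ?_, ?_⟩ <;>
      simp only [PQ, FreeMonoid.length_mul, length_pow] <;> ring
  | t + 1 => by
    obtain ⟨h1, h2, h3⟩ := PQ_ne g h t
    refine ⟨mul_ne_mul_swap h2 h1, ?_, ?_⟩ <;> simp only [PQ, FreeMonoid.length_mul, ← h2, h3]
    ring

lemma sq_le_two_pow {m : ℕ} (hm : 5 ≤ m) : 42 + 18 * (4 * m * (4 * m)) ≤ 2 ^ (4 * m) := by
  have h1 : m ≤ 2 ^ m := Nat.lt_two_pow_self.le
  have h2 : 2 ^ 5 ≤ 2 ^ m := Nat.pow_le_pow_right two_pos hm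
  rw [show 2 ^ (4 * m) = 2 ^ m * 2 ^ m * (2 ^ m * 2 ^ m) by ring]
  have h3 := Nat.mul_le_mul h1 h1
  have h4 := Nat.mul_le_mul h2 h2
  generalize 2 ^ m * 2 ^ m = A at *
  nlinarith

lemma words {q : ℝ} (hq0 : 0 < q) (hq1 : q < 1) : ∃ D : ℝ, ∀ k m : ℕ, D ≤ 2 ^ (2 * m) →
    (1266 + k) * (100 * 2 ^ k) ≤ m → ∀ n, (2 ^ (4 * m)) ^ (2400 * (100 * 2 ^ k)) ≤ n →
    ∃ a b : W, a ≠ b ∧ a.length = n ∧ b.length = n ∧
      nrm (law q a - law q b) ≤ 3 * Ep (4 * m) (-((1256 + k) * (100 * 2 ^ k : ℕ))) := by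
  have hP := law_prob hq0.le hq1.le
  have hl := letter_prob hq0.le hq1.le
  obtain ⟨cA, D, hcA, hD, H⟩ := Lev.start hq0 hq1 (hP (.of false * .of true)) (hP (.of true))
    (fun t => by
      have := (((NN.single (FreeMonoid.of false) zero_le_one).smul
        (show 0 ≤ 1 - q by linarith)).mul (hl true).1) t
      rw [map_mul, law_of, law_of, show letter q false = _ + _ from rfl, add_mul, smul_mul_assoc,
        one_mul]
      simpa using this)
    (fun t => by
      have := ((NN.single (FreeMonoid.of true) zero_le_one).smul (show 0 ≤ 1 - q by linarith)) t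
      rw [law_of, letter]
      simpa using this)
  refine ⟨D, fun k m hDm hm n hn => ?_⟩
  obtain ⟨lam, hlam⟩ : ∃ lam : ℝ, lam = 2 ^ (2 * m) := ⟨_, rfl⟩
  obtain ⟨l, hl'⟩ : ∃ l, l = 4 * m := ⟨_, rfl⟩
  have hk1 : 1 ≤ 2 ^ k := Nat.one_le_two_pow
  have hm' : 126600 * 2 ^ k ≤ m := le_trans (by nlinarith) hm
  have hJ := sq_le_two_pow (m := m) (by omega)
  have hll : lam * lam = 2 ^ l := by rw [hlam, hl', ← pow_add]; congr 1; ring
  rw [← hlam] at hDm
  rw [← hl'] at hJ hn ⊢
  have hlam1 : 1 ≤ lam := by linarith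
  have gen : ∀ t b, t + 1 ≤ l * b → ∃ g, nn g t = (2 ^ l) ^ b := fun t b h => by
    obtain ⟨c, hc⟩ := Nat.exists_eq_add_of_le h
    refine ⟨2 ^ c - 1, ?_⟩
    have : 1 ≤ 2 ^ c := Nat.one_le_two_pow
    rw [nn, ← pow_mul, hc, show 2 * (2 ^ c - 1) + 2 = 2 * 2 ^ c by omega]
    ring
  have L : ∀ i ≤ k, ∃ (x y : W) (β : ℕ), x ≠ y ∧ x.length = y.length ∧ x.length ≤ (2 ^ l) ^ β ∧
      β + 12 = 1200 * (100 * 2 ^ i) ∧
      Lev l lam cA (law q x) (law q y) (100 * 2 ^ i) β (56 + i) := by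
    intro i hi
    induction i with
    | zero =>
      obtain ⟨g, hg⟩ := gen 0 (40 * 2999) (by omega)
      obtain ⟨h1, h2, h3⟩ := PQ_ne (x := .of false * .of true) (y := .of true) g
        (fun e => absurd (congrArg FreeMonoid.toList e) (by decide)) 0
      refine ⟨_, _, 119988, h1, h2, ?_, by norm_num, ?_⟩
      · have := nmul_le (l := l) (c := 2) (a := 40 * 2999) (b := 119988)
          (le_trans (by omega) hJ) (by norm_num)
        rw [← hg, nn] at this
        rw [h3]
        simp only [FreeMonoid.length_mul, FreeMonoid.length_of]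
        omega
      · have := H l lam 100 119988 2999 g hDm hll.le (by norm_num) (by norm_num) (by norm_num)
          (le_trans (Nat.add_le_add_left (Nat.mul_le_mul_left _ (Nat.mul_le_mul_left _
            (by omega))) _) hJ) hg
        rwa [PQ_map] at this
    | succ i ih =>
      obtain ⟨x, y, β, h1, h2, h3, h4, h5⟩ := ih (by omega)
      have hi1 : 1 ≤ 2 ^ i := Nat.one_le_two_pow
      have hik : 2 ^ i ≤ 2 ^ k := Nat.pow_le_pow_right two_pos (by omega)
      obtain ⟨g, hg⟩ := gen m (β + 4) (by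
        have : l ≤ l * (β + 4) := Nat.le_mul_of_pos_right _ (by omega)
        omega)
      obtain ⟨k1, k2, k3⟩ := PQ_ne g (mul_ne_mul_swap h2 h1) m
      refine ⟨_, _, 2 * β + 12, k1, k2, ?_, by omega, ?_⟩
      · rw [k3, ← h2, show 2 ^ m * ((2 * g + 1) * x.length + x.length) = nn g m * x.length by
          rw [nn]; ring, hg]
        refine (Nat.mul_le_mul_left _ h3).trans ?_
        rw [← pow_add]
        exact npow_le (by omega)
      · have := h5.step (m := m) (g := g) h4 (by omega) (by omega)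
          (le_trans (Nat.mul_le_mul (by omega) (by omega)) hm) (by omega) hlam1 hcA
          (by rw [← hll]; exact mul_le_mul_of_nonneg_right (by linarith) (by linarith))
          (le_trans (Nat.add_le_add_left (Nat.mul_le_mul_left _ (Nat.mul_le_mul_left _
            (by omega))) _) hJ) hg
        rw [PQ_map] at this
        rwa [show 100 * 2 ^ (i + 1) = 2 * (100 * 2 ^ i) by ring]
  obtain ⟨x, y, β, h1, h2, h3, h4, h5⟩ := L k le_rfl
  obtain ⟨v, hv⟩ : ∃ v, v = 100 * 2 ^ k := ⟨_, rfl⟩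
  rw [← hv] at h4 h5 hn ⊢
  obtain ⟨K, hK⟩ : ∃ K, K = (2 ^ l) ^ β := ⟨_, rfl⟩
  have hlen : (K + 1 + K) * x.length ≤ n := by
    have k1 : 1 ≤ K := hK ▸ Nat.one_le_pow _ _ (by positivity)
    have k2 := nmul_le (l := l) (c := 3) (a := β + β) (b := 2400 * v)
      (le_trans (by omega) hJ) (by omega)
    rw [pow_add, ← hK] at k2
    rw [← hK] at h3
    calc _ ≤ 3 * K * K := Nat.mul_le_mul (by omega) h3
      _ ≤ _ := by rw [mul_assoc]; exact k2.trans hn
  obtain ⟨r, hr⟩ := Nat.exists_eq_add_of_le hlen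
  refine ⟨x ^ K * y * x ^ K * .of false ^ r, x ^ K * x * x ^ K * .of false ^ r,
    fun e => h1 (mul_left_cancel (mul_right_cancel (mul_right_cancel e))).symm, ?_, ?_, ?_⟩
  · simp only [FreeMonoid.length_mul, length_pow, FreeMonoid.length_of, ← h2, hr]; ring
  · simp only [FreeMonoid.length_mul, length_pow, FreeMonoid.length_of, hr]; ring
  have k1 := h5.hL.nrm_le (h5.hX.pow _)
  rw [← hK] at k1
  rw [map_mul, map_mul _ _ (_ ^ r), ← sub_mul]
  refine (nrm_mul_prob_le _ (hP _)).trans ?_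
  simp only [map_mul, map_pow]
  rw [← sub_mul, ← mul_sub]
  refine k1.trans ?_
  have k2 : Ep l (3700 * v) * dst lam ≤ 1 := by
    have e1 : Ep l (3700 * v) = 2 ^ (l * (3700 * v)) := by
      rw [show (3700 * v : ℤ) = (3700 * v : ℕ) by push_cast; ring, ← Ep_nat, ← pow_mul]
      push_cast; rfl
    have e2 : (2 : ℝ) ^ (l * (3700 * v) + 1) ≤ exp (l * (3700 * v) + 1 : ℕ) := by
      rw [← exp_one_pow]
      exact pow_le_pow_left₀ zero_le_two (by linarith [add_one_le_exp 1]) _
    have e3 : 2 * (l * (3700 * v) + 1) ≤ 2 ^ l := by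
      have : l * (3700 * v) ≤ l * l := Nat.mul_le_mul_left _ (by omega)
      omega
    have e4 : (2 : ℝ) * (l * (3700 * v) + 1 : ℕ) ≤ 2 ^ l := by exact_mod_cast e3
    rw [e1, dst, ← mul_assoc, ← pow_succ, neg_div, exp_neg, mul_inv_le_iff₀ (exp_pos _), one_mul]
    exact e2.trans (exp_le_exp.2 (by rw [sq, hll]; linarith))
  rw [mul_comm]
  refine mul_le_mul ((exp_le_exp.2 k2).trans (exp_one_lt_three.le)) (le_of_eq ?_) (Ep_pos _ _).le
    (by norm_num)
  congr 2; push_cast; ring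

end Vale.Agent.P321
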