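import Vale.Agent.P321.Defs
import Vale.Agent.P321.Words

/-! The two-point testing bound. -/

namespace Vale.Agent.P321

open Finset

lemma sum_cons {ι : Type} [Fintype ι] (w : ι → ℝ) (m : ℕ) (F : (Fin (m + 1) → ι) → ℝ) :
    ∑ S : Fin (m + 1) → ι, (∏ j, w (S j)) * F S =
      ∑ k, w k * ∑ S : Fin m → ι, (∏ j, w (S j)) * F (Fin.cons k S) := by
  rw [← (Fin.consEquiv fun _ => ι).sum_comp, Fintype.sum_prod_type]
  refine sum_congr rfl fun k _ => ?_
  rw [mul_sum]
  refine sum_congr rfl fun S _ => ?_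
  simp [Fin.prod_univ_succ, mul_assoc, Fin.consEquiv]

lemma abs_avg_le {ι : Type} [Fintype ι] {w : ι → ℝ} (h0 : ∀ k, 0 ≤ w k) (h1 : ∑ k, w k = 1)
    {f : ι → ℝ} {c : ℝ} (hf : ∀ k, |f k| ≤ c) : |∑ k, w k * f k| ≤ c := by
  refine (abs_sum_le_sum_abs _ _).trans ?_
  rw [← one_mul c, ← h1, sum_mul]
  refine sum_le_sum fun k _ => ?_
  rw [abs_mul, abs_of_nonneg (h0 k)]
  exact mul_le_mul_of_nonneg_left (hf k) (h0 k)

lemma sum_prod_one {ι : Type} [Fintype ι] {w : ι → ℝ} (h1 : ∑ k, w k = 1) (m : ℕ) :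
    ∑ S : Fin m → ι, ∏ j, w (S j) = 1 := by
  rw [← Fintype.piFinset_univ, ← prod_univ_sum]; simp [h1]

lemma hybrid {ι α : Type} [Fintype ι] {w : ι → ℝ} (h0 : ∀ k, 0 ≤ w k) (h1 : ∑ k, w k = 1)
    {a b : ι → α} {ε : ℝ}
    (h : ∀ f : α → ℝ, (∀ t, |f t| ≤ 1) → |∑ k, w k * f (a k) - ∑ k, w k * f (b k)| ≤ ε) :
    ∀ (m : ℕ) (F : (Fin m → α) → ℝ), (∀ s, |F s| ≤ 1) →
      |∑ S : Fin m → ι, (∏ j, w (S j)) * F (fun j => a (S j)) -
        ∑ S : Fin m → ι, (∏ j, w (S j)) * F (fun j => b (S j))| ≤ m * ε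
  | 0, F, _ => by
    have : ∀ S : Fin 0 → ι, (fun j => a (S j)) = fun j => b (S j) := fun _ => Subsingleton.elim _ _
    simp [this]
  | m + 1, F, hF => by
    have e : ∀ (c : ι → α) (k : ι) (S : Fin m → ι),
        (fun j => c ((Fin.cons k S : Fin (m + 1) → ι) j)) = Fin.cons (c k) fun j => c (S j) := by
      intro c k S; funext j; cases j using Fin.cases <;> rfl
    rw [sum_cons, sum_cons]
    simp only [e]
    have k1 := abs_avg_le h0 h1 fun k =>
      hybrid h0 h1 h m (fun s => F (Fin.cons (a k) s)) fun _ => hF _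
    have k2 := h (fun t => ∑ S : Fin m → ι, (∏ j, w (S j)) * F (Fin.cons t fun j => b (S j)))
      fun t => abs_avg_le (fun S => prod_nonneg fun j _ => h0 _) (sum_prod_one h1 m) fun _ => hF _
    simp only [mul_sub, sum_sub_distrib] at k1
    rw [abs_le] at k1 k2 ⊢
    push_cast
    constructor <;> linarith [k1.1, k1.2, k2.1, k2.2]

lemma trace_cons {n : ℕ} (x : Fin (n + 1) → Bool) (c : Bool) (S : Fin n → Bool) :
    trace x (Fin.cons c S) = (if c then [x 0] else []) ++ trace (fun i => x i.succ) S := by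
  cases c <;> simp [trace, List.ofFn_succ]

lemma sum_trace (q : ℝ) : ∀ (n : ℕ) (x : Fin n → Bool) (f : List Bool → ℝ),
    ∑ S, maskWeight q S * f (trace x S) =
      pair (law q (FreeMonoid.ofList (List.ofFn x))) fun t => f t.toList
  | 0, x, f => by simp [maskWeight, trace, MonoidAlgebra.one_def]
  | n + 1, x, f => by
    have := sum_cons (fun c : Bool => if c then 1 - q else q) n fun S => f (trace x S)
    unfold maskWeight
    rw [this, List.ofFn_succ, FreeMonoid.ofList_cons, map_mul, law_of, pair_mul, letter, pair_add,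
      pair_smul, pair_smul, MonoidAlgebra.one_def, pair_single, pair_single, Fintype.sum_bool]
    have k1 := sum_trace q n (fun i => x i.succ) f
    have k2 := sum_trace q n (fun i => x i.succ) fun t => f (x 0 :: t)
    unfold maskWeight at k1 k2
    simp only [trace_cons, if_true, Bool.false_eq_true, if_false, List.nil_append,
      List.singleton_append, k1, k2, one_mul, FreeMonoid.toList_of_mul]
    ring

lemma lecam {q : ℝ} (h0 : 0 ≤ q) (h1 : q ≤ 1) {n m : ℕ}
    (est : (Fin m → List Bool) → PMF (Fin n → Bool)) (H : ∀ x, 2 / 3 ≤ successProb q est x)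
    {a b : W} (hab : a ≠ b) (ha : a.length = n) (hb : b.length = n) :
    1 / 3 ≤ m * nrm (law q a - law q b) := by
  obtain ⟨x, rfl⟩ : ∃ x : Fin n → Bool, a = FreeMonoid.ofList (List.ofFn x) := by
    subst ha; exact ⟨a.toList.get, congrArg FreeMonoid.ofList (List.ofFn_get a.toList).symm⟩
  obtain ⟨y, rfl⟩ : ∃ x : Fin n → Bool, b = FreeMonoid.ofList (List.ofFn x) := by
    subst hb; exact ⟨b.toList.get, congrArg FreeMonoid.ofList (List.ofFn_get b.toList).symm⟩
  have hxy : x ≠ y := fun e => hab (by rw [e])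
  have w0 : ∀ S : Fin n → Bool, 0 ≤ maskWeight q S := fun S =>
    prod_nonneg fun i _ => by split_ifs <;> linarith
  have w1 : ∑ S : Fin n → Bool, maskWeight q S = 1 :=
    sum_prod_one (w := fun c : Bool => if c then 1 - q else q) (by simp) n
  have p1 : ∀ s, (est s x).toReal + (est s y).toReal ≤ 1 := fun s => by
    rw [← ENNReal.toReal_add (PMF.apply_ne_top _ _) (PMF.apply_ne_top _ _), ← ENNReal.toReal_one]
    refine ENNReal.toReal_mono ENNReal.one_ne_top ?_
    rw [← (est s).tsum_coe, ← sum_pair (f := fun z => est s z) hxy]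
    exact ENNReal.sum_le_tsum _
  have k1 := hybrid w0 w1 (a := trace x) (b := trace y) (fun f hf => by
    rw [sum_trace, sum_trace, ← pair_sub]
    exact (abs_pair_le_nrm _ fun t => hf _).trans (one_mul _).le) m (fun s => (est s x).toReal)
    fun s => by
      rw [abs_of_nonneg ENNReal.toReal_nonneg]
      linarith [p1 s, ENNReal.toReal_nonneg (a := est s y)]
  have k2 : ∑ S : Fin m → Fin n → Bool, (∏ j, maskWeight q (S j)) *
      (est (fun j => trace y (S j)) x).toReal + successProb q est y ≤ 1 := by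
    rw [successProb, ← sum_add_distrib, ← sum_prod_one w1 m]
    refine sum_le_sum fun S _ => ?_
    rw [← mul_add]
    exact mul_le_of_le_one_right (prod_nonneg fun j _ => w0 _) (p1 _)
  have k3 := H x
  have k4 := H y
  rw [successProb] at k3
  linarith [(abs_le.1 k1).2]

end Vale.Agent.P321
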