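import Vale.Agent.P321.Step

/-! The inductive step with explicit parameters. -/

namespace Vale.Agent.P321

open MonoidAlgebra Real

/-- Integer powers of the base. -/
noncomputable def Ep (l : ℕ) (k : ℤ) : ℝ := ((2 : ℝ) ^ l) ^ k

lemma Ep_pos (l : ℕ) (k : ℤ) : 0 < Ep l k := by unfold Ep; positivity

lemma Ep_add (l : ℕ) (a b : ℤ) : Ep l (a + b) = Ep l a * Ep l b := zpow_add₀ (by positivity) _ _

lemma Ep_zero (l : ℕ) : Ep l 0 = 1 := zpow_zero _

lemma Ep_one (l : ℕ) : Ep l 1 = 2 ^ l := zpow_one _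

lemma Ep_mono (l : ℕ) {a b : ℤ} (h : a ≤ b) : Ep l a ≤ Ep l b :=
  zpow_le_zpow_right₀ (one_le_pow₀ (by norm_num)) h

lemma Ep_nat (l n : ℕ) : (((2 ^ l) ^ n : ℕ) : ℝ) = Ep l n := by simp [Ep]

lemma Ep_pow (l : ℕ) (a : ℤ) (n : ℕ) : Ep l a ^ n = Ep l (a * n) := by
  simp [Ep, zpow_mul]

lemma Ep_mul_le {l : ℕ} {c : ℝ} (hc : c ≤ 2 ^ l) {a b : ℤ} (h : a + 1 ≤ b) :
    c * Ep l a ≤ Ep l b := by
  refine le_trans ?_ (Ep_mono l h)
  rw [Ep_add, Ep_one, mul_comm]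
  exact mul_le_mul_of_nonneg_left hc (Ep_pos l a).le

lemma Ep_div_le {l : ℕ} {c : ℝ} (hc : c ≤ 2 ^ l) (n : ℕ) {b : ℤ} (h : 1 - n ≤ b) :
    c / (((2 ^ l) ^ n : ℕ) : ℝ) ≤ Ep l b := by
  rw [Ep_nat, div_le_iff₀ (Ep_pos _ _), ← Ep_add]
  refine hc.trans ?_
  rw [← Ep_one]; exact Ep_mono l (by omega)

lemma Ep_le_one (l : ℕ) {a : ℤ} (h : a ≤ 0) : Ep l a ≤ 1 := (Ep_mono l h).trans (Ep_zero l).le

lemma one_le_Ep (l : ℕ) {a : ℤ} (h : 0 ≤ a) : 1 ≤ Ep l a := (Ep_zero l).ge.trans (Ep_mono l h)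

lemma npow_le {l a b : ℕ} (h : a ≤ b) : (2 ^ l) ^ a ≤ (2 ^ l) ^ b :=
  Nat.pow_le_pow_right (by positivity) h

lemma nmul_le {l c a b : ℕ} (hc : c ≤ 2 ^ l) (h : a + 1 ≤ b) : c * (2 ^ l) ^ a ≤ (2 ^ l) ^ b := by
  refine le_trans ?_ (npow_le h)
  rw [pow_succ, mul_comm]
  exact Nat.mul_le_mul_left _ hc

lemma cell_le {e : ℝ} {m t : ℕ} (he : 0 ≤ e) (h : 2 ^ m * e ≤ 1) (ht : t ≤ m) :
    (1 + e) ^ 2 ^ t - 1 ≤ 2 * (2 ^ m * e) := by
  have h0 : (2 : ℝ) ^ t ≤ 2 ^ m := pow_le_pow_right₀ (by norm_num) ht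
  have h1 : (1 + e) ^ 2 ^ t ≤ exp e ^ 2 ^ t :=
    pow_le_pow_left₀ (by linarith) (by linarith [Real.add_one_le_exp e]) _
  rw [← Real.exp_nat_mul] at h1
  push_cast at h1
  have h2 : 2 ^ t * e ≤ 2 ^ m * e := mul_le_mul_of_nonneg_right h0 he
  have h3 := Real.abs_exp_sub_one_le (x := 2 ^ t * e) (by rw [abs_of_nonneg (by positivity)]; linarith)
  rw [abs_of_nonneg (show 0 ≤ 2 ^ t * e by positivity)] at h3
  linarith [le_abs_self (exp (2 ^ t * e) - 1)]

variable {M : Type} [Monoid M]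

/-- The inductive hypothesis. -/
structure Lev (l : ℕ) (lam cA : ℝ) (X Y : Alg M) (v β j : ℕ) : Prop where
  hX : Prob X
  hY : Prob Y
  hA : Slip X ((2 ^ l) ^ β - 1) cA (Ep l (3700 * v) * dst lam)
  hL : DP X (X ^ (2 ^ l) ^ β * (Y - X) * X ^ (2 ^ l) ^ β) ((2 ^ l) ^ β + 1 + (2 ^ l) ^ β)
    (Ep l (-((1200 + j) * v))) (Ep l (3700 * v) * dst lam)
  hG : Str X ((2 ^ l) ^ (1245 * v)) ((2 ^ l) ^ (1246 * v)) (Ep l (9 * v))
    (X ^ (2 ^ l) ^ β * (Y - X) * X ^ (2 ^ l) ^ β) ((2 ^ l) ^ β + 1 + (2 ^ l) ^ β)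
    (Ep l (-((1203 + j) * v))) (Ep l (3700 * v) * dst lam)

lemma half_pow_le (j : ℕ) : (2 : ℝ) ^ j ≤ (2 ^ (j / 2 + 1)) ^ 2 := by
  rw [← pow_mul]; exact pow_le_pow_right₀ (by norm_num) (by omega)

set_option maxHeartbeats 4000000 in
lemma Lev.step {l : ℕ} {lam cA : ℝ} {X Y : Alg M} {v β j m g : ℕ} (H : Lev l lam cA X Y v β j)
    (hβ : β + 12 = 1200 * v) (hv : 7 ≤ v) (hj : 56 ≤ j) (hm : (1210 + j) * v ≤ m)
    (hml : 3 * m + 8 ≤ l) (hlam : 1 ≤ lam) (hcA : 13 ≤ cA) (hL1 : 2 * cA * lam ≤ 2 ^ l)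
    (hJ : 42 + 18 * (l * (2 * β + 12)) ≤ 2 ^ l) (hg : nn g m = (2 ^ l) ^ (β + 4)) :
    Lev l lam cA (PQ X Y g m).1 (PQ X Y g m).2 (2 * v) (2 * β + 12) (j + 1) := by
  obtain ⟨hX, hY, hA, hL, hG⟩ := H
  have hP := PQ_prob (g := g) hX hY m
  have hL256 : 256 ≤ 2 ^ l := by
    have : 2 ^ 8 ≤ 2 ^ l := Nat.pow_le_pow_right (by norm_num) (by omega)
    omega
  have hL256' : (256 : ℝ) ≤ 2 ^ l := by exact_mod_cast hL256
  have hlam4 : 8 * lam ≤ 2 ^ l := by nlinarith only [hlam, hcA, hL1]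
  have hst := dst_nonneg lam
  have hβ' : (β : ℤ) + 12 = 1200 * v := by exact_mod_cast hβ
  have hv' : (7 : ℤ) ≤ v := by exact_mod_cast hv
  have hj' : (56 : ℤ) ≤ j := by exact_mod_cast hj
  have hm' : (1210 + (j : ℤ)) * v ≤ m := by exact_mod_cast hm
  have hjv : (56 : ℤ) * v ≤ j * v := by nlinarith only [hv', hj']
  set d := Ep l (3700 * v) * dst lam with hd
  set e := Ep l (-((1200 + j) * v)) with he
  set dW := Ep l (6200 * v) * dst lam with hdW
  set J := l * (2 * β + 12) with hJdef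
  have hJp : 2 ^ J = (2 ^ l) ^ (2 * β + 12) := pow_mul _ _ _
  have hd0 : 0 ≤ d := hL.d_nonneg
  have he0 : 0 < e := Ep_pos _ _
  have hstd : dst lam ≤ d := le_mul_of_one_le_left hst (one_le_Ep l (by omega))
  have hdd : ∀ {c : ℝ} {k : ℤ}, c ≤ Ep l k → k + 1 ≤ 2500 * v → c * (d + d) ≤ dW := by
    intro c k hc hk
    have h1 : 2 * Ep l (k + 3700 * v) ≤ Ep l (6200 * v) := Ep_mul_le (by linarith) (by omega)
    have h2 := mul_le_mul_of_nonneg_right hc (add_nonneg hd0 hd0)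
    have h3 := mul_le_mul_of_nonneg_right h1 hst
    rw [Ep_add] at h3
    rw [hd] at h2 ⊢
    linarith only [h2, h3]
  have hddW : d ≤ dW := by have := hdd (c := 1) (k := 0) (Ep_zero l).ge (by omega); linarith
  have hdW0 : 0 ≤ dW := hd0.trans hddW
  have hpos : 1 ≤ (2 ^ l) ^ β := Nat.one_le_pow _ _ (by positivity)
  have hSl : ∀ r : ℕ, 1 ≤ r → r ≤ (2 ^ l) ^ (1249 * v) →
      Slip X ((2 ^ l) ^ β * r ^ 2) (2 * cA * lam / r) dW := by
    intro r hr hr2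
    refine (hA.amp hX hlam hr).mono hX (by rw [Nat.sub_add_cancel hpos]) le_rfl ?_
    have h1 : (r : ℝ) ≤ Ep l (1249 * v : ℕ) := by rw [← Ep_nat]; exact_mod_cast hr2
    have h2 : (r : ℝ) ^ 2 ≤ Ep l ((1249 * v : ℕ) * (2 : ℕ)) := by
      rw [← Ep_pow]; exact pow_le_pow_left₀ (by positivity) h1 2
    have h3 := hdd h2 (by push_cast; omega)
    have h4 : (1 : ℝ) ≤ r := by exact_mod_cast hr
    nlinarith only [h3, hstd, hd0, one_le_pow₀ (n := 2) h4]
  have hSlp : ∀ n : ℕ, n ≤ 1249 * v → Slip X ((2 ^ l) ^ (β + 2 * n)) (Ep l (1 - n)) dW := by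
    intro n hn
    refine (hSl _ (Nat.one_le_pow _ _ (by positivity)) (npow_le hn)).mono hX
      (le_of_eq (by ring)) (Ep_div_le hL1 n le_rfl) le_rfl
  have h2m : (2 : ℝ) ^ (m + 1) ≤ 2 ^ l := pow_le_pow_right₀ (by norm_num) (by omega)
  set w1 := Ep l (1 - (1200 + j) * v) with hw1
  have hw1e : 2 * (2 ^ m * e) ≤ w1 := by
    rw [← mul_assoc, ← pow_succ']; exact Ep_mul_le h2m (by omega)
  have hw11 : w1 ≤ 1 := Ep_le_one l (by linarith only [hv', hjv])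
  have hw10 : 0 < w1 := Ep_pos _ _
  have hg1 : (2 ^ l) ^ β + (2 ^ l) ^ (β + 2 * 1) ≤ g := by
    have h1 : 2 ^ m * 4 ≤ 2 ^ l := by
      rw [show 2 ^ m * 4 = 2 ^ (m + 2) by ring]; exact Nat.pow_le_pow_right (by norm_num) (by omega)
    have h2 : 2 ^ m * (4 * (2 ^ l) ^ (β + 3)) ≤ 2 ^ m * (2 * g + 2) := by
      rw [← mul_assoc]; exact (nmul_le h1 le_rfl).trans hg.ge
    have h3 := Nat.le_of_mul_le_mul_left h2 (by positivity)
    have h4 : 3 * (2 ^ l) ^ (β + 2 * 1) ≤ (2 ^ l) ^ (β + 3) := nmul_le (by omega) le_rfl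
    have h5 : (2 ^ l) ^ β ≤ (2 ^ l) ^ (β + 2 * 1) := npow_le (by omega)
    omega
  have hcell : ∀ t ≤ m, DP X ((PQ X Y g t).1 - X ^ nn g t) (nn g t) w1 (2 ^ l * d) := by
    intro t ht
    obtain ⟨k, hk⟩ : ∃ k, g = k + (2 ^ l) ^ β := ⟨g - (2 ^ l) ^ β, by omega⟩
    have h1 : DP X (X ^ g * (Y - X) * X ^ g) (g + 1 + g) e d := by
      refine (hL.ctx hX k k).of hX ?_ (by omega) le_rfl le_rfl
      conv_lhs => arg 1; rw [hk, pow_add]
      conv_lhs => arg 2; rw [hk, add_comm, pow_add]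
      noncomm_ring
    refine (W_cells hX h1 t).1.mono hX ((cell_le he0.le (by linarith) ht).trans hw1e) ?_
    exact mul_le_mul_of_nonneg_right (pow_le_pow_right₀ (by norm_num) (by omega)) hd0
  have hWgen : ∀ (ρ : ℕ) (r : ℝ), 1 ≤ r → (ρ : ℝ) ≤ r ^ 2 → r ≤ Ep l (1246 * v + 1) →
      4 * w1 * lam * r ≤ Ep l (-(9 * v)) ∧
      DP X ((PQ X Y g m).1 ^ ρ - X ^ (nn g m * ρ)) (nn g m * ρ) (4 * w1 * lam * r) dW := by
    intro ρ r hr hρ hrE
    have h1 : 4 * w1 * lam * r ≤ Ep l (-(9 * v)) := by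
      have h2 : 4 * lam * Ep l (1 - (1200 + j) * v + (1246 * v + 1)) ≤ Ep l (-(9 * v)) :=
        Ep_mul_le (by linarith only [hlam, hlam4]) (by linarith only [hv', hjv])
      rw [Ep_add] at h2
      have := mul_le_mul_of_nonneg_left hrE (show 0 ≤ 4 * w1 * lam by positivity)
      linarith only [h2, this]
    refine ⟨h1, ?_⟩
    have h3 := prod_dom hlam hr hρ (hX.pow (nn g m)) hP.1 (hcell m le_rfl)
      (h1.trans (Ep_le_one l (by omega)))
    rw [← pow_mul] at h3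
    refine DP.mono h3 hX le_rfl ?_
    have h4 : r ^ 2 ≤ Ep l ((1246 * v + 1) * (2 : ℕ)) := by
      rw [← Ep_pow]; exact pow_le_pow_left₀ (by positivity) hrE 2
    have h5 : 2 * Ep l ((1246 * v + 1) * (2 : ℕ)) ≤ Ep l (2492 * v + 3) :=
      Ep_mul_le (by linarith) (by push_cast; omega)
    have h6 : 2 ^ l * Ep l (2492 * v + 3) ≤ Ep l (2492 * v + 4) := Ep_mul_le le_rfl (by omega)
    have h7 := hdd h6 (by omega)
    have h8 : (ρ : ℝ) + 1 ≤ Ep l (2492 * v + 3) := by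
      have := one_le_pow₀ (n := 2) hr
      linarith
    have h9 : 2 ^ l * d + dst lam ≤ 2 ^ l * (d + d) := by
      have := mul_le_mul_of_nonneg_right hL256' hd0
      linarith
    have := mul_le_mul h8 h9 (by positivity) (Ep_pos _ _).le
    linarith
  set ω := Ep l (-(9 * v)) with hω
  have hω0 : 0 < ω := Ep_pos _ _
  have hωL : 2 ^ l * ω ≤ 1 := (Ep_mul_le le_rfl (by omega)).trans (Ep_zero l).le
  have hω2 : ω ≤ 1 / 2 := by nlinarith only [hωL, hω0, hL256']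
  have hWall : ∀ ρ ≤ (2 ^ l) ^ (1245 * (2 * v)) + (2 ^ l) ^ (1246 * (2 * v)) +
      (2 ^ l) ^ (1245 * (2 * v)),
      DP X ((PQ X Y g m).1 ^ ρ - X ^ (nn g m * ρ)) (nn g m * ρ) ω dW := by
    intro ρ hρ
    have h1 : (2 ^ l) ^ (1245 * (2 * v)) ≤ (2 ^ l) ^ (1246 * (2 * v)) := npow_le (by omega)
    have h2 : 3 * (2 ^ l) ^ (1246 * (2 * v)) ≤ (2 ^ l) ^ (2492 * v + 2) :=
      nmul_le (by omega) (by omega)
    have h3 : (ρ : ℝ) ≤ Ep l (1246 * v + 1) ^ 2 := by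
      rw [Ep_pow]
      refine le_trans ?_ (Ep_mono l (show ((2492 * v + 2 : ℕ) : ℤ) ≤ _ by push_cast; omega))
      rw [← Ep_nat]; exact_mod_cast (show ρ ≤ _ by omega)
    obtain ⟨h4, h5⟩ := hWgen ρ _ (one_le_Ep l (by omega)) h3 le_rfl
    exact h5.mono hX h4 le_rfl
  have hhalf : ∀ i ≤ J, 2 ^ (i / 2 + 1) ≤ (2 ^ l) ^ (1246 * v + 1) := by
    intro i hi
    rw [← pow_mul]
    refine Nat.pow_le_pow_right (by norm_num) ?_
    have : J ≤ 2 * (l * (1246 * v)) := by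
      rw [hJdef, ← mul_assoc, mul_comm 2 l, mul_assoc]; exact Nat.mul_le_mul_left _ (by omega)
    rw [mul_add]; omega
  have hWj : ∀ i ≤ J, 4 * w1 * lam * 2 ^ (i / 2 + 1) ≤ ω ∧
      DP X ((PQ X Y g m).1 ^ 2 ^ i - X ^ (nn g m * 2 ^ i)) (nn g m * 2 ^ i)
        (4 * w1 * lam * 2 ^ (i / 2 + 1)) dW := by
    intro i hi
    refine hWgen _ _ (one_le_pow₀ (by norm_num)) (by push_cast; exact half_pow_le i) ?_
    have := hhalf i hi
    rw [show (1246 * v + 1 : ℤ) = (1246 * v + 1 : ℕ) by push_cast; rfl, ← Ep_nat]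
    exact_mod_cast this
  have hJ' : 42 + 18 * (J : ℝ) ≤ 2 ^ l := by exact_mod_cast hJ
  set ψ := Ep l (3 - (1200 + j) * v) with hψ
  have hψ1 : 2 ^ l * (2 ^ l * w1) ≤ ψ := by
    have h1 : 2 ^ l * w1 ≤ Ep l (2 - (1200 + j) * v) := Ep_mul_le le_rfl (by omega)
    exact (mul_le_mul_of_nonneg_left h1 (by positivity)).trans (Ep_mul_le le_rfl (by omega))
  have hψ2 : 2 ^ l * w1 ≤ ψ := le_trans (by nlinarith only [hL256', show 0 ≤ 2 ^ l * w1 by positivity]) hψ1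
  let S : StepData X Y g m J ((2 ^ l) ^ β) ψ ω dW :=
    { cg := (2 ^ l) ^ (β + 2 * 1)
      τg := Ep l (1 - (1 : ℕ))
      cs := fun i => (2 ^ l) ^ β * (2 ^ (i / 2) * 2 ^ l) ^ 2
      τ := fun i => 2 * cA * lam / (2 ^ (i / 2) * 2 ^ l : ℕ)
      w := fun i => 4 * w1 * lam * 2 ^ (i / 2 + 1)
      w1 := w1
      hSg := hSlp 1 (by omega)
      hcg := hg1
      hS := fun i hi => hSl _ (Nat.one_le_iff_ne_zero.2 (by positivity)) (by
        have h1 := hhalf i hi.le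
        have h2 : 2 ^ (i / 2) ≤ 2 ^ (i / 2 + 1) := Nat.pow_le_pow_right (by norm_num) (by omega)
        refine (Nat.mul_le_mul_right _ (h2.trans h1)).trans ?_
        rw [← pow_succ]; exact npow_le (by omega))
      hcs := fun i _ => by
        have h1 : (2 ^ (i / 2)) ^ 2 ≤ 2 ^ i := by
          rw [← pow_mul]; exact Nat.pow_le_pow_right (by norm_num) (by omega)
        have h2 : 2 * (2 ^ l) ^ (β + 2) ≤ (2 ^ l) ^ (β + 4) := nmul_le (by omega) (by omega)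
        rw [hg]
        calc 2 * ((2 ^ l) ^ β * (2 ^ (i / 2) * 2 ^ l) ^ 2)
            = 2 * (2 ^ l) ^ (β + 2) * (2 ^ (i / 2)) ^ 2 := by ring
          _ ≤ _ := Nat.mul_le_mul h2 h1
      hcell := fun t ht => (hcell t ht.le).mono hX le_rfl (by
        have := hdd (Ep_one l).ge (by omega)
        linarith only [this, show 0 ≤ 2 ^ l * d by positivity])
      hw10 := hw10.le
      hw1 := hw11
      hW := fun i hi => (hWj i hi).2
      hw := fun i hi => (hWj i hi).1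
      hω := hω2
      hJ := by nlinarith only [hJ', hωL, hω0, Nat.cast_nonneg (α := ℝ) J]
      hψ1 := by simp only [Nat.cast_one, sub_self, Ep_zero]; nlinarith only [hψ2, hw10, hL256']
      hψ0 := by simp only [Nat.cast_one, sub_self, Ep_zero]; norm_num; nlinarith only [hψ2, hw10, hlam4]
      hψ := fun i _ => by
        have h1 : 2 * cA * lam / (2 ^ (i / 2) * 2 ^ l : ℕ) ≤ 1 / 2 ^ (i / 2) := by
          push_cast
          rw [div_le_div_iff₀ (by positivity) (by positivity)]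
          nlinarith only [hL1, show (0 : ℝ) < 2 ^ (i / 2) by positivity]
        refine (mul_le_mul_of_nonneg_left h1 (by positivity)).trans ?_
        rw [pow_succ, show 4 * w1 * lam * (2 ^ (i / 2) * 2) * (1 / 2 ^ (i / 2)) = 8 * lam * w1 by
          field_simp; ring]
        nlinarith only [hψ2, hw10, hlam4] }
  have hLW := hL.mono hX le_rfl hddW
  have hml' : m + 1 ≤ 2 ^ l := by have := Nat.lt_two_pow_self (n := l); omega
  have hT := (tiny_gen (g := g) (m := m) (J := J) (τ' := Ep l (-1)) hX hLW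
    (hSlp (β + 7) (by omega)) (by
      rw [hg, Ep_nat, mul_assoc, ← Ep_add]; exact Ep_mul_le (by linarith) (by push_cast; omega))
    (by
      have h1 : (m + 1) * (2 ^ l) ^ (β + 2 * (β + 7)) ≤ (2 ^ l) ^ (3 * β + 15) :=
        nmul_le hml' (by omega)
      have h2 : (2 ^ l) ^ β ≤ (2 ^ l) ^ (3 * β + 15) := npow_le (by omega)
      have h3 : 2 * (2 ^ l) ^ (3 * β + 15) ≤ (2 ^ l) ^ (β + 4 + (2 * β + 12)) :=
        nmul_le (by omega) (by omega)
      rw [hg, hJp, ← pow_add]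
      rw [add_mul] at h1
      omega)).mono hX (show _ ≤ Ep l (-(10 * v)) * e * e by
        have h1 : 2 * Ep l (1 - (β + 7 : ℕ)) ≤ 1 :=
          (Ep_mul_le (by linarith) (by push_cast; omega)).trans (Ep_zero l).le
        have h2 : Ep l (-1) ^ m ≤ Ep l (-(10 * v)) * e := by
          rw [Ep_pow, he, ← Ep_add]; exact Ep_mono l (by linarith only [hm'])
        calc _ ≤ 1 * e * (Ep l (-(10 * v)) * e) :=
              mul_le_mul (mul_le_mul_of_nonneg_right h1 he0.le) h2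
                (pow_nonneg (Ep_pos _ _).le _) (by positivity)
          _ = _ := by ring) (le_of_eq (show _ = (m + 2) * dW by ring))
  have hGam : Gam m J ≤ Ep l 2 := by
    have h1 : (8 : ℝ) ^ m ≤ 2 ^ l := by
      rw [show (8 : ℝ) = 2 ^ 3 by norm_num, ← pow_mul]; exact pow_le_pow_right₀ (by norm_num) (by omega)
    rw [show (2 : ℤ) = 1 + 1 by norm_num, Ep_add, Ep_one]
    exact mul_le_mul h1 hJ' (by positivity) (by positivity)
  have hGψ : Gam m J * ψ ≤ Ep l 5 * e := by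
    rw [he, ← Ep_add]
    refine (mul_le_mul_of_nonneg_right hGam (Ep_pos _ _).le).trans ?_
    rw [← Ep_add]; exact Ep_mono l (by omega)
  have hGψ0 : 0 ≤ Gam m J * ψ := mul_nonneg (by unfold Gam; positivity) (Ep_pos _ _).le
  have hmJ : (m : ℝ) + 2 * J + 15 ≤ Ep l 2 := by
    have h1 : (m : ℝ) + 1 ≤ 2 ^ l := by exact_mod_cast hml'
    rw [show (2 : ℤ) = 1 + 1 by norm_num, Ep_add, Ep_one]
    nlinarith only [h1, hJ', hL256']
  have hdout : ∀ {c : ℝ} {k : ℤ}, c ≤ Ep l k → k ≤ 1200 * v →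
      c * dW ≤ Ep l (3700 * (2 * v : ℕ)) * dst lam := by
    intro c k hc hk
    refine (mul_le_mul_of_nonneg_right hc hdW0).trans ?_
    rw [hdW, ← mul_assoc, ← Ep_add]
    exact mul_le_mul_of_nonneg_right (Ep_mono l (by push_cast; omega)) hst
  have hJlim : 2 ^ J + 1 + 2 ^ J ≤ (2 ^ l) ^ (1246 * (2 * v)) := by
    have h1 : 3 * (2 ^ l) ^ (2 * β + 12) ≤ (2 ^ l) ^ (1246 * (2 * v)) :=
      nmul_le (by omega) (by omega)
    have := Nat.one_le_two_pow (n := J)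
    omega
  have hee : e * e = Ep l (-(2 * ((1200 + j) * v))) := by rw [he, ← Ep_add]; congr 1; ring
  refine ⟨hP.1, hP.2, ?_, ?_, ?_⟩
  · have hpos' : 1 ≤ (2 ^ l) ^ (2 * β + 12) := Nat.one_le_pow _ _ (by positivity)
    refine (slip_new hX hP.1 (hWall _ (by omega)) (hWall _ (by omega)) hω2
      (hSlp (β + 5) (by omega)) ?_ ?_).mono hP.1 le_rfl hcA ?_
    · have h1 : 2 * (2 ^ l) ^ (2 * β + 6) ≤ (2 ^ l) ^ (2 * β + 12) := nmul_le (by omega) (by omega)
      have h2 : 1 ≤ (2 ^ l) ^ (2 * β + 6) := Nat.one_le_pow _ _ (by positivity)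
      rw [hg, show β + 2 * (β + 5) = (β + 4) + (2 * β + 6) by ring, pow_add]
      exact Nat.mul_le_mul_left _ (by omega)
    · rw [hg, Ep_nat, ← Ep_add]; exact Ep_le_one l (by push_cast; omega)
    · rw [hg, Ep_nat, ← add_mul]
      refine hdout (k := β + 5) ?_ (by omega)
      have h1 : 3 * Ep l (β + 4 : ℕ) ≤ Ep l (β + 5) := Ep_mul_le (by linarith) (by push_cast; omega)
      have := one_le_Ep l (show (0 : ℤ) ≤ (β + 4 : ℕ) by positivity)
      linarith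
  · have hp0 : 2 ^ (l * (45 * v + 9)) = (2 ^ l) ^ (45 * v + 9) := pow_mul _ _ _
    have hN0 : nn g m * 2 ^ (l * (45 * v + 9)) = (2 ^ l) ^ (1245 * v + 1) := by
      rw [hg, hp0, ← pow_add]; congr 1; omega
    have hj0 : l * (45 * v + 9) < J := Nat.mul_lt_mul_of_pos_left (by omega) (by omega)
    have h1 := stepL hX hY (one_le_Ep l (by omega)) S hLW (hG.mono hX le_rfl hddW) hj0
      (by rw [hN0]; exact nmul_le (by omega) le_rfl)
      (by
        have h1 : 3 * (2 ^ l) ^ (1245 * v + 1) ≤ (2 ^ l) ^ (1246 * v) :=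
          nmul_le (by omega) (by omega)
        have h2 : (2 ^ l) ^ (β + 4) ≤ (2 ^ l) ^ (1245 * v + 1) := npow_le (by omega)
        rw [hN0, hg]; omega)
      (fun ρ hρ => hWall ρ (by omega)) (S.hw _ hj0.le) hT
    rw [hJp] at h1
    refine h1.mono hP.1 ?_ ?_
    · have k1 : Gam m J * ψ * Ep l (-((1203 + j) * v)) ≤ Ep l (5 - 3 * v) * (e * e) := by
        refine (mul_le_mul_of_nonneg_right hGψ (Ep_pos _ _).le).trans (le_of_eq ?_)
        rw [hee, he, ← Ep_add, ← Ep_add, ← Ep_add]; congr 1; ring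
      have k2 : Gam m J * ψ * ω * e ≤ Ep l (5 - 3 * v) * (e * e) := by
        have : Ep l 5 * ω ≤ Ep l (5 - 3 * v) := by rw [hω, ← Ep_add]; exact Ep_mono l (by omega)
        have k5 := mul_le_mul_of_nonneg_right this (show 0 ≤ e * e by positivity)
        have := mul_le_mul_of_nonneg_right hGψ (show 0 ≤ ω * e by positivity)
        linarith only [this, k5]
      have k3 : Ep l (-(10 * v)) * e * e ≤ Ep l (5 - 3 * v) * (e * e) := by
        rw [mul_assoc]; exact mul_le_mul_of_nonneg_right (Ep_mono l (by omega)) (by positivity)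
      have k4 : 36 * (Ep l (5 - 3 * v) * (e * e)) ≤ Ep l (-((1200 + (j + 1 : ℕ)) * (2 * v : ℕ))) := by
        rw [hee, ← Ep_add]; exact Ep_mul_le (by linarith only [hL256']) (by push_cast; linarith only [hv'])
      linarith only [k1, k2, k3, k4]
    · rw [← mul_assoc]
      refine hdout (k := 9 * v + 2) ?_ (by omega)
      rw [Ep_add]; exact mul_le_mul_of_nonneg_left (by linarith) (Ep_pos _ _).le
  · have hp1 : 2 ^ (l * (18 * v)) = (2 ^ l) ^ (18 * v) := pow_mul _ _ _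
    have hN1 : nn g m * 2 ^ (l * (18 * v)) = (2 ^ l) ^ (β + 4 + 18 * v) := by
      rw [hg, hp1, ← pow_add]
    have hr2 : ((2 ^ l) ^ (9 * v)) ^ 2 = (2 ^ l) ^ (18 * v) := by rw [← pow_mul]; congr 1; omega
    have hσ : nn g m * 2 ^ (l * (18 * v)) + nn g m + nn g m * 2 ^ (l * (18 * v)) ≤
        (2 ^ l) ^ (β + 5 + 18 * v) := by
      have h1 : 3 * (2 ^ l) ^ (β + 4 + 18 * v) ≤ (2 ^ l) ^ (β + 5 + 18 * v) :=
        nmul_le (by omega) (by omega)
      have h2 : (2 ^ l) ^ (β + 4) ≤ (2 ^ l) ^ (β + 4 + 18 * v) := npow_le (by omega)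
      rw [hN1, hg]; omega
    have hrσ : ((2 ^ l) ^ (9 * v)) ^ 2 *
        (nn g m * 2 ^ (l * (18 * v)) + nn g m + nn g m * 2 ^ (l * (18 * v))) ≤
        (2 ^ l) ^ (β + 5 + 36 * v) := by
      refine (Nat.mul_le_mul_left _ hσ).trans (le_of_eq ?_)
      rw [hr2, ← pow_add]; congr 1; omega
    have h1 := stepG (r := (2 ^ l) ^ (9 * v)) (j1 := l * (18 * v)) (ν := ω) hX hY S hlam
      (Nat.one_le_pow _ _ (by positivity)) (hstd.trans hddW) hLW
      (hSlp (β + 7 + 45 * v) (by omega)) (by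
        have h1 : ((((2 ^ l) ^ (9 * v)) ^ 2 : ℕ) : ℝ) *
            (nn g m * 2 ^ (l * (18 * v)) + nn g m + nn g m * 2 ^ (l * (18 * v)) : ℕ) ≤
            Ep l (β + 5 + 36 * v : ℕ) := by rw [← Ep_nat]; exact_mod_cast hrσ
        refine (mul_le_mul_of_nonneg_right (mul_le_mul_of_nonneg_left h1 (by norm_num))
          (Ep_pos _ _).le).trans ?_
        rw [mul_assoc, ← Ep_add]; exact Ep_mul_le (by linarith) (by push_cast; omega)) hω2
      (by
        have h1 : 4 * (2 ^ l) ^ (18 * v + 18 * v) ≤ (2 ^ l) ^ (2 * β + 12) :=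
          nmul_le (by omega) (by omega)
        have h2 : 1 ≤ (2 ^ l) ^ (18 * v) := Nat.one_le_pow _ _ (by positivity)
        rw [hr2, hp1, hJp]
        rw [pow_add] at h1
        nlinarith only [h1, h2])
      (by
        have h1 : 6 * (2 ^ l) ^ (18 * v + β) ≤ (2 ^ l) ^ (β + 4 + 18 * v) :=
          nmul_le (by omega) (by omega)
        rw [hr2, hN1]
        rw [pow_add] at h1
        nlinarith only [h1, Nat.mul_le_mul_left ((2 ^ l) ^ (18 * v)) hpos])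
      (by
        have h1 : 2 * (2 ^ l) ^ (β + 2 * (β + 7 + 45 * v)) ≤ (2 ^ l) ^ (β + 4 + 1245 * (2 * v)) :=
          nmul_le (by omega) (by omega)
        have h2 : (2 ^ l) ^ (β + 5 + 36 * v) ≤ (2 ^ l) ^ (β + 2 * (β + 7 + 45 * v)) :=
          npow_le (by omega)
        conv_rhs => rw [hg, ← pow_add]
        omega) hJlim hWall hT
    rw [hJp] at h1
    have hκ : (((2 ^ l) ^ (9 * v) : ℕ) : ℝ) ^ 2 = Ep l (9 * (2 * v : ℕ)) := by
      rw [Ep_nat, Ep_pow]; congr 1; push_cast; ring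
    rw [hκ] at h1
    refine h1.mono hP.1 ?_ ?_
    · have k0 : 4 * lam / (((2 ^ l) ^ (9 * v) : ℕ) : ℝ) ≤ Ep l (1 - 9 * v) :=
        Ep_div_le (by linarith) _ (by push_cast; omega)
      have k0' : ω ≤ Ep l (1 - 9 * v) := Ep_mono l (by omega)
      have k1 : Gam m J * ψ * e * Ep l (1 - 9 * v) ≤ Ep l (6 - 9 * v) * (e * e) := by
        have := mul_le_mul_of_nonneg_right hGψ
          (show 0 ≤ e * Ep l (1 - 9 * v) from mul_nonneg he0.le (Ep_pos _ _).le)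
        rw [show (6 - 9 * v : ℤ) = 5 + (1 - 9 * v) by ring, Ep_add]
        linarith only [this]
      have k2 := mul_le_mul_of_nonneg_left k0 (mul_nonneg hGψ0 he0.le)
      have k2' := mul_le_mul_of_nonneg_left k0' (mul_nonneg hGψ0 he0.le)
      have k3 : Ep l (-(10 * v)) * e * e ≤ Ep l (6 - 9 * v) * (e * e) := by
        rw [mul_assoc]; exact mul_le_mul_of_nonneg_right (Ep_mono l (by omega)) (by positivity)
      have k4 : 220 * (Ep l (6 - 9 * v) * (e * e)) ≤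
          Ep l (-((1203 + (j + 1 : ℕ)) * (2 * v : ℕ))) := by
        rw [hee, ← Ep_add]; exact Ep_mul_le (by linarith only [hL256']) (by push_cast; linarith only [hv'])
      linarith only [k1, k2, k2', k3, k4]
    · rw [← mul_assoc]
      refine hdout (k := 9 * (2 * v : ℕ) + 2) ?_ (by push_cast; omega)
      rw [Ep_add]; exact mul_le_mul_of_nonneg_left (by linarith) (Ep_pos _ _).le

end Vale.Agent.P321
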