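import Vale.Agent.P321.Slip

/-! A slip estimate from a positive overlap of two consecutive powers. -/

namespace Vale.Agent.P321

open MonoidAlgebra Real

variable {M : Type} [Monoid M]

abbrev Gr (M : Type) := M × Multiplicative ℕ

noncomputable def io : Alg M →+* Alg (Gr M) :=
  mapDomainRingHom ℝ (MonoidHom.inl M (Multiplicative ℕ))

noncomputable def zz : Alg (Gr M) := single (1, Multiplicative.ofAdd 1) 1

lemma io_eq (A : Alg M) : io A = mapDomain (fun t => (t, (1 : Multiplicative ℕ))) A := rfl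

lemma zz_comm (S : Alg (Gr M)) : Commute zz S :=
  single_commute (fun m' => by
    ext
    · simp
    · simp [mul_comm]) (fun r' => Commute.one_left r') S

lemma zz_prob : Prob (zz : Alg (Gr M)) := ⟨NN.single _ zero_le_one, mass_single _ _⟩

lemma coeff_zz_mul (S : Alg (Gr M)) (t : M) (j : ℕ) :
    (zz * S).coeff (t, Multiplicative.ofAdd (j + 1)) = S.coeff (t, Multiplicative.ofAdd j) := by
  rw [zz, coeff_single_mul_eq_mul_coeff (m₂ := (t, Multiplicative.ofAdd j)), one_mul]
  rintro ⟨s, i⟩ -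
  simp only [Prod.mk_mul_mk, one_mul, Prod.mk.injEq]
  refine and_congr_right fun _ => ?_
  rw [add_comm, ofAdd_add]
  exact mul_right_inj _

lemma zz_pow_mul_io (i : ℕ) (A : Alg M) :
    zz ^ i * io A = mapDomain (fun t => (t, Multiplicative.ofAdd i)) A := by
  induction A using MonoidAlgebra.induction_linear with
  | zero => simp
  | add a b ha hb => simp only [map_add, mul_add, mapDomain_add, ha, hb]
  | single s r =>
    rw [io_eq, mapDomain_single, mapDomain_single, zz, single_pow, single_mul_single]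
    simp [← ofAdd_nsmul]

lemma coeff_zz_pow_mul_io (i j : ℕ) (A : Alg M) (t : M) :
    (zz ^ i * io A).coeff (t, Multiplicative.ofAdd j) = if i = j then A.coeff t else 0 := by
  classical
  rw [zz_pow_mul_io, coeff_eq_pair, pair_mapDomain]
  split_ifs with h
  · subst h
    rw [coeff_eq_pair]
    simp
  · simp [h, pair_const]

/-- A slice of a graded measure. -/
noncomputable def sl (j : ℕ) (S : Alg (Gr M)) : Alg M :=
  comapDomain (fun t => (t, Multiplicative.ofAdd j)) (fun _ _ h => (Prod.mk.inj h).1) S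

omit [Monoid M] in
lemma coeff_sl (j : ℕ) (S : Alg (Gr M)) (t : M) :
    (sl j S).coeff t = S.coeff (t, Multiplicative.ofAdd j) := rfl

omit [Monoid M] in
lemma mass_sl_le (j : ℕ) {E : Alg (Gr M)} (hE : NN E) : mass (sl j E) ≤ mass E := by
  classical
  rw [← mass_mapDomain (fun t => (t, Multiplicative.ofAdd j)) (sl j E)]
  refine pair_le_pair (fun p => ?_) fun _ => zero_le_one
  by_cases h : ∃ t, (t, Multiplicative.ofAdd j) = p
  · obtain ⟨t, rfl⟩ := h
    change Finsupp.mapDomain _ _ _ ≤ _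
    rw [Finsupp.mapDomain_apply (fun _ _ h => (Prod.mk.inj h).1), coeff_sl]
  · change Finsupp.mapDomain _ _ _ ≤ _
    rw [Finsupp.mapDomain_of_notMem_range _ _ h]
    exact hE p

set_option maxHeartbeats 1000000 in
lemma slip_of_overlap {X G : Alg M} {a r : ℕ} {θ lam : ℝ} (hX : Prob X) (hG : NN G)
    (h1 : ∀ t, G.coeff t ≤ (X ^ a).coeff t) (h2 : ∀ t, G.coeff t ≤ (X ^ (a + 1)).coeff t)
    (hθ : 0 < θ) (hm : θ ≤ mass G) (hlam : 1 ≤ lam) (hr : 8 * lam ≤ θ * (2 * r : ℕ)) :
    Slip X (a * (2 * r) ^ 2 + 2 * r ^ 2) 4 ((((2 * r) ^ 2 : ℕ) + 1) * dst lam) := by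
  set μ := mass G with hμ
  have hμ0 : 0 < μ := hθ.trans_le hm
  have hμ1 : μ ≤ 1 := by
    have := pair_le_pair h1 (g := fun _ => 1) fun _ => zero_le_one
    have h3 := (hX.pow a).2
    unfold mass at h3
    rwa [h3] at this
  set ρ : ℝ := ((2 * r : ℕ) : ℝ) with hρ
  have hρ1 : 1 ≤ ρ := by nlinarith only [hr, hlam, hm, hμ1, hθ, Nat.cast_nonneg (α := ℝ) (2 * r)]
  set m := (2 * r) ^ 2 with hmdef
  have hmρ : (m : ℝ) = ρ ^ 2 := by rw [hmdef, hρ]; push_cast; rfl
  set V : Alg (Gr M) := (1 / 2 : ℝ) • (io (X ^ a) + zz * io (X ^ (a + 1))) with hV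
  have p1 : Prob (io (X ^ a)) := (hX.pow a).mapDomain _
  have p2 : Prob (zz * io (X ^ (a + 1))) := zz_prob.mul ((hX.pow _).mapDomain _)
  have hVp : Prob V := ⟨(p1.1.add p2.1).smul (by norm_num), by
    rw [hV, mass_smul, mass_add, p1.2, p2.2]; norm_num⟩
  have g1 : AbsLe (io G) (io (X ^ a)) := (hG.absLe.trans_le h1).mapDomain _
  have g2 : AbsLe (zz * io G) (zz * io (X ^ (a + 1))) :=
    zz_prob.1.absLe.mul ((hG.absLe.trans_le h2).mapDomain _)
  have n1 : NN (io G) := hG.mapDomain _
  have n2 : NN (zz * io G) := zz_prob.1.mul n1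
  have mG : mass (io G) = μ := mass_mapDomain _ _
  have mzG : mass (zz * io G) = μ := by rw [mass_mul, zz_prob.2, mG, one_mul]
  set Z : Alg (Gr M) := (1 / 2 : ℝ) • (zz * io G - io G) with hZ
  set Z' : Alg (Gr M) := (1 / 2 : ℝ) • (io G + zz * io G) - μ • V with hZ'
  have dZ : Dom Z V 1 0 := Dom.of_absLe zero_le_one fun t => by
    have a1 := g1 t
    have a2 := g2 t
    have a3 := n1 t
    have a4 := n2 t
    rw [abs_of_nonneg a3] at a1
    rw [abs_of_nonneg a4] at a2
    simp only [hZ, hV, coeff_smul, coeff_sub, coeff_add, Finsupp.smul_apply, Finsupp.sub_apply,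
      Finsupp.add_apply, smul_eq_mul, abs_le]
    constructor <;> linarith
  have dZ' : Dom Z' V 1 0 := Dom.of_absLe zero_le_one fun t => by
    have a1 := g1 t
    have a2 := g2 t
    have a3 := n1 t
    have a4 := n2 t
    have a5 := hVp.1 t
    rw [abs_of_nonneg a3] at a1
    rw [abs_of_nonneg a4] at a2
    simp only [hZ', hV, coeff_smul, coeff_sub, coeff_add, Finsupp.smul_apply, Finsupp.sub_apply,
      Finsupp.add_apply, smul_eq_mul, abs_le] at a5 ⊢
    constructor <;> nlinarith
  obtain ⟨-, -, E, hE, mE, hS⟩ := avg (m := m) hlam hρ1 hmρ.le hVp dZ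
    (by rw [hZ, mass_smul, mass_sub, mG, mzG]; ring)
  obtain ⟨-, -, E', hE', mE', hS'⟩ := avg (m := m) hlam hρ1 hmρ.le hVp dZ'
    (by rw [hZ', mass_sub, mass_smul, mass_smul, mass_add, mG, mzG, hVp.2]; ring)
  set S := ∑ k ∈ Finset.range m, V ^ k * Z * V ^ (m - 1 - k) with hSdef
  set S' := ∑ k ∈ Finset.range m, V ^ k * Z' * V ^ (m - 1 - k) with hS'def
  have key : (μ * m) • (zz * V ^ m - V ^ m) = S + zz * S - zz * S' + S' := by
    have e1 : Z + zz * Z - zz * Z' + Z' = μ • (zz * V - V) := by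
      simp only [hZ, hZ', mul_sub, mul_add, mul_smul_comm, smul_sub, smul_add]
      module
    have e2 : ∀ k ∈ Finset.range m, V ^ k * Z * V ^ (m - 1 - k) + zz * (V ^ k * Z * V ^ (m - 1 - k))
        - zz * (V ^ k * Z' * V ^ (m - 1 - k)) + V ^ k * Z' * V ^ (m - 1 - k) =
        μ • (zz * V ^ m - V ^ m) := by
      intro k hk
      rw [Finset.mem_range] at hk
      have c1 : ∀ W : Alg (Gr M), zz * (V ^ k * W * V ^ (m - 1 - k)) =
          V ^ k * (zz * W) * V ^ (m - 1 - k) := fun W => by
        rw [← mul_assoc, ← mul_assoc, (zz_comm (V ^ k)).eq, mul_assoc (V ^ k)]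
      have c2 : V ^ m = V ^ k * V * V ^ (m - 1 - k) := by
        rw [← pow_succ, ← pow_add]; congr 1; omega
      rw [c1, c1, ← add_mul, ← sub_mul, ← add_mul, ← mul_add, ← mul_sub, ← mul_add, e1, c2, c1,
        mul_smul_comm, smul_mul_assoc, mul_sub, sub_mul]
    rw [hSdef, hS'def, Finset.mul_sum, Finset.mul_sum, ← Finset.sum_add_distrib,
      ← Finset.sum_sub_distrib, ← Finset.sum_add_distrib, Finset.sum_congr rfl e2,
      Finset.sum_const, Finset.card_range, ← Nat.cast_smul_eq_nsmul ℝ, smul_smul, mul_comm]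
  have hVm : ∀ (j : ℕ) (t : M), j ≤ m → (V ^ m).coeff (t, Multiplicative.ofAdd j) =
      (1 / 2) ^ m * m.choose j * (X ^ (a * m + j)).coeff t := by
    intro j t hj
    have c1 : Commute (zz * io (X ^ (a + 1))) (io (X ^ a)) :=
      (zz_comm _).mul_left (((Commute.refl X).pow_pow _ _).map io)
    rw [hV, smul_pow, add_comm, c1.add_pow]
    have e : ∀ i ∈ Finset.range (m + 1), (zz * io (X ^ (a + 1))) ^ i * io (X ^ a) ^ (m - i) *
        (m.choose i : Alg (Gr M)) = (m.choose i : ℝ) • (zz ^ i * io (X ^ (a * m + i))) := by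
      intro i hi
      rw [Finset.mem_range] at hi
      rw [(zz_comm _).mul_pow, ← map_pow, ← map_pow, mul_assoc (zz ^ i), ← map_mul, ← pow_mul,
        ← pow_mul, ← pow_add, Nat.cast_smul_eq_nsmul, nsmul_eq_mul']
      obtain ⟨k, hk⟩ : ∃ k, m = i + k := ⟨m - i, by omega⟩
      rw [show (a + 1) * i + a * (m - i) = a * m + i by rw [hk, Nat.add_sub_cancel_left]; ring]
    rw [Finset.sum_congr rfl e, coeff_smul, coeff_sum, Finsupp.smul_apply, Finsupp.finsetSum_apply]
    simp only [coeff_smul, Finsupp.smul_apply, coeff_zz_pow_mul_io, smul_eq_mul, mul_ite, mul_zero]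
    rw [Finset.sum_ite_eq' , if_pos (by rw [Finset.mem_range]; omega)]
    ring
  set j := 2 * r ^ 2 with hj
  have hmj : m = 2 * j := by rw [hmdef, hj]; ring
  have hr1 : 1 ≤ r := by
    have : (1 : ℝ) ≤ (2 * r : ℕ) := hρ1
    have : 1 ≤ 2 * r := by exact_mod_cast this
    omega
  have hj1 : 1 ≤ j := by rw [hj]; nlinarith only [hr1]
  set ϖ : ℝ := (1 / 2) ^ m * m.choose j with hϖ
  have hϖ1 : 1 ≤ (m + 1) * ϖ := by
    have h3 := Nat.four_pow_le_two_mul_add_one_mul_central_binom j
    have h4 : ((4 ^ j : ℕ) : ℝ) ≤ ((2 * j + 1) * (2 * j).choose j : ℕ) := by exact_mod_cast h3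
    rw [← hmj] at h4
    push_cast at h4
    have h5 : (1 / 2 : ℝ) ^ m * 4 ^ j = 1 := by
      rw [hmj, pow_mul, ← mul_pow]; norm_num
    have := mul_le_mul_of_nonneg_left h4 (show (0 : ℝ) ≤ (1 / 2) ^ m by positivity)
    rw [hϖ]; linarith
  have hϖ2 : (1 / 2) ^ m * (m.choose (j + 1) : ℝ) ≤ ϖ := by
    have h3 := Nat.choose_le_middle (j + 1) m
    rw [show m / 2 = j by omega] at h3
    exact mul_le_mul_of_nonneg_left (by exact_mod_cast h3) (by positivity)
  have hϖ0 : 0 < ϖ := by
    by_contra h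
    have : (m + 1) * ϖ ≤ 0 := mul_nonpos_of_nonneg_of_nonpos (by positivity) (not_lt.1 h)
    linarith
  set H := 2 * 1 * lam * ρ with hH
  have hH0 : 0 < H := by positivity
  have hH4 : 4 * H ≤ μ * m := by
    rw [hmρ, hH]
    nlinarith only [mul_le_mul_of_nonneg_right hm (show 0 ≤ ρ by linarith), hr, hρ1]
  set F := sl j E + sl (j + 1) E + sl j E' + sl (j + 1) E' with hF
  have nsl : ∀ (i : ℕ) {W : Alg (Gr M)}, NN W → NN (sl i W) := fun i W hW t => by
    rw [coeff_sl]; exact hW _
  have hD : Dom (X ^ (a * m + j)) (X ^ (a * m + j + 1)) 3 ((m + 1) * dst lam) := by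
    have hds := dst_nonneg lam
    refine ⟨by norm_num, by positivity, ((m + 1) / (2 * H)) • F,
      ((((nsl _ hE).add (nsl _ hE)).add (nsl _ hE')).add (nsl _ hE')).smul (by positivity), ?_,
      fun t => ?_⟩
    · rw [mass_smul, hF, mass_add, mass_add, mass_add]
      simp only [mul_zero, zero_add] at mE mE'
      have b1 := mass_sl_le j hE
      have b2 := mass_sl_le (j + 1) hE
      have b3 := mass_sl_le j hE'
      have b4 := mass_sl_le (j + 1) hE'
      have b5 := expm1_nat (m + 1) (dst lam)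
      have b6 := expm1_nonneg (show 0 ≤ (m + 1) * dst lam by positivity)
      push_cast at b5
      refine (mul_le_mul_of_nonneg_left (show _ ≤ 4 * (H * (exp (dst lam) - 1)) by linarith)
        (by positivity)).trans ?_
      rw [show (m + 1) / (2 * H) * (4 * (H * (exp (dst lam) - 1))) =
        2 * ((m + 1) * (exp (dst lam) - 1)) by field_simp; ring]
      linarith
    · have k0 := congrArg (fun W : Alg (Gr M) => W.coeff (t, Multiplicative.ofAdd (j + 1))) key
      have k1 := hS (t, Multiplicative.ofAdd j)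
      have k2 := hS (t, Multiplicative.ofAdd (j + 1))
      have k3 := hS' (t, Multiplicative.ofAdd j)
      have k4 := hS' (t, Multiplicative.ofAdd (j + 1))
      simp only [coeff_smul, coeff_sub, coeff_add, Finsupp.smul_apply, Finsupp.sub_apply,
        Finsupp.add_apply, smul_eq_mul, coeff_zz_mul] at k0 k1 k2 k3 k4
      rw [hVm j t (by omega), hVm (j + 1) t (by omega)] at k0
      rw [hVm j t (by omega)] at k1 k3
      rw [hVm (j + 1) t (by omega)] at k2 k4
      simp only [hF, coeff_smul, coeff_add, Finsupp.smul_apply, Finsupp.add_apply, smul_eq_mul,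
        coeff_sl]
      have x0 := (hX.pow (a * m + j)).1 t
      have y0 := (hX.pow (a * m + (j + 1))).1 t
      rw [abs_of_nonneg x0, add_assoc (a * m)]
      set x := (X ^ (a * m + j)).coeff t
      set y := (X ^ (a * m + (j + 1))).coeff t
      set ϖ' : ℝ := (1 / 2) ^ m * (m.choose (j + 1) : ℝ)
      have ϖ0 : 0 ≤ ϖ' := by positivity
      set f := E.coeff (t, Multiplicative.ofAdd j) + E.coeff (t, Multiplicative.ofAdd (j + 1)) +
        E'.coeff (t, Multiplicative.ofAdd j) + E'.coeff (t, Multiplicative.ofAdd (j + 1)) with hf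
      have f0 : 0 ≤ f := by
        have := hE (t, Multiplicative.ofAdd j)
        have := hE (t, Multiplicative.ofAdd (j + 1))
        have := hE' (t, Multiplicative.ofAdd j)
        have := hE' (t, Multiplicative.ofAdd (j + 1))
        linarith
      have k5 : μ * m * (ϖ * x - ϖ' * y) ≤ 2 * H * (ϖ * x + ϖ' * y) + f := by
        rw [k0]
        have := le_abs_self (S.coeff (t, Multiplicative.ofAdd (j + 1)))
        have := le_abs_self (S.coeff (t, Multiplicative.ofAdd j))
        have := neg_le_abs (S'.coeff (t, Multiplicative.ofAdd j))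
        have := le_abs_self (S'.coeff (t, Multiplicative.ofAdd (j + 1)))
        linarith
      have px : 0 ≤ ϖ * x := by positivity
      have py : ϖ' * y ≤ ϖ * y := mul_le_mul_of_nonneg_right hϖ2 y0
      have py0 : 0 ≤ ϖ' * y := by positivity
      by_cases hxy : x ≤ 3 * y
      · have : 0 ≤ (m + 1) / (2 * H) * f := by positivity
        linarith
      · have k6' : ϖ * y ≤ ϖ * x := mul_le_mul_of_nonneg_left (by linarith) hϖ0.le
        have k6 : 0 ≤ ϖ * x - ϖ' * y := by linarith only [k6', py]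
        have k7 : 2 * H * (ϖ * (x - 3 * y)) ≤ f := by
          linarith only [mul_le_mul_of_nonneg_right hH4 k6, k5, mul_le_mul_of_nonneg_left py hH0.le]
        have k8 : x - 3 * y ≤ (m + 1) * (ϖ * (x - 3 * y)) := by
          rw [← mul_assoc]; exact le_mul_of_one_le_left (by linarith) hϖ1
        have k9 : (m + 1) * (ϖ * (x - 3 * y)) ≤ (m + 1) / (2 * H) * f := by
          rw [div_mul_eq_mul_div, le_div_iff₀ (by positivity)]
          linarith only [mul_le_mul_of_nonneg_left k7 (show (0 : ℝ) ≤ m + 1 by positivity)]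
        linarith
  have := ((DP.pw hX (a * m + j + 1)).mono hX le_rfl hD.d_nonneg).sub hD
  exact this.of hX rfl rfl (by norm_num) le_rfl

end Vale.Agent.P321
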