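import Vale.Agent.P321.Decomp

/-! Shell decomposition of the new defect inside the new background. -/

namespace Vale.Agent.P321

open MonoidAlgebra Real

variable {M : Type} [Monoid M]

noncomputable def near (X P D T : Alg M) (N j : ℕ) : Alg M :=
  P ^ 2 ^ j * D * P ^ 2 ^ j - X ^ (N * 2 ^ j) * T * X ^ (N * 2 ^ j)

noncomputable def far (X P D T : Alg M) (N j0 j : ℕ) : Alg M :=
  near X P D T N j - P ^ (2 ^ j - 2 ^ j0) * near X P D T N j0 * P ^ (2 ^ j - 2 ^ j0)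

noncomputable def shellT (X P T : Alg M) (N ρ : ℕ) : Alg M :=
  (P ^ ρ - X ^ (N * ρ)) * (X ^ (N * ρ) * T * X ^ (N * ρ)) * P ^ ρ +
    X ^ (N * ρ) * (X ^ (N * ρ) * T * X ^ (N * ρ)) * (P ^ ρ - X ^ (N * ρ))

variable {X P D T : Alg M} {N c lim : ℕ} {κ : ℝ}

lemma near_succ (j : ℕ) : near X P D T N (j + 1) =
    P ^ 2 ^ j * near X P D T N j * P ^ 2 ^ j + shellT X P T N (2 ^ j) := by
  simp only [near, shellT, pow_succ 2 j, mul_two, mul_add, pow_add]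
  noncomm_ring

lemma far_succ {j0 j : ℕ} (h : j0 ≤ j) : far X P D T N j0 (j + 1) =
    P ^ 2 ^ j * far X P D T N j0 j * P ^ 2 ^ j + shellT X P T N (2 ^ j) := by
  have h1 : 2 ^ j0 ≤ 2 ^ j := Nat.pow_le_pow_right (by norm_num) h
  have e1 : P ^ (2 ^ (j + 1) - 2 ^ j0) = P ^ 2 ^ j * P ^ (2 ^ j - 2 ^ j0) := by
    rw [← pow_add]; congr 1; rw [pow_succ]; omega
  have e2 : P ^ (2 ^ (j + 1) - 2 ^ j0) = P ^ (2 ^ j - 2 ^ j0) * P ^ 2 ^ j := by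
    rw [← pow_add]; congr 1; rw [pow_succ]; omega
  unfold far
  rw [near_succ]
  conv_lhs => arg 2; arg 1; rw [e1]
  conv_lhs => arg 2; arg 2; rw [e2]
  noncomm_ring

lemma mass_near (hD : mass D = 0) (hT : mass T = 0) (j : ℕ) :
    mass (near X P D T N j) = 0 := by
  simp [near, mass_sub, mass_mul, hD, hT]

lemma shell_rec (hX : Prob X) (hκ : 0 ≤ κ) {F w θ : ℕ → _} {j0 j1 : ℕ} {ω φ ν dW d : ℝ}
    (hω : ω ≤ 1) (hω0 : 0 ≤ ω) (hφ : 0 ≤ φ) (hdW : 0 ≤ dW)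
    (hF : ∀ j, j0 ≤ j → F (j + 1) = P ^ 2 ^ j * F j * P ^ 2 ^ j + shellT X P T N (2 ^ j))
    (hW : ∀ j, j0 ≤ j → j < j1 → DP X (P ^ 2 ^ j - X ^ (N * 2 ^ j)) (N * 2 ^ j) (w j) dW)
    (hw : ∀ j, j0 ≤ j → j < j1 → w j ≤ ω)
    (hT : ∀ j, j0 ≤ j → j < j1 → Str X c lim κ (X ^ (N * 2 ^ j) * T * X ^ (N * 2 ^ j))
      (N * 2 ^ j + N + N * 2 ^ j) (θ j) d)
    (hθ : ∀ j, j0 ≤ j → j < j1 → θ j * w j ≤ φ)
    (h0 : Str X c lim κ (F j0) (N * 2 ^ j0 + N + N * 2 ^ j0) ν d) :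
    ∀ i, j0 + i ≤ j1 → Str X c lim κ (F (j0 + i)) (N * 2 ^ (j0 + i) + N + N * 2 ^ (j0 + i))
      ((1 + ω) ^ (2 * i) * (ν + 3 * i * φ)) (d + κ * (2 * i * dW))
  | 0, _ => by simpa using h0
  | i + 1, hi => by
    have ih := shell_rec hX hκ hω hω0 hφ hdW hF hW hw hT hθ h0 i (by omega)
    set j := j0 + i with hj
    have h1 := hW j (by omega) (by omega)
    have h2 := hw j (by omega) (by omega)
    have h3 := hT j (by omega) (by omega)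
    have h4 := hθ j (by omega) (by omega)
    have h5 : DP X (P ^ 2 ^ j) (N * 2 ^ j) (1 + ω) dW :=
      DP.mono (Dom.fwd h1 (hX.pow _).1) hX (by linarith) le_rfl
    have hν := h0.1
    have hm : N * 2 ^ (j + 1) + N + N * 2 ^ (j + 1) =
        N * 2 ^ j + (N * 2 ^ j + N + N * 2 ^ j) + N * 2 ^ j := by ring
    have hκd : 0 ≤ κ * (2 * i * dW) := by positivity
    have k1 := (ih.both h5 h5 hX hκ).of hX rfl hm le_rfl
      (le_of_eq (show _ = d + κ * (2 * (i + 1 : ℕ) * dW) by push_cast; ring))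
    have k2 := (h3.both h1 h5 hX hκ).of hX rfl hm le_rfl
      (show _ ≤ d + κ * (2 * (i + 1 : ℕ) * dW) by push_cast; nlinarith)
    have k3 := (h3.both (DP.pw hX (N * 2 ^ j)) h1 hX hκ).of hX rfl hm le_rfl
      (show _ ≤ d + κ * (2 * (i + 1 : ℕ) * dW) by push_cast; nlinarith [mul_nonneg hκ hdW])
    rw [show j0 + (i + 1) = j + 1 by omega, hF j (by omega)]
    refine (k1.add (k2.add k3 hX) hX).of hX rfl rfl ?_ le_rfl
    have h6 : 1 ≤ (1 + ω) ^ (2 * (i + 1)) := one_le_pow₀ (by linarith)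
    have h7 : w j * (1 + ω) * θ j + 1 * w j * θ j ≤ 3 * φ := by
      nlinarith [mul_nonneg h3.1 h1.h_nonneg]
    have h8 : (1 + ω) ^ (2 * (i + 1)) = (1 + ω) * (1 + ω) * (1 + ω) ^ (2 * i) := by ring
    have h9 : 3 * φ ≤ (1 + ω) ^ (2 * (i + 1)) * (3 * φ) := le_mul_of_one_le_left (by positivity) h6
    push_cast
    rw [← mul_assoc, ← h8]
    nlinarith

lemma one_add_pow_le_three {ω : ℝ} {n : ℕ} (h0 : 0 ≤ ω) (h : n * ω ≤ 1) : (1 + ω) ^ n ≤ 3 := by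
  have h1 : (1 + ω) ^ n ≤ exp ω ^ n :=
    pow_le_pow_left₀ (by linarith) (by linarith [Real.add_one_le_exp ω]) n
  rw [← Real.exp_nat_mul] at h1
  have h2 := Real.exp_le_exp.2 h
  have h3 := Real.exp_one_lt_d9
  linarith

lemma near_str (hX : Prob X) (hκ : 0 ≤ κ) {w θ : ℕ → ℝ} {J : ℕ} {ω φ hH θT dW d : ℝ}
    (hω : ω ≤ 1) (hJ : 2 * J * ω ≤ 1) (hdW : 0 ≤ dW)
    (hW : ∀ j ≤ J, DP X (P ^ 2 ^ j - X ^ (N * 2 ^ j)) (N * 2 ^ j) (w j) dW)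
    (hw : ∀ j ≤ J, w j ≤ ω)
    (hT : ∀ j < J, Str X c lim κ (X ^ (N * 2 ^ j) * T * X ^ (N * 2 ^ j))
      (N * 2 ^ j + N + N * 2 ^ j) (θ j) d)
    (hθ : ∀ j < J, θ j * w j ≤ φ)
    (hH0 : Str X c lim κ (D - T) N hH d) (hT0 : Str X c lim κ T N θT d) (hθT : θT * w 0 ≤ φ) :
    Str X c lim κ (near X P D T N J) (N * 2 ^ J + N + N * 2 ^ J)
      (3 * (4 * hH + 3 * (J + 1) * φ)) (d + κ * ((2 * J + 2) * dW)) := by
  have h1 := hW 0 (Nat.zero_le _)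
  have h2 := hw 0 (Nat.zero_le _)
  have hω0 : 0 ≤ ω := h1.h_nonneg.trans h2
  have hφ : 0 ≤ φ := (mul_nonneg hT0.1 h1.h_nonneg).trans hθT
  have h5 : DP X (P ^ 2 ^ 0) (N * 2 ^ 0) 2 dW :=
    DP.mono (Dom.fwd h1 (hX.pow _).1) hX (by linarith) le_rfl
  have hκd := mul_nonneg hκ hdW
  have k1 := hH0.both h5 h5 hX hκ
  have k2 := hT0.both h1 h5 hX hκ
  have k3 := (hT0.both (DP.pw hX (N * 2 ^ 0)) h1 hX hκ).mono hX le_rfl
    (show _ ≤ d + κ * (dW + dW) by nlinarith)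
  have h0 : Str X c lim κ (near X P D T N 0) (N * 2 ^ 0 + N + N * 2 ^ 0) (4 * hH + 3 * φ)
      (d + κ * (dW + dW)) :=
    (k1.add (k2.add k3 hX) hX).of hX (by unfold near; noncomm_ring) rfl (by nlinarith) le_rfl
  have := shell_rec hX hκ (F := near X P D T N) (j0 := 0) (j1 := J) hω hω0 hφ hdW
    (fun j _ => near_succ j) (fun j _ hj => hW j hj.le) (fun j _ hj => hw j hj.le)
    (fun j _ hj => (hT j hj).mono hX le_rfl (by nlinarith)) (fun j _ hj => hθ j hj) h0 J (by omega)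
  rw [zero_add] at this
  refine this.mono hX ?_ (le_of_eq (by ring))
  have h6 := one_add_pow_le_three (n := 2 * J) hω0 (by push_cast; linarith)
  have := hH0.1
  refine (mul_le_mul_of_nonneg_right h6 (by positivity)).trans (le_of_eq (by ring))

lemma far_str (hX : Prob X) (hκ : 0 ≤ κ) {w θ : ℕ → ℝ} {j0 J : ℕ} {ω φ dW d : ℝ}
    (hω : ω ≤ 1) (hω0 : 0 ≤ ω) (hφ : 0 ≤ φ) (hJ : 2 * J * ω ≤ 1) (hdW : 0 ≤ dW) (hd : 0 ≤ d)
    (hj : j0 ≤ J)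
    (hW : ∀ j ≤ J, DP X (P ^ 2 ^ j - X ^ (N * 2 ^ j)) (N * 2 ^ j) (w j) dW)
    (hw : ∀ j ≤ J, w j ≤ ω)
    (hT : ∀ j, j0 ≤ j → j < J → Str X c lim κ (X ^ (N * 2 ^ j) * T * X ^ (N * 2 ^ j))
      (N * 2 ^ j + N + N * 2 ^ j) (θ j) d)
    (hθ : ∀ j, j0 ≤ j → j < J → θ j * w j ≤ φ) :
    Str X c lim κ (far X P D T N j0 J) (N * 2 ^ J + N + N * 2 ^ J)
      (9 * J * φ) (d + κ * (2 * J * dW)) := by
  obtain ⟨i, rfl⟩ := Nat.exists_eq_add_of_le hj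
  have := shell_rec hX hκ (F := far X P D T N j0) (j0 := j0) (j1 := j0 + i) (ν := 0) hω hω0 hφ hdW
    (fun j hj => far_succ hj) (fun j _ hj => hW j hj.le) (fun j _ hj => hw j hj.le) hT hθ
    ((Str.zero hκ hd).of hX (by simp [far]) rfl le_rfl le_rfl) i le_rfl
  have hi : (i : ℝ) ≤ (j0 + i : ℕ) := by exact_mod_cast Nat.le_add_left i j0
  refine this.mono hX ?_ ?_
  · have h6 := one_add_pow_le_three (n := 2 * i) hω0 (by push_cast at hJ hi ⊢; nlinarith)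
    refine (mul_le_mul_of_nonneg_right h6 (by positivity)).trans ?_
    nlinarith
  · nlinarith [mul_le_mul_of_nonneg_right hi (mul_nonneg hκ hdW)]

lemma assemble (hX : Prob X) (hκ : 1 ≤ κ) {j0 J ρ : ℕ} {wc νI νL νF νT dW d : ℝ}
    (hρ : 2 ^ j0 + ρ ≤ 2 ^ J)
    (hW : DP X (P ^ (2 ^ J - 2 ^ j0 - ρ)) (N * (2 ^ J - 2 ^ j0 - ρ)) 2 dW)
    (hWc : DP X (P ^ ρ - X ^ (N * ρ)) (N * ρ) wc dW) (hwc : wc ≤ 1)
    (hI : Str X c lim κ (X ^ (N * ρ) * near X P D T N j0 * X ^ (N * ρ))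
      (N * ρ + (N * 2 ^ j0 + N + N * 2 ^ j0) + N * ρ) νI d)
    (hL : DP X (near X P D T N j0) (N * 2 ^ j0 + N + N * 2 ^ j0) νL d)
    (hF : Str X c lim κ (far X P D T N j0 J) (N * 2 ^ J + N + N * 2 ^ J) νF d)
    (hT : Str X c lim κ (X ^ (N * 2 ^ J) * T * X ^ (N * 2 ^ J)) (N * 2 ^ J + N + N * 2 ^ J) νT d) :
    Str X c lim κ (P ^ 2 ^ J * D * P ^ 2 ^ J) (N * 2 ^ J + N + N * 2 ^ J)
      (4 * (νI + 3 * wc * νL) + νF + νT) (d + κ * (4 * dW)) := by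
  have hκ0 : 0 ≤ κ := by linarith
  have hdW := hW.d_nonneg
  have hκd := mul_nonneg hκ0 hdW
  have h5 : DP X (P ^ ρ) (N * ρ) 2 dW :=
    DP.mono (Dom.fwd hWc (hX.pow _).1) hX (by linarith) le_rfl
  have hL' : Str X c lim κ _ _ _ _ := Str.of_dp hL hX hκ
  have k1 := hI.mono hX le_rfl (show d ≤ d + κ * (dW + dW) by nlinarith)
  have k2 := hL'.both hWc h5 hX hκ0
  have k3 := (hL'.both (DP.pw hX (N * ρ)) hWc hX hκ0).mono hX le_rfl
    (show _ ≤ d + κ * (dW + dW) by nlinarith)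
  have k4 := ((k1.add (k2.add k3 hX) hX).both hW hW hX hκ0).of hX rfl
    (show N * 2 ^ J + N + N * 2 ^ J = _ by
      obtain ⟨k, hk⟩ := Nat.exists_eq_add_of_le hρ
      rw [show 2 ^ J - 2 ^ j0 - ρ = k by omega, hk]; ring) le_rfl
    (le_of_eq (show _ = d + κ * (4 * dW) by ring))
  have k5 := hF.mono hX le_rfl (show d ≤ d + κ * (4 * dW) by nlinarith)
  have k6 := hT.mono hX le_rfl (show d ≤ d + κ * (4 * dW) by nlinarith)
  refine ((k4.add k5 hX).add k6 hX).of hX ?_ rfl (le_of_eq (by ring)) le_rfl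
  have e1 : P ^ (2 ^ J - 2 ^ j0) = P ^ (2 ^ J - 2 ^ j0 - ρ) * P ^ ρ := by
    rw [← pow_add]; congr 1; omega
  have e2 : P ^ (2 ^ J - 2 ^ j0) = P ^ ρ * P ^ (2 ^ J - 2 ^ j0 - ρ) := by
    rw [← pow_add]; congr 1; omega
  unfold far
  conv_rhs => arg 1; arg 2; arg 2; arg 1; rw [e1]
  conv_rhs => arg 1; arg 2; arg 2; arg 2; rw [e2]
  conv_rhs => arg 1; arg 2; arg 1; unfold near
  noncomm_ring

/-- Changing the reference from the old to the new background. -/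
lemma DP.conv (hX : Prob X) {Z : Alg M} {ρ : ℕ} {h d ω dW : ℝ} (H : DP X Z (N * ρ) h d)
    (hW : DP X (P ^ ρ - X ^ (N * ρ)) (N * ρ) ω dW) (hω : ω ≤ 1 / 2) :
    DP P Z ρ (h * 2) (d + dW) :=
  Dom.trans H (Dom.rev hW (hX.pow _).1 hω) (by norm_num)

lemma DP.conv' (hX : Prob X) {Z : Alg M} {ρ : ℕ} {h d ω dW : ℝ} (H : DP P Z ρ h d)
    (hW : DP X (P ^ ρ - X ^ (N * ρ)) (N * ρ) ω dW) (hω : ω ≤ 1 / 2) :
    DP X Z (N * ρ) (h * 2) (d + dW) :=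
  Dom.trans H (DP.mono (Dom.fwd hW (hX.pow _).1) hX (by linarith) le_rfl) (by norm_num)

lemma slip_new (hX : Prob X) (hP : Prob P) {a c' : ℕ} {ω dW τ ds : ℝ}
    (hW : DP X (P ^ a - X ^ (N * a)) (N * a) ω dW)
    (hW' : DP X (P ^ (a + 1) - X ^ (N * (a + 1))) (N * (a + 1)) ω dW) (hω : ω ≤ 1 / 2)
    (S : Slip X c' τ ds) (hc : c' ≤ N * a) (hτ : N * τ ≤ 1) :
    Slip P a 13 (2 * dW + N * ds) := by
  have h1 := DP.conv' hX (DP.pw hP a) hW hω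
  have h2 := ((S.mono hX hc le_rfl le_rfl).up hX N).mono hX
    (one_add_pow_le_three S.h_nonneg hτ) le_rfl
  have h3 : DP X (P ^ a) (N * (a + 1)) (1 * 2 * 3) (0 + dW + N * ds) :=
    DP.of (Dom.trans h1 h2 (by norm_num)) hX rfl (by ring) le_rfl le_rfl
  have h4 := DP.conv hX h3 hW' hω
  have h5 := ((DP.pw hP (a + 1)).mono hP le_rfl h4.d_nonneg).sub h4
  exact h5.of hP rfl rfl (by norm_num) (le_of_eq (by ring))

lemma str_new (hX : Prob X) (hP : Prob P) (hκ : 1 ≤ κ) {Z : Alg M} {m c' lim' : ℕ}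
    {ω dW eS eP d : ℝ}
    (hW : ∀ ρ ≤ c' + lim' + c', DP X (P ^ ρ - X ^ (N * ρ)) (N * ρ) ω dW) (hω : ω ≤ 1 / 2)
    (hS : Str X c (N * lim') κ Z (N * m) eS d) (hc : c ≤ N * c') (hL : DP X Z (N * m) eP d) :
    Str P c' lim' κ Z m (8 * eS + 24 * ω * eP) (d + κ * (5 * dW)) := by
  have h0 := hW 0 (Nat.zero_le _)
  have hdW := h0.d_nonneg
  have hω0 := h0.h_nonneg
  have heP := hL.h_nonneg
  have heS := hS.1
  have hd := hL.d_nonneg
  have hκ0 : 0 ≤ κ := by linarith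
  refine ⟨by positivity, by positivity, fun a b A B α β dA dB hl hA hB => ?_⟩
  have hA' := DP.conv' hX hA (hW a (by omega)) hω
  have hB' := DP.conv' hX hB (hW b (by omega)) hω
  have hα := hA.h_nonneg
  have hβ := hB.h_nonneg
  have hdA := hA.d_nonneg
  have hdB := hB.d_nonneg
  have hm : N * (c' + (a + m + b) + c') = N * c' + (N * a + N * m + N * b) + N * c' := by ring
  have k1 := ((hS.mono_c hX hc le_rfl le_rfl).2.2 _ _ _ _ _ _ _ _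
    (by rw [← mul_add, ← mul_add]; exact Nat.mul_le_mul_left _ hl) hA' hB').of hX rfl hm le_rfl
    (show _ ≤ d + κ * (4 * dW) + κ * (dA + dB) by nlinarith)
  have hC := hW c' (by omega)
  have hC' : DP X (P ^ c') (N * c') 2 dW :=
    DP.mono (Dom.fwd hC (hX.pow _).1) hX (by linarith) le_rfl
  have k0 := (hA'.mul hL hX).mul hB' hX
  have k2 := ((hC.mul k0 hX).mul hC' hX).of hX rfl hm le_rfl
    (show _ ≤ d + κ * (4 * dW) + κ * (dA + dB) by nlinarith)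
  have k3 := (((DP.pw hX (N * c')).mul k0 hX).mul hC hX).of hX rfl hm le_rfl
    (show _ ≤ d + κ * (4 * dW) + κ * (dA + dB) by nlinarith)
  refine (DP.conv hX (k1.add (k2.add k3)) (hW _ (by omega)) hω).of hP (by noncomm_ring) rfl
    (le_of_eq (by ring)) (by nlinarith)

end Vale.Agent.P321
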