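import Vale.Agent.P321.Avg

/-! Domination by powers of a fixed probability measure, slips and shifts. -/

namespace Vale.Agent.P321

open MonoidAlgebra Real

variable {M : Type} [Monoid M]

def DP (X Z : Alg M) (m : ℕ) (h d : ℝ) : Prop := Dom Z (X ^ m) h d

variable {X : Alg M}

lemma DP.h_nonneg {Z : Alg M} {m : ℕ} {h d : ℝ} (H : DP X Z m h d) : 0 ≤ h := Dom.h_nonneg H
lemma DP.d_nonneg {Z : Alg M} {m : ℕ} {h d : ℝ} (H : DP X Z m h d) : 0 ≤ d := Dom.d_nonneg H

lemma DP.of {Z Z' : Alg M} {m m' : ℕ} {h d h' d' : ℝ} (H : DP X Z m h d) (hX : Prob X)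
    (eZ : Z' = Z) (em : m' = m) (hh : h ≤ h') (hd : d ≤ d') : DP X Z' m' h' d' := by
  subst eZ em
  exact Dom.mono H (hX.pow _).1 hh hd

lemma DP.mono {Z : Alg M} {m : ℕ} {h d h' d' : ℝ} (H : DP X Z m h d) (hX : Prob X)
    (hh : h ≤ h') (hd : d ≤ d') : DP X Z m h' d' := H.of hX rfl rfl hh hd

lemma DP.mul {Z W : Alg M} {a b : ℕ} {h d h' d' : ℝ} (H : DP X Z a h d) (H' : DP X W b h' d')
    (hX : Prob X) : DP X (Z * W) (a + b) (h * h') (d + d') := by
  unfold DP
  rw [pow_add]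
  exact Dom.mul H H' (hX.pow a) (hX.pow b)

lemma DP.pw (hX : Prob X) (a : ℕ) : DP X (X ^ a) a 1 0 := Dom.refl (hX.pow a).1

lemma DP.one (hX : Prob X) : DP X 1 0 1 0 := by simpa using DP.pw hX 0

lemma DP.ctx {Z : Alg M} {m : ℕ} {h d : ℝ} (H : DP X Z m h d) (hX : Prob X) (a b : ℕ) :
    DP X (X ^ a * Z * X ^ b) (a + m + b) h d := by
  simpa using ((DP.pw hX a).mul H hX).mul (DP.pw hX b) hX

lemma DP.add {Z W : Alg M} {m : ℕ} {h d h' : ℝ} (H : DP X Z m h d) (H' : DP X W m h' d) :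
    DP X (Z + W) m (h + h') d := Dom.add H H'

lemma DP.sub {Z W : Alg M} {m : ℕ} {h d h' : ℝ} (H : DP X Z m h d) (H' : DP X W m h' d) :
    DP X (Z - W) m (h + h') d := Dom.sub H H'

lemma DP.neg {Z : Alg M} {m : ℕ} {h d : ℝ} (H : DP X Z m h d) : DP X (-Z) m h d := Dom.neg H

lemma DP.unsmul {Z : Alg M} {m : ℕ} {h d c : ℝ} (hc : 0 < c) (H : DP X (c • Z) m h d) :
    DP X Z m (h / c) d := by
  have := Dom.smul H c⁻¹
  rwa [smul_smul, inv_mul_cancel₀ hc.ne', one_smul, abs_of_pos (inv_pos.2 hc), mul_comm,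
    ← div_eq_mul_inv] at this

def Slip (X : Alg M) (c : ℕ) (τ d : ℝ) : Prop := DP X (X ^ (c + 1) - X ^ c) (c + 1) τ d

lemma Slip.mono {c c' : ℕ} {τ d τ' d' : ℝ} (H : Slip X c τ d) (hX : Prob X) (hc : c ≤ c')
    (hτ : τ ≤ τ') (hd : d ≤ d') : Slip X c' τ' d' := by
  obtain ⟨k, rfl⟩ := Nat.exists_eq_add_of_le hc
  refine (DP.ctx H hX 0 k).of hX ?_ (by omega) hτ hd
  rw [pow_zero, one_mul, sub_mul, ← pow_add, ← pow_add, show c + 1 + k = c + k + 1 by omega]

lemma Slip.amp {a : ℕ} {c d lam : ℝ} (H : Slip X a c d) (hX : Prob X) (hlam : 1 ≤ lam) {r : ℕ}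
    (hr : 1 ≤ r) : Slip X ((a + 1) * r ^ 2) (2 * c * lam / r) ((r : ℝ) ^ 2 * d + dst lam) := by
  have hr' : (1 : ℝ) ≤ r := by exact_mod_cast hr
  have h1 := avg (m := r ^ 2) (r := (r : ℝ)) hlam hr' (by push_cast; rfl) (hX.pow (a + 1)) H
    (by rw [mass_sub, (hX.pow _).2, (hX.pow _).2, sub_self])
  obtain ⟨n, hn⟩ : ∃ n, r ^ 2 = n + 1 := ⟨r ^ 2 - 1, by have := Nat.one_le_pow 2 r hr; omega⟩
  have e : ∑ k ∈ Finset.range (r ^ 2), (X ^ (a + 1)) ^ k * (X ^ (a + 1) - X ^ a) *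
      (X ^ (a + 1)) ^ (r ^ 2 - 1 - k) =
      ((r : ℝ) ^ 2) • (X ^ ((a + 1) * n + a + 1) - X ^ ((a + 1) * n + a)) := by
    rw [Finset.sum_congr rfl (g := fun _ => X ^ ((a + 1) * n + a + 1) - X ^ ((a + 1) * n + a))]
    · rw [Finset.sum_const, Finset.card_range, ← Nat.cast_smul_eq_nsmul ℝ]; push_cast; rfl
    · intro k hk
      rw [Finset.mem_range, hn] at hk
      obtain ⟨j, rfl⟩ : ∃ j, n = k + j := ⟨n - k, by omega⟩
      rw [hn, show k + j + 1 - 1 - k = j by omega, mul_sub, sub_mul]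
      simp only [← pow_mul, ← pow_add]
      congr 2 <;> ring
  rw [e, ← pow_mul] at h1
  have h2 : Slip X ((a + 1) * n + a) (2 * c * lam * r / r ^ 2) ((r : ℝ) ^ 2 * d + dst lam) := by
    refine (DP.unsmul (by positivity) h1).of hX rfl (by rw [hn]; ring) le_rfl ?_
    push_cast; rfl
  refine h2.mono hX (by rw [hn]; nlinarith) (le_of_eq ?_) le_rfl
  field_simp

lemma DP.comm1 {Z : Alg M} {m c : ℕ} {h d τ ds : ℝ} (H : DP X Z m h d) (hX : Prob X)
    (S : Slip X c τ ds) :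
    DP X (X ^ (c + 1) * Z * X ^ c - X ^ c * Z * X ^ (c + 1)) (c + m + c + 1) (2 * τ * h) (d + ds) := by
  have h1 := ((DP.mul S H hX).mul (DP.pw hX c) hX).of hX rfl (show c + m + c + 1 = _ by omega)
    (le_of_eq (show _ = τ * h by ring)) (le_of_eq (show _ = d + ds by ring))
  have h2 := (((DP.pw hX c).mul H hX).mul S hX).of hX rfl (show c + m + c + 1 = _ by omega)
    (le_of_eq (show _ = τ * h by ring)) (le_of_eq (show _ = d + ds by ring))
  exact (h1.sub h2).of hX (by noncomm_ring) rfl (le_of_eq (by ring)) le_rfl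

lemma DP.commn {Z : Alg M} {m c : ℕ} {h d τ ds : ℝ} (H : DP X Z m h d) (hX : Prob X)
    (S : Slip X c τ ds) : ∀ n : ℕ,
    DP X (X ^ (c + n) * Z * X ^ c - X ^ c * Z * X ^ (c + n)) (c + m + c + n) (2 * n * τ * h) (d + ds)
  | 0 => by
    simpa using (show DP X 0 (c + m + c) 0 (d + ds) from
      Dom.zero (add_nonneg H.d_nonneg S.d_nonneg))
  | n + 1 => by
    have h1 := ((H.comm1 hX S).ctx hX n 0).of hX rfl (show c + m + c + (n + 1) = _ by omega)
      le_rfl le_rfl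
    have h2 := ((H.commn hX S n).ctx hX 0 1).of hX rfl (show c + m + c + (n + 1) = _ by omega)
      le_rfl le_rfl
    refine (h1.add h2).of hX ?_ rfl (le_of_eq (by push_cast; ring)) le_rfl
    have e1 : X ^ (c + (n + 1)) = X ^ n * X ^ (c + 1) := by rw [← pow_add]; congr 1; omega
    have e2 : X ^ (c + (n + 1)) = X ^ (c + n) * X := by rw [← pow_succ]; congr 1
    have e3 : X ^ (c + n) = X ^ n * X ^ c := by rw [← pow_add]; congr 1; omega
    have e4 : X ^ (c + 1) = X ^ c * X := pow_succ _ _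
    conv_lhs => arg 1; rw [e1]
    conv_lhs => arg 2; rw [e2]
    conv_rhs => arg 2; arg 1; arg 2; arg 1; rw [e3]
    conv_rhs => arg 1; arg 1; arg 2; arg 2; rw [e4]
    simp only [pow_zero, pow_one]
    noncomm_ring

lemma Slip.up {c : ℕ} {τ ds : ℝ} (S : Slip X c τ ds) (hX : Prob X) :
    ∀ n : ℕ, DP X (X ^ c) (c + n) ((1 + τ) ^ n) (n * ds)
  | 0 => by simpa using DP.pw hX c
  | n + 1 => by
    have h1 : DP X (X ^ (c + n)) (c + n + 1) (1 + τ) ds := by
      have := ((DP.pw hX (c + n + 1)).mono hX le_rfl S.d_nonneg).sub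
        (S.mono hX (Nat.le_add_right c n) le_rfl le_rfl)
      simpa using this
    have := Dom.trans (S.up hX n) h1 (by linarith [S.h_nonneg])
    exact DP.of this hX rfl rfl (le_of_eq (pow_succ _ _).symm) (le_of_eq (by push_cast; ring))

/-- Shift averaging, iterated. -/
lemma shift_avg {Z : Alg M} {m σ U c1 : ℕ} {z0 z1 d τ ds ν : ℝ} (hX : Prob X) (hU : 1 ≤ U)
    (H0 : DP X Z m z0 d)
    (H1 : DP X (∑ k ∈ Finset.range U, X ^ (k * σ) * Z * X ^ ((U - 1 - k) * σ)) (m + (U - 1) * σ)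
      (U * z1) d)
    (S : Slip X c1 τ ds) (hν : 2 * (U * σ) * τ ≤ ν) (hν2 : ν ≤ 1 / 2) : ∀ J : ℕ,
    DP X (X ^ (J * (c1 + U * σ)) * Z * X ^ (J * (c1 + U * σ)))
      (J * (c1 + U * σ) + m + J * (c1 + U * σ)) (2 * z1 + ν ^ J * z0) (d + J * ds) := by
  have hU' : (0 : ℝ) < U := by exact_mod_cast hU
  have hz1 : 0 ≤ z1 := by have := H1.h_nonneg; by_contra h; nlinarith
  have hτ := S.h_nonneg
  have hν0 : 0 ≤ ν := le_trans (by positivity) hν
  have hz0 := H0.h_nonneg
  have hds := S.d_nonneg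
  intro J
  induction J with
  | zero => simpa using H0.mono hX (by linarith) le_rfl
  | succ J ih =>
    set c := c1 + U * σ with hc
    set W := X ^ (J * c) * Z * X ^ (J * c) with hW
    set b := 2 * z1 + ν ^ J * z0 with hb
    have hb0 : 0 ≤ b := by positivity
    have h1 : ∀ k < U, DP X (X ^ (c + k * σ) * W * X ^ (c - k * σ) - X ^ c * W * X ^ c)
        ((J + 1) * c + m + (J + 1) * c) (ν * b) (d + (J + 1 : ℕ) * ds) := by
      intro k hk
      obtain ⟨j, hj⟩ : ∃ j, U = k + j := ⟨U - k, by omega⟩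
      refine ((ih.commn hX S (k * σ)).ctx hX (U * σ) (j * σ)).of hX ?_ (by rw [hc, hj]; ring) ?_
        (le_of_eq (by push_cast; ring))
      · have e0 : c - k * σ = c1 + j * σ := by rw [hc, hj, add_mul]; omega
        have e1 : X ^ (c + k * σ) = X ^ (U * σ) * X ^ (c1 + k * σ) := by
          rw [← pow_add]; congr 1; omega
        have e2 : X ^ c = X ^ (U * σ) * X ^ c1 := by rw [← pow_add]; congr 1; omega
        have e3 : X ^ c = X ^ (c1 + k * σ) * X ^ (j * σ) := by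
          rw [← pow_add, hc, hj]; congr 1; ring
        rw [e0, e1, pow_add X c1 (j * σ)]
        conv_lhs => arg 2; arg 1; rw [e2]
        conv_lhs => arg 2; arg 2; rw [e3]
        noncomm_ring
      · refine mul_le_mul_of_nonneg_right (le_trans ?_ hν) hb0
        refine mul_le_mul_of_nonneg_right ?_ hτ
        have : (k : ℝ) ≤ U := by exact_mod_cast hk.le
        push_cast
        nlinarith [Nat.cast_nonneg (α := ℝ) σ]
    have h2 := Dom.sum_range (by have := H0.d_nonneg; positivity) _ U h1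
    have h3 := (H1.ctx hX (c + J * c) (J * c + c1 + σ)).of hX rfl
      (show (J + 1) * c + m + (J + 1) * c = _ by
        obtain ⟨u, rfl⟩ : ∃ u, U = u + 1 := ⟨U - 1, by omega⟩
        simp only [hc, Nat.add_sub_cancel]; ring) le_rfl
      (show d ≤ d + (J + 1 : ℕ) * ds by have : 0 ≤ ((J + 1 : ℕ) : ℝ) * ds := by positivity
                                        linarith)
    have h4 := h3.sub h2
    have e : X ^ (c + J * c) * (∑ k ∈ Finset.range U, X ^ (k * σ) * Z * X ^ ((U - 1 - k) * σ)) *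
        X ^ (J * c + c1 + σ) - ∑ k ∈ Finset.range U,
          (X ^ (c + k * σ) * W * X ^ (c - k * σ) - X ^ c * W * X ^ c) =
        (U : ℝ) • (X ^ ((J + 1) * c) * Z * X ^ ((J + 1) * c)) := by
      rw [Finset.mul_sum, Finset.sum_mul, ← Finset.sum_sub_distrib,
        Finset.sum_congr rfl (g := fun _ => X ^ ((J + 1) * c) * Z * X ^ ((J + 1) * c))]
      · rw [Finset.sum_const, Finset.card_range, ← Nat.cast_smul_eq_nsmul ℝ]
      · intro k hk
        rw [Finset.mem_range] at hk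
        obtain ⟨j, hj⟩ : ∃ j, U = k + j + 1 := ⟨U - k - 1, by omega⟩
        have e0 : c - k * σ = c1 + (j + 1) * σ := by
          rw [hc, hj, add_assoc k, add_mul k]; omega
        rw [e0, show U - 1 - k = j by omega, hW]
        simp only [← mul_assoc, ← pow_add]
        simp only [mul_assoc, ← pow_add]
        rw [show c + J * c + k * σ = c + k * σ + J * c by ring,
          show j * σ + (J * c + c1 + σ) = J * c + (c1 + (j + 1) * σ) by ring,
          show (J + 1) * c = c + J * c by ring, add_comm (J * c) c]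
        abel
    rw [e] at h4
    refine (DP.unsmul hU' h4).of hX rfl rfl ?_ le_rfl
    rw [div_le_iff₀ hU', pow_succ]
    have : ν * (2 * z1) ≤ z1 := by nlinarith
    nlinarith

end Vale.Agent.P321
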