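import Vale.Agent.P321.Crit
import Vale.Agent.P321.Overlap
import Vale.Agent.P321.Base

/-! The first level of the construction. -/

namespace Vale.Agent.P321

open Real

variable {M : Type} [Monoid M]

lemma overlap_blocks {θ s h w A0 : ℝ} {u z x : Alg M} (h0 : 0 < θ) (h1 : θ < 1) (hu : Prob u)
    (hs : 0 ≤ s) (hz2 : L2 z u s) (hz : mass z = 0) (hk : NN ((1 - θ) • u + z))
    (hA0 : 0 ≤ A0) (hA : 40 * s / ((1 - θ) * θ) ≤ A0 ^ 2) (hx : x = θ • 1 + (1 - θ) • u)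
    (hX : Prob x) (hY : Prob (x + z)) (hh : AbsLe (x - 1) (h • x)) (hw0 : 0 < w) (hw1 : w ≤ 1)
    (hsw : s * (20 / ((1 - θ) * θ) * w ^ 6) ≤ 1 / 2)
    (hC : 11 * (6 * A0 / ((1 - θ) * θ) + 1) * w ^ 2 ≤ 1 / 8) {u0 r g : ℕ}
    (hg : g + 1 = u0 * (r + 1)) (hr : 1 ≤ r) (hu0 : 2 ≤ w ^ 12 * u0) :
    ∃ G, NN G ∧ (∀ t, G.coeff t ≤ ((PQ x (x + z) g 0).1 ^ (2 * r + 1)).coeff t) ∧
      (∀ t, G.coeff t ≤ ((PQ x (x + z) g 0).1 ^ (2 * r + 1 + 1)).coeff t) ∧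
      1 / (32 * exp (2 * h ^ 2 * u0)) ≤ mass G := by
  have e1 : (PQ x (x + z) g 0).1 = x ^ (g + 1) * (x + z) * x ^ g := by
    simp only [PQ, pow_succ, mul_assoc]
  have hP := (PQ_prob (g := g) hX hY 0).1
  have hr' : (0 : ℝ) ≤ r := r.cast_nonneg
  have hw12 : 0 ≤ w ^ 12 * (u0 : ℝ) := by positivity
  have k1 := nrm_crit h0 h1 hu hs hz2 hz hk (p := g + 1) (p' := g) (by omega) (by omega) hA0 hA hx
    (2 * r + 1) w hw0 hw1 (by
      rw [show g + 1 + g + 1 = 2 * (g + 1) by ring, hg]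
      push_cast
      nlinarith) hsw
  have hu1 : u0 ≤ u0 * r := Nat.le_mul_of_pos_right _ hr
  have hg' : g + 1 = u0 * r + u0 := by rw [hg]; ring
  have k2 := nrm_crit h0 h1 hu hs hz2 hz hk (p := u0 * r) (p' := g) (by omega) (by omega) hA0 hA hx
    (2 * r + 1 + 1) w hw0 hw1 (by
      rw [show u0 * r + g + 1 = u0 * r + (g + 1) by ring, hg]
      push_cast
      nlinarith) hsw
  have e2 : (u0 * r + g + 1) * (2 * r + 1 + 1) = (g + 1 + g + 1) * (2 * r + 1) := by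
    rw [show u0 * r + g + 1 = u0 * r + (g + 1) by ring, show g + 1 + g + 1 = 2 * (g + 1) by ring, hg]
    ring
  rw [e2] at k2
  have hv : 0 ≤ 1 + h ^ 2 / (r + 1) := by positivity
  have k3 := ((((L2.drop hX hh r).pow (hX.pow _) hv u0).mul (L2.refl hY) ((hX.pow _).pow _).1
    (by positivity)).mul (L2.refl (hX.pow g)) (((hX.pow _).pow _).mul hY).1 (by positivity)).pow
    ((((hX.pow _).pow _).mul hY).mul (hX.pow g)) (by positivity) (2 * r + 1 + 1)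
  rw [← pow_mul, ← pow_mul, mul_comm r u0, mul_comm (r + 1) u0, ← hg, ← e1, mul_one, mul_one,
    ← pow_mul] at k3
  refine overlap_of_L2 (k3.mono (hP.pow _).1 ?_) (one_le_exp (by positivity)) (hP.pow _).1
    (hP.pow _) ?_
  · calc _ ≤ exp (h ^ 2 / (r + 1)) ^ (u0 * (2 * r + 1 + 1)) :=
          pow_le_pow_left₀ hv (by linarith [add_one_le_exp (h ^ 2 / (r + 1))]) _
      _ = _ := by
          rw [← exp_nat_mul]; congr 1; push_cast; field_simp; ring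
  · rw [e1, ← sub_sub_sub_cancel_right _ _ (x ^ ((g + 1 + g + 1) * (2 * r + 1)))]
    exact (nrm_sub_le _ _).trans (by linarith)

lemma Lev.start {q : ℝ} {X Y : Alg M} (hq0 : 0 < q) (hq1 : q < 1) (hX : Prob X) (hY : Prob Y)
    (hXY : ∀ t, q * Y.coeff t ≤ X.coeff t) (hY1 : ∀ t, q * (1 : Alg M).coeff t ≤ Y.coeff t) :
    ∃ cA D : ℝ, 13 ≤ cA ∧ 2 * cA ≤ D ∧ ∀ (l : ℕ) (lam : ℝ) (v β z g : ℕ), D ≤ lam →
      lam * lam ≤ 2 ^ l → β + 12 = 1200 * v → z + 1 = 30 * v → 50 ≤ v →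
      42 + 18 * (l * (18 * z)) ≤ 2 ^ l → nn g 0 = (2 ^ l) ^ (40 * z) →
      Lev l lam cA (PQ X Y g 0).1 (PQ X Y g 0).2 v β 56 := by
  have ho : ∀ t, 0 ≤ (1 : Alg M).coeff t := NN.one
  have hX1 : ∀ t, q ^ 2 * (1 : Alg M).coeff t ≤ X.coeff t := fun t => by
    have := mul_le_mul_of_nonneg_left (hY1 t) hq0.le
    have := hXY t
    nlinarith
  obtain ⟨θ, hθ⟩ : ∃ θ : ℝ, θ = q ^ 2 / 2 := ⟨_, rfl⟩
  have h0 : 0 < θ := by rw [hθ]; positivity
  have hθq : θ ≤ q := by rw [hθ]; nlinarith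
  have h1 : θ < 1 := by linarith
  have hc : 0 < (1 - θ) * θ := mul_pos (by linarith) h0
  obtain ⟨u, hu'⟩ : ∃ u : Alg M, u = (1 - θ)⁻¹ • (X - θ • 1) := ⟨_, rfl⟩
  have hu1 : (1 - θ) • u = X - θ • 1 := by
    rw [hu', smul_smul, mul_inv_cancel₀ (by linarith), one_smul]
  have hx : X = θ • 1 + (1 - θ) • u := by rw [hu1]; abel
  have hu2 : ∀ t, (1 - θ) * u.coeff t = X.coeff t - θ * (1 : Alg M).coeff t := fun t => by
    have := congrArg (fun Z : Alg M => Z.coeff t) hu1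
    simpa using this
  have hu3 : ∀ t, 0 ≤ u.coeff t := fun t => by
    have := hu2 t; have := hX1 t; have := ho t
    refine nonneg_of_mul_nonneg_right (a := 1 - θ) ?_ (by linarith)
    nlinarith
  have hu : Prob u := ⟨hu3, by
    rw [hu', mass_smul, mass_sub, mass_smul, mass_one, hX.2, mul_one,
      inv_mul_cancel₀ (by linarith)]⟩
  have hYX : ∀ t, Y.coeff t ≤ q⁻¹ * X.coeff t := fun t => by
    rw [le_inv_mul_iff₀ hq0]; exact hXY t
  have hqi : 0 < q⁻¹ := inv_pos.2 hq0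
  have a1 : AbsLe (Y - X) ((1 + q⁻¹) • X) := fun t => by
    have := hYX t; have := hX.1 t; have := hY.1 t
    have := mul_nonneg hqi.le (hX.1 t)
    simp only [MonoidAlgebra.coeff_sub, MonoidAlgebra.coeff_smul, Finsupp.sub_apply,
      Finsupp.smul_apply, smul_eq_mul]
    rw [abs_le]; constructor <;> linarith
  have a2 : AbsLe (Y - X) ((2 * (1 + q⁻¹)) • u) := a1.trans_le fun t => by
    have := hu2 t; have := hX1 t; have := ho t; have := mul_nonneg h0.le (hu3 t)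
    simp only [MonoidAlgebra.coeff_smul, Finsupp.smul_apply, smul_eq_mul]
    rw [mul_comm 2, mul_assoc]
    refine mul_le_mul_of_nonneg_left ?_ (by positivity)
    rw [hθ] at *
    linarith
  have a3 : AbsLe (X - 1) ((1 + (q ^ 2)⁻¹) • X) := fun t => by
    have h2 : (1 : Alg M).coeff t ≤ (q ^ 2)⁻¹ * X.coeff t := by
      rw [le_inv_mul_iff₀ (by positivity)]; exact hX1 t
    have := hX.1 t; have := ho t
    have := mul_nonneg (inv_nonneg.2 (sq_nonneg q)) (hX.1 t)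
    simp only [MonoidAlgebra.coeff_sub, MonoidAlgebra.coeff_smul, Finsupp.sub_apply,
      Finsupp.smul_apply, smul_eq_mul]
    rw [abs_le]; constructor <;> linarith
  have hk : NN ((1 - θ) • u + (Y - X)) := fun t => by
    have := hu2 t; have := hY1 t; have := mul_le_mul_of_nonneg_right hθq (ho t)
    simp only [MonoidAlgebra.coeff_sub, MonoidAlgebra.coeff_add, MonoidAlgebra.coeff_smul,
      Finsupp.sub_apply, Finsupp.add_apply, Finsupp.smul_apply, smul_eq_mul]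
    linarith
  obtain ⟨s, hs'⟩ : ∃ s : ℝ, s = (2 * (1 + q⁻¹)) ^ 2 := ⟨_, rfl⟩
  have hs : 0 ≤ s := by rw [hs']; positivity
  obtain ⟨h, hh⟩ : ∃ h : ℝ, h = 1 + (q ^ 2)⁻¹ := ⟨_, rfl⟩
  have hh0 : 0 ≤ h := by rw [hh]; positivity
  rw [← hh] at a3
  obtain ⟨S, hS⟩ : ∃ S : ℝ, S = 40 * s / ((1 - θ) * θ) := ⟨_, rfl⟩
  have hS0 : 0 ≤ S := by rw [hS]; positivity
  obtain ⟨C, hC⟩ : ∃ C : ℝ, C = 11 * (6 * √S / ((1 - θ) * θ) + 1) := ⟨_, rfl⟩
  have hC0 : 0 ≤ C := by rw [hC]; positivity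
  obtain ⟨w, hw⟩ : ∃ w : ℝ, w = (8 * C + S + 1)⁻¹ := ⟨_, rfl⟩
  have hw0 : 0 < w := by rw [hw]; positivity
  have hw' : w * (8 * C + S + 1) = 1 := by rw [hw]; exact inv_mul_cancel₀ (by positivity)
  have hwC := mul_nonneg hw0.le hC0
  have hwS := mul_nonneg hw0.le hS0
  have hw1 : w ≤ 1 := by linarith
  obtain ⟨e, he⟩ := pow_unbounded_of_one_lt (2 / w ^ 12) (one_lt_two (α := ℝ))
  obtain ⟨K, hK⟩ : ∃ K : ℝ, K = exp (2 * h ^ 2 * (2 ^ e : ℕ)) := ⟨_, rfl⟩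
  have hK0 : 0 < K := by rw [hK]; positivity
  have he0 : (0 : ℝ) < 2 ^ e := by positivity
  refine ⟨13 + h, 2 * (13 + h) + 256 + (1 + q⁻¹) + 256 * K + 4 * 2 ^ e, by linarith,
    by linarith, fun l lam v β z g hD hl hβ hz hv hJ hg => ?_⟩
  have hlam : 1 ≤ lam := by linarith
  have hL : ∀ c : ℝ, c ≤ lam → c * lam ≤ 2 ^ l := fun c hc =>
    (mul_le_mul_of_nonneg_right hc (by linarith)).trans hl
  have hlam2 : lam ≤ 2 ^ l := by have := hL 1 hlam; linarith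
  have hl8 : 8 ≤ l := by
    have : (2 : ℝ) ^ 8 ≤ 2 ^ l := by linarith
    exact (pow_le_pow_iff_right₀ one_lt_two).1 this
  have hle : e + 2 ≤ l := by
    have : (2 : ℝ) ^ (e + 2) ≤ 2 ^ l := by rw [pow_add]; linarith
    exact (pow_le_pow_iff_right₀ one_lt_two).1 this
  refine Lev.base (h0 := 1 + q⁻¹) hX hY ?_ ?_ hβ hz hv hl8 hlam (hL _ (by linarith))
    (hL _ (by linarith)) (by linarith) hJ hg ?_
  · exact Slip.mono (c := 0) (τ := h) (d := 0) (by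
      simpa [Slip, DP] using Dom.of_absLe hh0 a3) hX le_rfl (by linarith) le_rfl
  · simpa [DP] using Dom.of_absLe (by positivity) a1
  obtain ⟨n, hn⟩ : ∃ n, l * (40 * z) = n + e + 2 :=
    ⟨l * (40 * z) - (e + 2), by
      have : l ≤ l * (40 * z) := Nat.le_mul_of_pos_right _ (by omega)
      omega⟩
  obtain ⟨r, hr⟩ : ∃ r, 2 ^ (n + 1) = r + 1 := ⟨2 ^ (n + 1) - 1, by
    have : 0 < 2 ^ (n + 1) := by positivity
    omega⟩
  have hr1 : 1 ≤ r := by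
    have : 0 < 2 ^ n := by positivity
    rw [pow_succ] at hr
    omega
  have hg1 : g + 1 = 2 ^ e * (r + 1) := by
    rw [nn, ← pow_mul, hn, show 2 ^ (n + e + 2) = 2 * (2 ^ e * 2 ^ (n + 1)) by ring, hr] at hg
    omega
  obtain ⟨G, g0, g1, g2, g3⟩ := overlap_blocks (w := w) (A0 := √S) h0 h1 hu hs
    (hs' ▸ L2.of_absLe hu a2) (by rw [mass_sub, hX.2, hY.2, sub_self]) hk (sqrt_nonneg _)
    (by rw [sq_sqrt hS0, hS]) hx hX (by rwa [add_sub_cancel]) a3 hw0 hw1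
    (by
      have : w ^ 6 ≤ w := pow_le_of_le_one hw0.le hw1 (by norm_num)
      calc _ = S / 2 * w ^ 6 := by rw [hS]; ring
        _ ≤ S / 2 * w := by gcongr
        _ ≤ _ := by linarith)
    (by
      have : w ^ 2 ≤ w := pow_le_of_le_one hw0.le hw1 (by norm_num)
      rw [← hC]
      calc _ ≤ C * w := by gcongr
        _ ≤ _ := by linarith) hg1 hr1 (by
      rw [div_lt_iff₀ (by positivity)] at he
      push_cast
      linarith)
  rw [add_sub_cancel, ← hK] at *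
  obtain ⟨l', rfl⟩ : ∃ l', l = l' + 1 := ⟨l - 1, by omega⟩
  have hP := (PQ_prob (g := g) hX hY 0).1
  have e2 : 2 * 2 ^ l' = 2 ^ (l' + 1) := by ring
  have S1 := slip_of_overlap (r := 2 ^ l') hP g0 g1 g2 (by positivity) g3 hlam (by
    rw [e2, one_div, le_inv_mul_iff₀ (by positivity)]
    have := hL (256 * K) (by linarith)
    push_cast
    linarith)
  have e3 : 2 * (2 ^ l') ^ 2 + 1 ≤ (2 * 2 ^ l') ^ 2 := by
    have : 1 ≤ (2 ^ l') ^ 2 := Nat.one_le_pow _ _ (by positivity)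
    rw [mul_pow]; omega
  rw [e2] at S1 e3
  refine S1.mono hP ?_ (by linarith) (mul_le_mul_of_nonneg_right ?_ (dst_nonneg _))
  · have k1 : 2 * r + 2 ≤ (2 ^ (l' + 1)) ^ (40 * z) := by
      rw [← hg, nn, pow_zero, one_mul]
      have : r + 1 ≤ 2 ^ e * (r + 1) := Nat.le_mul_of_pos_left _ (by positivity)
      omega
    have k2 : (2 ^ (l' + 1)) ^ (40 * z) * (2 ^ (l' + 1)) ^ 2 ≤ (2 ^ (l' + 1)) ^ β := by
      rw [← pow_add]; exact npow_le (by omega)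
    have k3 := Nat.mul_le_mul_right ((2 ^ (l' + 1)) ^ 2) k1
    rw [show (2 * r + 2) * (2 ^ (l' + 1)) ^ 2 =
      (2 * r + 1) * (2 ^ (l' + 1)) ^ 2 + (2 ^ (l' + 1)) ^ 2 by ring] at k3
    omega
  · rw [Ep_nat]
    have k1 := one_le_Ep (l' + 1) (a := (2 : ℕ)) (by norm_num)
    have k2 := Ep_mul_le (l := l' + 1) (c := 2) (by linarith) (a := (2 : ℕ)) (b := 3700 * v)
      (by omega)
    linarith

end Vale.Agent.P321
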