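import Vale.Agent.P321.Shell

/-! One step of the hierarchy, with abstract parameters. -/

namespace Vale.Agent.P321

open MonoidAlgebra Real

variable {M : Type} [Monoid M] {X Y : Alg M} {g m c lim : ℕ} {κ : ℝ}

lemma theta (hX : Prob X) (hκ : 0 ≤ κ) {K c' R : ℕ} {h d τ ds : ℝ}
    (H : Str X c lim κ (X ^ K * (Y - X) * X ^ K) (K + 1 + K) h d) (S : Slip X c' τ ds)
    (hR : K + c' ≤ R + g) :
    Str X c lim κ (X ^ R * TT X Y g 0 * X ^ R) (R + nn g 0 + R) (2 * τ * h) (d + κ * ds) := by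
  obtain ⟨k, hk⟩ := Nat.exists_eq_add_of_le hR
  refine (((H.comm1 hX hκ S).neg hX).ctx hX hκ k k).of hX ?_ (by simp [nn]; omega) le_rfl le_rfl
  simp only [TT, neg_sub, mul_sub _ (_ * _), sub_mul (_ * _)]
  simp only [← mul_assoc, ← pow_add, ← pow_succ]
  simp only [mul_assoc, ← pow_add, ← pow_succ']
  congr 3 <;> first | omega | (congr 1; omega)

/-- The data shared by the estimates of one step. -/
structure StepData (X Y : Alg M) (g m J K : ℕ) (ψ ω dW : ℝ) where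
  cg : ℕ
  τg : ℝ
  cs : ℕ → ℕ
  τ : ℕ → ℝ
  w : ℕ → ℝ
  w1 : ℝ
  hSg : Slip X cg τg dW
  hcg : K + cg ≤ g
  hS : ∀ j < J, Slip X (cs j) (τ j) dW
  hcs : ∀ j < J, 2 * cs j ≤ nn g m * 2 ^ j
  hcell : ∀ t < m, DP X ((PQ X Y g t).1 - X ^ nn g t) (nn g t) w1 dW
  hw10 : 0 ≤ w1
  hw1 : w1 ≤ 1
  hW : ∀ j ≤ J, DP X ((PQ X Y g m).1 ^ 2 ^ j - X ^ (nn g m * 2 ^ j)) (nn g m * 2 ^ j) (w j) dW
  hw : ∀ j ≤ J, w j ≤ ω
  hω : ω ≤ 1 / 2
  hJ : 2 * J * ω ≤ 1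
  hψ1 : w1 * τg ≤ ψ
  hψ0 : w 0 * τg ≤ ψ
  hψ : ∀ j < J, w j * τ j ≤ ψ

noncomputable def Gam (m J : ℕ) : ℝ := 8 ^ m * (42 + 18 * J)

variable {J K : ℕ} {ψ ω dW : ℝ}

lemma two_pow_le_eight_pow (m : ℕ) : (2 : ℝ) ^ m ≤ 8 ^ m :=
  pow_le_pow_left₀ (by norm_num) (by norm_num) m

lemma near_gen (hX : Prob X) (hκ : 1 ≤ κ) (S : StepData X Y g m J K ψ ω dW) {h : ℝ}
    (H : Str X c lim κ (X ^ K * (Y - X) * X ^ K) (K + 1 + K) h dW) {j : ℕ} (hj : j ≤ J) :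
    Str X c lim κ (near X (PQ X Y g m).1 ((PQ X Y g m).2 - (PQ X Y g m).1) (TT X Y g m) (nn g m) j)
      (nn g m * 2 ^ j + nn g m + nn g m * 2 ^ j) (Gam m J * ψ * h) (κ * ((m + 2 * J + 4) * dW)) := by
  have hκ0 : 0 ≤ κ := by linarith
  have hdW := H.2.1
  have hh := H.1
  have hτg := S.hSg.h_nonneg
  have hψ : 0 ≤ ψ := (mul_nonneg S.hw10 hτg).trans S.hψ1
  have hj' : (j : ℝ) ≤ J := by exact_mod_cast hj
  have hω0 : 0 ≤ ω := (S.hW 0 (Nat.zero_le _)).h_nonneg.trans (S.hw 0 (Nat.zero_le _))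
  have hκd := mul_nonneg hκ0 hdW
  have h0 : Str X c lim κ (TT X Y g 0) (nn g 0) (2 * S.τg * h) (dW + κ * dW) := by
    simpa using theta (R := 0) hX hκ0 H S.hSg (by simpa using S.hcg)
  have hd : dW + κ * dW ≤ dW + κ * dW + κ * (m * dW) := by
    have : 0 ≤ κ * (m * dW) := by positivity
    linarith
  have h1 := H_str hX hκ0 h0 S.hw10 S.hw1 hdW S.hcell m le_rfl
  have h2 : Str X c lim κ (TT X Y g m) (nn g m) (2 ^ m * (2 * S.τg * h))
      (dW + κ * dW + κ * (m * dW)) := by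
    simpa using (T_str (R := 0) hX hκ0 (by simpa using h0) m).mono hX le_rfl hd
  have h3 := near_str hX hκ0 (J := j) (w := S.w) (θ := fun i => 2 ^ m * (2 * S.τ i * h))
    (φ := 2 ^ m * (2 * ψ * h)) (by linarith [S.hω])
    (le_trans (by nlinarith) S.hJ) hdW (fun i hi => S.hW i (by omega))
    (fun i hi => S.hw i (by omega))
    (fun i hi => (T_str hX hκ0 (theta hX hκ0 H (S.hS i (by omega)) (by
      have := S.hcs i (by omega); have := S.hcg; omega)) m).mono hX le_rfl hd)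
    (fun i hi => by
      have := mul_le_mul_of_nonneg_left (S.hψ i (by omega)) (show 0 ≤ 2 ^ m * (2 * h) by positivity)
      nlinarith) h1 h2 (by
      have := mul_le_mul_of_nonneg_left S.hψ0 (show 0 ≤ 2 ^ m * (2 * h) by positivity)
      nlinarith)
  refine h3.mono hX ?_ ?_
  · have k1 := mul_le_mul_of_nonneg_left S.hψ1 (show 0 ≤ 8 ^ m * (2 * h) by positivity)
    have k2 := mul_le_mul (two_pow_le_eight_pow m) (show (j : ℝ) + 1 ≤ J + 1 by linarith)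
      (by positivity) (by positivity)
    have k3 := mul_le_mul_of_nonneg_right k2 (mul_nonneg hψ hh)
    unfold Gam
    nlinarith
  · nlinarith [mul_le_mul_of_nonneg_right hj' hκd]

lemma far_gen (hX : Prob X) (hκ : 1 ≤ κ) (S : StepData X Y g m J K ψ ω dW) {h d : ℝ} {K' j0 : ℕ}
    (H : Str X c lim κ (X ^ K' * (Y - X) * X ^ K') (K' + 1 + K') h d) (hj : j0 ≤ J)
    (hK' : 2 * K' ≤ nn g m * 2 ^ j0 + 2 * g) :
    Str X c lim κ
      (far X (PQ X Y g m).1 ((PQ X Y g m).2 - (PQ X Y g m).1) (TT X Y g m) (nn g m) j0 J)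
      (nn g m * 2 ^ J + nn g m + nn g m * 2 ^ J) (Gam m J * ψ * h)
      (d + κ * ((2 * J + 1) * dW)) := by
  have hκ0 : 0 ≤ κ := by linarith
  have hdW := S.hSg.d_nonneg
  have hd := H.2.1
  have hh := H.1
  have hτg := S.hSg.h_nonneg
  have hψ : 0 ≤ ψ := (mul_nonneg S.hw10 hτg).trans S.hψ1
  have hω0 : 0 ≤ ω := (S.hW 0 (Nat.zero_le _)).h_nonneg.trans (S.hw 0 (Nat.zero_le _))
  have h3 := far_str (D := (PQ X Y g m).2 - (PQ X Y g m).1) hX hκ0 (w := S.w)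
    (θ := fun i => 2 ^ m * (2 * S.τ i * h))
    (φ := 2 ^ m * (2 * ψ * h)) (by linarith [S.hω]) hω0 (by positivity) S.hJ hdW
    (show 0 ≤ d + κ * dW by positivity) hj S.hW S.hw
    (fun i hi0 hi => T_str hX hκ0 (theta hX hκ0 H (S.hS i hi) (by
      have := S.hcs i hi
      have : nn g m * 2 ^ j0 ≤ nn g m * 2 ^ i :=
        Nat.mul_le_mul_left _ (Nat.pow_le_pow_right (by norm_num) hi0)
      omega)) m)
    (fun i _ hi => by
      have := mul_le_mul_of_nonneg_left (S.hψ i hi) (show 0 ≤ 2 ^ m * (2 * h) by positivity)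
      nlinarith)
  refine h3.mono hX ?_ (le_of_eq (by ring))
  have k3 := mul_le_mul_of_nonneg_right (two_pow_le_eight_pow m)
    (show 0 ≤ (J : ℝ) * (ψ * h) by positivity)
  have : 0 ≤ (8 : ℝ) ^ m * (ψ * h) := by positivity
  unfold Gam
  nlinarith

lemma tiny_gen (hX : Prob X) {K' c' : ℕ} {h d τ τ' : ℝ}
    (H : DP X (X ^ K' * (Y - X) * X ^ K') (K' + 1 + K') h d) (S : Slip X c' τ dW)
    (hτ : 2 * nn g m * τ ≤ τ') (hK : K' + c' + m * c' ≤ nn g m * 2 ^ J) :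
    DP X (X ^ (nn g m * 2 ^ J) * TT X Y g m * X ^ (nn g m * 2 ^ J))
      (nn g m * 2 ^ J + nn g m + nn g m * 2 ^ J) (2 * τ * h * τ' ^ m) (d + (m + 1) * dW) := by
  obtain ⟨R, hR⟩ := Nat.exists_eq_add_of_le (show m * c' ≤ nn g m * 2 ^ J by omega)
  have h1 := (theta (g := g) (R := R) (lim := R + nn g 0 + R) hX zero_le_one
    (Str.of_dp (c := 0) H hX le_rfl) S (by omega)).elim0 hX le_rfl
  refine (T_tiny hX h1 S le_rfl m le_rfl).of hX (by rw [hR, add_comm]) (by omega) ?_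
    (le_of_eq (by ring))
  exact mul_le_mul_of_nonneg_left
    (pow_le_pow_left₀ (by have := S.h_nonneg; positivity) hτ m) h1.h_nonneg

lemma nn_ge (g m : ℕ) : 2 * g + 2 ≤ nn g m := by
  have := nn_mono g (Nat.zero_le m)
  rwa [show nn g 0 = 2 * g + 2 by simp [nn]] at this

/-- The strength of the new defect in a long context. -/
lemma stepL (hX : Prob X) (hY : Prob Y) (hκ : 1 ≤ κ) (S : StepData X Y g m J K ψ ω dW) {e e2 wc νT : ℝ}
    {j0 : ℕ} (hL : DP X (X ^ K * (Y - X) * X ^ K) (K + 1 + K) e dW)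
    (hG : Str X c lim κ (X ^ K * (Y - X) * X ^ K) (K + 1 + K) e2 dW) (hj0 : j0 < J)
    (hc : 2 * c ≤ nn g m * 2 ^ j0) (hlim : nn g m * 2 ^ j0 + nn g m + nn g m * 2 ^ j0 ≤ lim)
    (hW : ∀ ρ ≤ 2 ^ J + 1 + 2 ^ J, DP X ((PQ X Y g m).1 ^ ρ - X ^ (nn g m * ρ)) (nn g m * ρ) ω dW)
    (hwc : S.w j0 ≤ wc)
    (hT : DP X (X ^ (nn g m * 2 ^ J) * TT X Y g m * X ^ (nn g m * 2 ^ J))
      (nn g m * 2 ^ J + nn g m + nn g m * 2 ^ J) νT ((m + 2) * dW)) :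
    DP (PQ X Y g m).1 ((PQ X Y g m).1 ^ 2 ^ J * ((PQ X Y g m).2 - (PQ X Y g m).1) *
      (PQ X Y g m).1 ^ 2 ^ J) (2 ^ J + 1 + 2 ^ J)
      (10 * Gam m J * ψ * e2 + 24 * Gam m J * ψ * wc * e + 2 * νT)
      (κ * ((m + 2 * J + 9) * dW)) := by
  have hdW := hL.d_nonneg
  have hκd : dW ≤ κ * dW := by nlinarith
  have hJd : 0 ≤ (J : ℝ) * dW := by positivity
  have hmd : 0 ≤ (m : ℝ) * dW := by positivity
  have hκ1 : ∀ x : ℝ, 0 ≤ x → x ≤ κ * x := fun x hx => by nlinarith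
  have hNg := nn_ge g m
  have hcg := S.hcg
  have hp : 1 ≤ 2 ^ j0 := Nat.one_le_two_pow
  have hNp : nn g m ≤ nn g m * 2 ^ j0 := Nat.le_mul_of_pos_right _ hp
  have hjJ : 2 ^ j0 + 2 ^ j0 ≤ 2 ^ J := by
    have : 2 ^ (j0 + 1) ≤ 2 ^ J := Nat.pow_le_pow_right (by norm_num) hj0
    rw [pow_succ] at this; omega
  have h1 := ((near_gen hX hκ S hG hj0.le).mono_c hX (show c ≤ nn g m * 2 ^ j0 by omega) le_rfl
    le_rfl).elim hX hlim
  have h2 := (near_gen (c := 0) (lim := nn g m * 2 ^ j0 + nn g m + nn g m * 2 ^ j0) hX le_rfl S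
    (Str.of_dp hL hX le_rfl) hj0.le).elim0 hX le_rfl
  have h3 : DP X (X ^ (c + K) * (Y - X) * X ^ (c + K)) (c + K + 1 + (c + K)) e2 dW := by
    refine (hG.elim hX (by omega)).of hX ?_ (by omega) le_rfl le_rfl
    conv_lhs => arg 2; rw [add_comm]
    rw [pow_add, pow_add]; noncomm_ring
  have h4 := far_gen (c := 0) (lim := nn g m * 2 ^ J + nn g m + nn g m * 2 ^ J) hX le_rfl S
    (Str.of_dp h3 hX le_rfl) hj0.le (by omega)
  have h5 := assemble (c := 0) (lim := nn g m * 2 ^ J + nn g m + nn g m * 2 ^ J) (d := κ * ((m + 2 * J + 4) * dW))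
    hX le_rfl hjJ
    (DP.mono (Dom.fwd (hW _ (by omega)) (hX.pow _).1) hX (by linarith [S.hω]) le_rfl)
    (S.hW j0 hj0.le) (by linarith [S.hw j0 hj0.le, S.hω]) (Str.of_dp h1 hX le_rfl)
    (h2.mono hX le_rfl (by rw [one_mul]; exact hκ1 _ (by positivity)))
    (h4.mono hX le_rfl (le_trans (by nlinarith) (hκ1 _ (by positivity))))
    (Str.of_dp (hT.mono hX le_rfl (le_trans (by nlinarith) (hκ1 _ (by positivity)))) hX le_rfl)
  have h6 := (h5.elim0 hX le_rfl).of hX rfl (show nn g m * (2 ^ J + 1 + 2 ^ J) = _ by ring) le_rfl le_rfl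
  refine (DP.conv hX h6 (hW _ le_rfl) S.hω).mono (PQ_prob hX hY m).1 ?_ (by nlinarith)
  have := mul_le_mul_of_nonneg_right hwc h2.h_nonneg
  nlinarith

/-- The strength of the new defect in every surrounding, with an outer context. -/
lemma stepG (hX : Prob X) (hY : Prob Y) (S : StepData X Y g m J K ψ ω dW) {e νT lam τ1 ν : ℝ}
    {j1 r c1 c' lim' : ℕ} (hlam : 1 ≤ lam) (hr : 1 ≤ r) (hds : dst lam ≤ dW)
    (hL : DP X (X ^ K * (Y - X) * X ^ K) (K + 1 + K) e dW)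
    (hS1 : Slip X c1 τ1 dW)
    (hν : 2 * ((r ^ 2 : ℕ) * (nn g m * 2 ^ j1 + nn g m + nn g m * 2 ^ j1 : ℕ)) * τ1 ≤ ν)
    (hν2 : ν ≤ 1 / 2)
    (hj1 : 2 ^ j1 + r ^ 2 * (2 ^ j1 + 1 + 2 ^ j1) ≤ 2 ^ J)
    (hK : 2 * (r ^ 2 * (K + 1 + K)) ≤ nn g m * 2 ^ j1)
    (hc' : c1 + r ^ 2 * (nn g m * 2 ^ j1 + nn g m + nn g m * 2 ^ j1) ≤ nn g m * c')
    (hlim : 2 ^ J + 1 + 2 ^ J ≤ lim')
    (hW : ∀ ρ ≤ c' + lim' + c', DP X ((PQ X Y g m).1 ^ ρ - X ^ (nn g m * ρ)) (nn g m * ρ) ω dW)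
    (hT : DP X (X ^ (nn g m * 2 ^ J) * TT X Y g m * X ^ (nn g m * 2 ^ J))
      (nn g m * 2 ^ J + nn g m + nn g m * 2 ^ J) νT ((m + 2) * dW)) :
    Str (PQ X Y g m).1 c' lim' ((r : ℝ) ^ 2)
      ((PQ X Y g m).1 ^ 2 ^ J * ((PQ X Y g m).2 - (PQ X Y g m).1) * (PQ X Y g m).1 ^ 2 ^ J)
      (2 ^ J + 1 + 2 ^ J)
      (40 * Gam m J * ψ * e * (4 * lam / r + ν) + 120 * ω * Gam m J * ψ * e + 20 * νT)
      ((r : ℝ) ^ 2 * ((m + 2 * J + 15) * dW)) := by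
  have hdW := hL.d_nonneg
  have hr' : (1 : ℝ) ≤ r := by exact_mod_cast hr
  have hκ : (1 : ℝ) ≤ (r : ℝ) ^ 2 := by nlinarith
  have hκ0 : (0 : ℝ) ≤ (r : ℝ) ^ 2 := by positivity
  have hκd : dW ≤ (r : ℝ) ^ 2 * dW := by nlinarith
  have hJd : 0 ≤ (J : ℝ) * dW := by positivity
  have hmd : 0 ≤ (m : ℝ) * dW := by positivity
  have hJd' := mul_nonneg hκ0 hJd
  have hmd' := mul_nonneg hκ0 hmd
  have hκ1 : ∀ x : ℝ, 0 ≤ x → x ≤ (r : ℝ) ^ 2 * x := fun x hx => by nlinarith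
  have hNg := nn_ge g m
  have hcg := S.hcg
  have hp : 1 ≤ 2 ^ j1 := Nat.one_le_two_pow
  have hU : 1 ≤ r ^ 2 := Nat.one_le_pow 2 r hr
  have hNp : nn g m ≤ nn g m * 2 ^ j1 := Nat.le_mul_of_pos_right _ hp
  have hj : j1 ≤ J := by
    have : 2 ^ j1 ≤ 2 ^ J := le_trans (Nat.le_add_right _ _) hj1
    exact (Nat.pow_le_pow_iff_right (by norm_num)).1 this
  have hP := PQ_prob (g := g) hX hY m
  have hD : mass ((PQ X Y g m).2 - (PQ X Y g m).1) = 0 := by rw [mass_sub, hP.1.2, hP.2.2, sub_self]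
  set σ := nn g m * 2 ^ j1 + nn g m + nn g m * 2 ^ j1 with hσ
  have hσK : K + 1 + K ≤ σ := by omega
  have h2 : DP X _ σ _ _ := (near_gen (c := 0) (lim := σ) hX le_rfl S
    (Str.of_dp hL hX le_rfl) hj).elim0 hX le_rfl
  have h1 := iso (lim := nn g m * lim') (J := 1) hX hlam hr h2 (mass_near hD (mass_TT m) j1) hS1 hν hν2
  have h3 := (iso (lim := nn g m * lim') (J := 1) hX hlam hr hL
    (by rw [mass_mul, mass_mul, mass_sub, hX.2, hY.2]; ring) hS1 (le_trans (by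
      have : ((K + 1 + K : ℕ) : ℝ) ≤ (σ : ℕ) := by exact_mod_cast hσK
      have := hS1.h_nonneg
      gcongr) hν) hν2).mono_c hX (c' := 1 * (c1 + r ^ 2 * σ))
      (by have := Nat.mul_le_mul_left (r ^ 2) hσK; omega) le_rfl le_rfl
  have h3' : Str X (1 * (c1 + r ^ 2 * σ)) (nn g m * lim') ((r : ℝ) ^ 2)
      (X ^ (r ^ 2 * (K + 1 + K) + K) * (Y - X) * X ^ (r ^ 2 * (K + 1 + K) + K))
      (r ^ 2 * (K + 1 + K) + K + 1 + (r ^ 2 * (K + 1 + K) + K)) (e * (4 * lam / r + ν ^ 1))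
      ((r : ℝ) ^ 2 * dW + dst lam + (1 : ℕ) * dW) := by
    refine h3.of hX ?_ (by omega) le_rfl le_rfl
    conv_lhs => arg 2; rw [add_comm]
    rw [pow_add, pow_add]; noncomm_ring
  have h4 := far_gen hX hκ S h3' hj (by omega)
  have hσ' : r ^ 2 * σ = nn g m * (r ^ 2 * (2 ^ j1 + 1 + 2 ^ j1)) := by rw [hσ]; ring
  have hd1 : (m + 2) * dW ≤ (r : ℝ) ^ 2 * ((m + 2 * J + 6) * dW) :=
    le_trans (by nlinarith) (hκ1 _ (by positivity))
  have h5 := assemble (d := (r : ℝ) ^ 2 * ((m + 2 * J + 6) * dW)) hX hκ hj1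
    (DP.mono (Dom.fwd (hW _ (by omega)) (hX.pow _).1) hX (by linarith [S.hω]) le_rfl)
    (hW _ (by omega)) (by linarith [S.hω])
    (h1.of hX (by rw [hσ']) (by rw [hσ']) le_rfl (by push_cast; nlinarith))
    (h2.mono hX le_rfl (le_trans (by nlinarith) (hκ1 _ (by positivity))))
    (h4.mono hX le_rfl (by push_cast; nlinarith))
    (Str.of_dp (hT.mono hX le_rfl hd1) hX hκ)
  have h6 := (near_gen (c := 0) (lim := nn g m * 2 ^ J + nn g m + nn g m * 2 ^ J) hX le_rfl S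
    (Str.of_dp hL hX le_rfl) le_rfl).elim0 hX le_rfl
  have h7 := ((h6.mono hX le_rfl (show _ ≤ (r : ℝ) ^ 2 * ((m + 2 * J + 10) * dW) from
    le_trans (by nlinarith) (hκ1 _ (by positivity)))).add
    (hT.mono hX le_rfl (hd1.trans (by nlinarith)))).of hX
    (show (PQ X Y g m).1 ^ 2 ^ J * ((PQ X Y g m).2 - (PQ X Y g m).1) * (PQ X Y g m).1 ^ 2 ^ J = _ by
      unfold near; abel) (show nn g m * (2 ^ J + 1 + 2 ^ J) = _ by ring) le_rfl le_rfl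
  have h8 := str_new hX hP.1 hκ hW S.hω
    (h5.of hX rfl (show nn g m * (2 ^ J + 1 + 2 ^ J) = _ by ring) le_rfl (le_of_eq (by ring)))
    (by omega) h7
  refine h8.mono hP.1 ?_ (le_of_eq (by ring))
  have hνT := hT.h_nonneg
  have := mul_le_mul_of_nonneg_right S.hω hνT
  simp only [pow_one]
  nlinarith

end Vale.Agent.P321
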