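import Vale.Agent.P321.Slip

/-! Strength of a signed measure in every dominated surrounding and a fixed outer context. -/

namespace Vale.Agent.P321

open MonoidAlgebra Real

variable {M : Type} [Monoid M]

def Str (X : Alg M) (c lim : ℕ) (κ : ℝ) (Z : Alg M) (m : ℕ) (h d : ℝ) : Prop :=
  0 ≤ h ∧ 0 ≤ d ∧ ∀ (a b : ℕ) (A B : Alg M) (α β dA dB : ℝ), a + m + b ≤ lim → DP X A a α dA →
    DP X B b β dB →
    DP X (X ^ c * (A * Z * B) * X ^ c) (c + (a + m + b) + c) (α * β * h) (d + κ * (dA + dB))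

variable {X : Alg M} {c lim : ℕ} {κ : ℝ}

lemma Str.of {Z Z' : Alg M} {m m' : ℕ} {h d h' d' : ℝ} (H : Str X c lim κ Z m h d) (hX : Prob X)
    (eZ : Z' = Z) (em : m' = m) (hh : h ≤ h') (hd : d ≤ d') : Str X c lim κ Z' m' h' d' := by
  subst eZ em
  refine ⟨H.1.trans hh, H.2.1.trans hd, fun a b A B α β dA dB hl hA hB => ?_⟩
  exact (H.2.2 a b A B α β dA dB hl hA hB).mono hX
    (mul_le_mul_of_nonneg_left hh (mul_nonneg hA.h_nonneg hB.h_nonneg)) (by linarith)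

lemma Str.mono {Z : Alg M} {m : ℕ} {h d h' d' : ℝ} (H : Str X c lim κ Z m h d) (hX : Prob X)
    (hh : h ≤ h') (hd : d ≤ d') : Str X c lim κ Z m h' d' := H.of hX rfl rfl hh hd

lemma Str.add {Z W : Alg M} {m : ℕ} {h d h' : ℝ} (H : Str X c lim κ Z m h d)
    (H' : Str X c lim κ W m h' d) (hX : Prob X) : Str X c lim κ (Z + W) m (h + h') d := by
  refine ⟨add_nonneg H.1 H'.1, H.2.1, fun a b A B α β dA dB hl hA hB => ?_⟩
  exact ((H.2.2 a b A B α β dA dB hl hA hB).add (H'.2.2 a b A B α β dA dB hl hA hB)).of hX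
    (by noncomm_ring) rfl (le_of_eq (by ring)) le_rfl

lemma Str.neg {Z : Alg M} {m : ℕ} {h d : ℝ} (H : Str X c lim κ Z m h d) (hX : Prob X) :
    Str X c lim κ (-Z) m h d := by
  refine ⟨H.1, H.2.1, fun a b A B α β dA dB hl hA hB => ?_⟩
  exact (H.2.2 a b A B α β dA dB hl hA hB).neg.of hX (by noncomm_ring) rfl le_rfl le_rfl

lemma Str.sub {Z W : Alg M} {m : ℕ} {h d h' : ℝ} (H : Str X c lim κ Z m h d)
    (H' : Str X c lim κ W m h' d) (hX : Prob X) : Str X c lim κ (Z - W) m (h + h') d := by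
  rw [sub_eq_add_neg]; exact H.add (H'.neg hX) hX

lemma Str.zero {m : ℕ} {d : ℝ} (hκ : 0 ≤ κ) (hd : 0 ≤ d) : Str X c lim κ 0 m 0 d := by
  refine ⟨le_rfl, hd, fun a b A B α β dA dB _ hA hB => ?_⟩
  have := hA.d_nonneg
  have := hB.d_nonneg
  simpa using (show DP X 0 (c + (a + m + b) + c) 0 (d + κ * (dA + dB)) from
    Dom.zero (by positivity))

lemma Str.lmul {Z P : Alg M} {m k : ℕ} {h d h' d' : ℝ} (H : Str X c lim κ Z m h d)
    (hP : DP X P k h' d') (hX : Prob X) (hκ : 0 ≤ κ) :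
    Str X c lim κ (P * Z) (k + m) (h' * h) (d + κ * d') := by
  refine ⟨mul_nonneg hP.h_nonneg H.1, add_nonneg H.2.1 (mul_nonneg hκ hP.d_nonneg),
    fun a b A B α β dA dB hl hA hB => ?_⟩
  exact (H.2.2 (a + k) b _ B _ β _ dB (by omega) (hA.mul hP hX) hB).of hX
    (by noncomm_ring) (by omega) (le_of_eq (by ring)) (le_of_eq (by ring))

lemma Str.rmul {Z P : Alg M} {m k : ℕ} {h d h' d' : ℝ} (H : Str X c lim κ Z m h d)
    (hP : DP X P k h' d') (hX : Prob X) (hκ : 0 ≤ κ) :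
    Str X c lim κ (Z * P) (m + k) (h * h') (d + κ * d') := by
  refine ⟨mul_nonneg H.1 hP.h_nonneg, add_nonneg H.2.1 (mul_nonneg hκ hP.d_nonneg),
    fun a b A B α β dA dB hl hA hB => ?_⟩
  exact (H.2.2 a (k + b) A _ α _ dA _ (by omega) hA (hP.mul hB hX)).of hX
    (by noncomm_ring) (by omega) (le_of_eq (by ring)) (le_of_eq (by ring))

lemma Str.both {Z P Q : Alg M} {m k l : ℕ} {h d h1 d1 h2 d2 : ℝ} (H : Str X c lim κ Z m h d)
    (hP : DP X P k h1 d1) (hQ : DP X Q l h2 d2) (hX : Prob X) (hκ : 0 ≤ κ) :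
    Str X c lim κ (P * Z * Q) (k + m + l) (h1 * h2 * h) (d + κ * (d1 + d2)) :=
  ((H.lmul hP hX hκ).rmul hQ hX hκ).mono hX (le_of_eq (by ring)) (le_of_eq (by ring))

lemma Str.ctx {Z : Alg M} {m : ℕ} {h d : ℝ} (H : Str X c lim κ Z m h d) (hX : Prob X)
    (hκ : 0 ≤ κ) (a b : ℕ) : Str X c lim κ (X ^ a * Z * X ^ b) (a + m + b) h d := by
  simpa using H.both (DP.pw hX a) (DP.pw hX b) hX hκ

lemma Str.of_dp {Z : Alg M} {m : ℕ} {h d : ℝ} (H : DP X Z m h d) (hX : Prob X) (hκ : 1 ≤ κ) :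
    Str X c lim κ Z m h d := by
  refine ⟨H.h_nonneg, H.d_nonneg, fun a b A B α β dA dB _ hA hB => ?_⟩
  have := hA.d_nonneg
  have := hB.d_nonneg
  exact (((hA.mul H hX).mul hB hX).ctx hX c c).of hX rfl rfl (le_of_eq (by ring)) (by nlinarith)

lemma Str.elim {Z : Alg M} {m : ℕ} {h d : ℝ} (H : Str X c lim κ Z m h d) (hX : Prob X)
    (hm : m ≤ lim) : DP X (X ^ c * Z * X ^ c) (c + m + c) h d := by
  simpa using H.2.2 0 0 1 1 1 1 0 0 (by omega) (DP.one hX) (DP.one hX)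

lemma Str.elim0 {Z : Alg M} {m : ℕ} {h d : ℝ} (H : Str X 0 lim κ Z m h d) (hX : Prob X)
    (hm : m ≤ lim) : DP X Z m h d := by simpa using H.elim hX hm

lemma Str.mono_c {Z : Alg M} {m c' lim' : ℕ} {h d κ' : ℝ} (H : Str X c lim κ Z m h d)
    (hX : Prob X) (hc : c ≤ c') (hl : lim' ≤ lim) (hκ : κ ≤ κ') : Str X c' lim' κ' Z m h d := by
  obtain ⟨k, rfl⟩ := Nat.exists_eq_add_of_le hc
  refine ⟨H.1, H.2.1, fun a b A B α β dA dB hl hA hB => ?_⟩
  have := hA.d_nonneg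
  have := hB.d_nonneg
  refine ((H.2.2 a b A B α β dA dB (by omega) hA hB).ctx hX k k).of hX ?_ (by omega) le_rfl
    (by nlinarith)
  conv_lhs => arg 1; arg 1; rw [add_comm, pow_add]
  rw [pow_add X c k]
  noncomm_ring

lemma Str.comm1 {Z : Alg M} {m c' : ℕ} {h d τ ds : ℝ} (H : Str X c lim κ Z m h d) (hX : Prob X)
    (hκ : 0 ≤ κ) (S : Slip X c' τ ds) :
    Str X c lim κ (X ^ (c' + 1) * Z * X ^ c' - X ^ c' * Z * X ^ (c' + 1)) (c' + m + c' + 1)
      (2 * τ * h) (d + κ * ds) := by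
  have h1 := (H.both S (DP.pw hX c') hX hκ).of hX rfl (show c' + m + c' + 1 = _ by omega)
    (le_of_eq (show _ = τ * h by ring)) (le_of_eq (show _ = d + κ * ds by ring))
  have h2 := (H.both (DP.pw hX c') S hX hκ).of hX rfl (show c' + m + c' + 1 = _ by omega)
    (le_of_eq (show _ = τ * h by ring)) (le_of_eq (show _ = d + κ * ds by ring))
  exact (h1.sub h2 hX).of hX (by noncomm_ring) rfl (le_of_eq (by ring)) le_rfl

/-- An isolated object of mass zero gains from an outer context. -/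
lemma iso {Z : Alg M} {σ r c1 J : ℕ} {z d τ ds ν lam : ℝ} (hX : Prob X) (hlam : 1 ≤ lam)
    (hr : 1 ≤ r) (H : DP X Z σ z d) (hZ0 : mass Z = 0) (S : Slip X c1 τ ds)
    (hν : 2 * ((r ^ 2 : ℕ) * σ) * τ ≤ ν) (hν2 : ν ≤ 1 / 2) :
    Str X (J * (c1 + r ^ 2 * σ)) lim ((r : ℝ) ^ 2) (X ^ (r ^ 2 * σ) * Z * X ^ (r ^ 2 * σ))
      (r ^ 2 * σ + σ + r ^ 2 * σ) (z * (4 * lam / r + ν ^ J))
      ((r : ℝ) ^ 2 * d + dst lam + J * ds) := by
  have hr' : (1 : ℝ) ≤ r := by exact_mod_cast hr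
  have hz := H.h_nonneg
  have hd := H.d_nonneg
  have hds := S.d_nonneg
  have hτ := S.h_nonneg
  have hst := dst_nonneg lam
  have hν0 : 0 ≤ ν := le_trans (by positivity) hν
  have hU : 1 ≤ r ^ 2 := Nat.one_le_pow 2 r hr
  have hU' : (1 : ℝ) ≤ (r : ℝ) ^ 2 := by nlinarith
  refine ⟨by positivity, by positivity, fun a b A B α β dA dB _ hA hB => ?_⟩
  have hα := hA.h_nonneg
  have hβ := hB.h_nonneg
  have hdA := hA.d_nonneg
  have hdB := hB.d_nonneg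
  set U := r ^ 2 with hUdef
  have H0 := ((hA.mul (H.ctx hX (U * σ) (U * σ)) hX).mul hB hX).mono hX le_rfl
    (show _ ≤ (r : ℝ) ^ 2 * (dA + dB + d) + dst lam by nlinarith)
  have H1 := avgAB (Q := X ^ (a + U * σ)) (Q' := X ^ (U * σ + b)) (R := X ^ σ) (Z := Z)
    (A := fun k => X ^ (k * σ) * A * X ^ ((U - k) * σ))
    (B := fun k => X ^ ((k + 1) * σ) * B * X ^ ((U - 1 - k) * σ)) (m := U) (r := (r : ℝ))
    hα hβ hdA hdB hlam hr' (by rw [hUdef]; push_cast; rfl) (hX.pow _) (hX.pow _) (hX.pow _)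
    (fun k hk => (hA.ctx hX _ _).of hX rfl (by
      obtain ⟨j, hj⟩ : ∃ j, U = k + j := ⟨U - k, by omega⟩
      rw [hj, Nat.add_sub_cancel_left]; ring) le_rfl le_rfl)
    (fun k hk => (hB.ctx hX _ _).of hX rfl (by
      obtain ⟨j, hj⟩ : ∃ j, U = k + j + 1 := ⟨U - k - 1, by omega⟩
      rw [show U - 1 - k = j by omega, hj]; ring) le_rfl le_rfl) H hZ0
  rw [← pow_mul, ← pow_add, ← pow_add] at H1
  have H2 : DP X (∑ k ∈ Finset.range U, X ^ (k * σ) * (A * (X ^ (U * σ) * Z * X ^ (U * σ)) * B) *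
      X ^ ((U - 1 - k) * σ)) (a + (U * σ + σ + U * σ) + b + (U - 1) * σ)
      (U * (2 * (α * β) * z * lam / r)) ((r : ℝ) ^ 2 * (dA + dB + d) + dst lam) := by
    refine DP.of H1 hX (Finset.sum_congr rfl fun k hk => ?_) ?_ (le_of_eq ?_) (le_of_eq ?_)
    · rw [Finset.mem_range] at hk
      obtain ⟨j, hj⟩ : ∃ j, U = k + j + 1 := ⟨U - k - 1, by omega⟩
      have e1 : X ^ (U * σ) = X ^ ((U - k) * σ) * (X ^ σ) ^ k := by
        rw [← pow_mul, ← pow_add, show U - k = j + 1 by omega, hj]; congr 1; ring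
      have e2 : X ^ (U * σ) = (X ^ σ) ^ (U - 1 - k) * X ^ ((k + 1) * σ) := by
        rw [← pow_mul, ← pow_add, show U - 1 - k = j by omega, hj]; congr 1; ring
      conv_lhs => arg 1; arg 2; arg 1; arg 2; arg 1; arg 1; rw [e1]
      conv_lhs => arg 1; arg 2; arg 1; arg 2; arg 2; rw [e2]
      simp only [mul_assoc]
    · obtain ⟨u, hu⟩ : ∃ u, U = u + 1 := ⟨U - 1, by omega⟩
      rw [hu, Nat.add_sub_cancel]; ring
    · rw [hUdef]; push_cast; field_simp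
    · rw [hUdef]; push_cast; rfl
  refine (shift_avg hX hU H0 H2 S hν hν2 J).of hX rfl rfl (le_of_eq ?_) (le_of_eq ?_)
  · ring
  · ring

end Vale.Agent.P321
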