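import Mathlib

/-! Word functions computed by triangular weighted automata, and their unbiased trace statistics. -/

namespace Vale.Agent.P321

open Complex

noncomputable def ExT (q : ℝ) : List Bool → (List Bool → ℂ) → ℂ
  | [], g => g []
  | c :: x, g => q * ExT q x g + (1 - q) * ExT q x fun t => g (c :: t)

lemma ExT_lin (q : ℝ) (u v : ℂ) : ∀ (x : List Bool) (f g : List Bool → ℂ),
    ExT q x (fun t => u * f t + v * g t) = u * ExT q x f + v * ExT q x g
  | [], _, _ => rfl
  | c :: x, f, g => by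
    simp only [ExT]
    rw [ExT_lin q u v x f g, ExT_lin q u v x (fun t => f (c :: t)) fun t => g (c :: t)]
    ring

lemma ExT_zero : ∀ (x : List Bool) (f : List Bool → ℂ), ExT 0 x f = f x
  | [], _ => rfl
  | c :: x, f => by simp [ExT, ExT_zero x]

def DS (γ0 κ : ℝ) (j : ℕ) (D : ℂ) : Prop :=
  ∃ γ ω : ℝ, D = exp (-γ + ω * I) ∧ 0 ≤ γ ∧ γ ≤ j * γ0 ∧ κ * ω ^ 2 ≤ j * γ

variable {γ0 κ : ℝ}

lemma DS.norm_le {j : ℕ} {D : ℂ} (h : DS γ0 κ j D) : ‖D‖ ≤ 1 := by
  obtain ⟨γ, ω, rfl, h0, -, -⟩ := h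
  rw [norm_exp]
  simpa using h0

lemma DS.one (h0 : 0 ≤ γ0) (j : ℕ) : DS γ0 κ j 1 :=
  ⟨0, 0, by simp, le_rfl, by positivity, by simp⟩

lemma DS.mono (h0 : 0 ≤ γ0) {j j' : ℕ} {D : ℂ} (h : DS γ0 κ j D) (hj : j ≤ j') : DS γ0 κ j' D := by
  obtain ⟨γ, ω, rfl, h1, h2, h3⟩ := h
  have : (j : ℝ) ≤ j' := by exact_mod_cast hj
  exact ⟨γ, ω, rfl, h1, h2.trans (by gcongr), h3.trans (by gcongr)⟩

lemma DS.mul (hκ : 0 ≤ κ) {j j' : ℕ} {D D' : ℂ} (h : DS γ0 κ j D) (h' : DS γ0 κ j' D') :
    DS γ0 κ (j + j') (D * D') := by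
  obtain ⟨γ, ω, rfl, h1, h2, h3⟩ := h
  obtain ⟨γ', ω', rfl, h1', h2', h3'⟩ := h'
  refine ⟨γ + γ', ω + ω', by rw [← Complex.exp_add]; congr 1; push_cast; ring, by linarith,
    by push_cast; linarith, ?_⟩
  have hj : (0 : ℝ) ≤ j := j.cast_nonneg
  have hj' : (0 : ℝ) ≤ j' := j'.cast_nonneg
  have k1 : (κ * ω * ω') ^ 2 ≤ (j * γ') * (j' * γ) := by
    calc _ = (κ * ω ^ 2) * (κ * ω' ^ 2) := by ring
      _ ≤ (j * γ) * (j' * γ') := mul_le_mul h3 h3' (by positivity) (by positivity)
      _ = _ := by ring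
  have k2 : 2 * (κ * ω * ω') ≤ j * γ' + j' * γ :=
    abs_le_of_sq_le_sq' (by nlinarith [sq_nonneg (j * γ' - j' * γ)]) (by positivity) |>.2
  push_cast
  nlinarith

lemma DS.conj {j : ℕ} {D : ℂ} (h : DS γ0 κ j D) : DS γ0 κ j ((starRingEnd ℂ) D) := by
  obtain ⟨γ, ω, rfl, h1, h2, h3⟩ := h
  exact ⟨γ, -ω, by rw [← exp_conj]; simp, h1, h2, by simpa using h3⟩

lemma DS.disc {q : ℝ} (hq0 : 0 ≤ q) (hq1 : q < 1) {j : ℕ} (hj : j * γ0 ≤ 1 - q)
    (hκ : j ≤ κ * (1 - q)) (hκ0 : 0 < κ) {D : ℂ} (h : DS γ0 κ j D) : ‖D - q‖ ≤ 1 - q := by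
  obtain ⟨γ, ω, rfl, h1, h2, h3⟩ := h
  have h4 : ω ^ 2 ≤ (1 - q) * γ := by
    refine le_of_mul_le_mul_left (h3.trans ?_) hκ0
    rw [← mul_assoc]; gcongr
  have hr0 := Real.exp_pos (-γ)
  have hr1 : Real.exp (-γ) * (1 + γ) ≤ 1 := by
    rw [Real.exp_neg, inv_mul_le_iff₀ (Real.exp_pos _)]
    linarith [Real.add_one_le_exp γ]
  have hr2 := Real.add_one_le_exp (-γ)
  have hc := Real.one_sub_sq_div_two_le_cos (x := ω)
  have hs := Real.sin_sq_add_cos_sq ω
  refine abs_le_of_sq_le_sq' ?_ (by linarith) |>.2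
  rw [Complex.sq_norm, normSq_apply]
  simp only [sub_re, exp_re, add_re, neg_re, ofReal_re, mul_re, I_re, mul_zero, ofReal_im, I_im,
    mul_one, sub_self, add_zero, add_im, neg_im, neg_zero, mul_im, zero_add, sub_im, exp_im,
    sub_zero]
  set r := Real.exp (-γ)
  have e : (r * Real.cos ω - q) * (r * Real.cos ω - q) + r * Real.sin ω * (r * Real.sin ω) =
      r ^ 2 * (Real.sin ω ^ 2 + Real.cos ω ^ 2) - 2 * (q * r) * Real.cos ω + q ^ 2 := by ring
  rw [e, hs]
  have k0 : 0 ≤ q * r := by positivity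
  have k1 : q * r * ω ^ 2 ≤ (1 - r) * (1 - q) := by
    have : r * γ ≤ 1 - r := by linarith
    have h5 : r * ω ^ 2 ≤ (1 - r) * (1 - q) := by
      calc _ ≤ r * ((1 - q) * γ) := by gcongr
        _ = (r * γ) * (1 - q) := by ring
        _ ≤ _ := by gcongr
    have : 0 ≤ r * ω ^ 2 := by positivity
    nlinarith
  have k2 : (1 - r) * (1 - q) ≤ (1 - r) * (1 + r - 2 * q) := by
    refine mul_le_mul_of_nonneg_left (by linarith) ?_
    nlinarith
  nlinarith [mul_le_mul_of_nonneg_left hc k0]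

inductive Acc (γ0 κ : ℝ) : ℕ → ℝ → (List Bool → ℂ) → Prop
  | zero (k : ℕ) {a : ℝ} : 0 ≤ a → Acc γ0 κ k a 0
  | add {k : ℕ} {a b : ℝ} {f g : List Bool → ℂ} :
      Acc γ0 κ k a f → Acc γ0 κ k b g → Acc γ0 κ k (a + b) (f + g)
  | step {k : ℕ} {a : ℝ} {f : List Bool → ℂ} (D : ℂ) : DS γ0 κ (k + 1) D → ‖f []‖ ≤ a →
      (∀ c, Acc γ0 κ k a fun x => f (c :: x) - D * f x) → Acc γ0 κ (k + 1) a f

variable {k : ℕ} {a : ℝ} {f : List Bool → ℂ}

lemma Acc.nonneg (H : Acc γ0 κ k a f) : 0 ≤ a := by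
  induction H with
  | zero _ h => exact h
  | add _ _ h1 h2 => linarith
  | step _ _ h _ _ => exact (norm_nonneg _).trans h

lemma Acc.of (H : Acc γ0 κ k a f) {a' : ℝ} {g : List Bool → ℂ} (ha : a ≤ a')
    (hg : ∀ x, g x = f x) : Acc γ0 κ k a' g := by
  have := H.add (Acc.zero k (sub_nonneg.2 ha))
  rw [add_zero, add_sub_cancel] at this
  rwa [funext hg]

lemma Acc.succ (h0 : 0 ≤ γ0) (H : Acc γ0 κ k a f) : Acc γ0 κ (k + 1) a f := by
  induction H with
  | zero _ h => exact Acc.zero _ h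
  | add _ _ h1 h2 => exact h1.add h2
  | step D hD h _ ih => exact Acc.step D (hD.mono h0 (by omega)) h ih

lemma Acc.mono (h0 : 0 ≤ γ0) (H : Acc γ0 κ k a f) {k' : ℕ} (hk : k ≤ k') : Acc γ0 κ k' a f := by
  induction hk with
  | refl => exact H
  | step _ ih => exact ih.succ h0

lemma Acc.smul (H : Acc γ0 κ k a f) (u : ℂ) : Acc γ0 κ k (‖u‖ * a) fun x => u * f x := by
  induction H with
  | zero _ h => exact (Acc.zero _ (by positivity)).of le_rfl (by simp)
  | add _ _ h1 h2 => exact (h1.add h2).of (by linarith) fun x => by simp [mul_add]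
  | step D hD h _ ih =>
    refine Acc.step D hD (by rw [norm_mul]; gcongr) fun c => (ih c).of le_rfl fun x => by ring

lemma Acc.smul1 (H : Acc γ0 κ k a f) {u : ℂ} (hu : ‖u‖ ≤ 1) : Acc γ0 κ k a fun x => u * f x :=
  (H.smul u).of (mul_le_of_le_one_left H.nonneg hu) fun _ => rfl

lemma Acc.conj (H : Acc γ0 κ k a f) : Acc γ0 κ k a fun x => (starRingEnd ℂ) (f x) := by
  induction H with
  | zero _ h => exact (Acc.zero _ h).of le_rfl (by simp)
  | add _ _ h1 h2 => exact (h1.add h2).of le_rfl fun x => by simp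
  | step D hD h _ ih =>
    refine Acc.step _ hD.conj (by simpa using h) fun c => (ih c).of le_rfl fun x => by simp

lemma Acc.cons (h0 : 0 ≤ γ0) (H : Acc γ0 κ k a f) (c : Bool) :
    Acc γ0 κ k (2 * a) fun x => f (c :: x) := by
  induction H with
  | zero _ h => exact (Acc.zero _ (by linarith)).of le_rfl (by simp)
  | add _ _ h1 h2 => exact (h1.add h2).of (by linarith) fun x => by simp
  | step D hD h H _ =>
    exact (((H c).succ h0).add ((Acc.step D hD h H).smul1 hD.norm_le)).of (by linarith)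
      fun x => by simp

lemma Acc.nil_le (H : Acc γ0 κ k a f) : ‖f []‖ ≤ a := by
  induction H with
  | zero _ h => simpa using h
  | add _ _ h1 h2 => exact (norm_add_le _ _).trans (add_le_add h1 h2)
  | step D hD h H _ => exact h

lemma Acc.mul (h0 : 0 ≤ γ0) (hκ : 0 ≤ κ) : ∀ (N : ℕ) {k k' : ℕ} {a b : ℝ} {f g : List Bool → ℂ},
    k + k' ≤ N → Acc γ0 κ k a f → Acc γ0 κ k' b g →
    Acc γ0 κ (k + k') (3 ^ (k + k') * a * b) fun x => f x * g x := by
  intro N
  induction N with
  | zero =>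
    intro k k' a b f g hN hf hg
    have hb := hg.nonneg
    induction hf with
    | zero _ h => exact (Acc.zero _ (by positivity)).of le_rfl (by simp)
    | add _ _ h1 h2 => exact ((h1 hN).add (h2 hN)).of (by linarith) fun x => by simp [add_mul]
    | step => omega
  | succ N ih =>
    intro k k' a b f g hN hf hg
    have hb := hg.nonneg
    induction hf with
    | zero _ h => exact (Acc.zero _ (by positivity)).of le_rfl (by simp)
    | add _ _ h1 h2 => exact ((h1 hN).add (h2 hN)).of (by linarith) fun x => by simp [add_mul]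
    | @step k a f D hD h H _ =>
      have ha : 0 ≤ a := (norm_nonneg _).trans h
      clear hb
      rename_i hi
      clear hi
      induction hg with
      | zero _ h => exact (Acc.zero _ (by positivity)).of le_rfl (by simp)
      | add g1 g2 h1 h2 =>
        exact ((h1 hN).add (h2 hN)).of (by linarith) fun x => by simp [mul_add]
      | @step k' b g D' hD' h' H' _ =>
        have hb : 0 ≤ b := (norm_nonneg _).trans h'
        have h3 : ∀ i j : ℕ, i ≤ j → (3 : ℝ) ^ i * a * b ≤ 3 ^ j * a * b := fun i j h => by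
          gcongr; norm_num
        refine Acc.step (k := k + 1 + k') (D * D') (hD.mul hκ hD') ?_ fun c => ?_
        · rw [norm_mul]
          calc _ ≤ a * b := by gcongr
            _ ≤ _ := by simpa using h3 0 _ (Nat.zero_le _)
        · have k1 := (ih (by omega) (Acc.step D hD h H) (H' c)).smul1 hD.norm_le
          have k2 := ((ih (by omega) (H c) (Acc.step D' hD' h' H')).smul1 hD'.norm_le).mono h0
            (show k + (k' + 1) ≤ k + 1 + k' by omega)
          have k3 := (ih (by omega) (H c) (H' c)).mono h0 (show k + k' ≤ k + 1 + k' by omega)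
          refine ((k1.add k2).add k3).of ?_ fun x => by simp only [Pi.add_apply]; ring
          have := h3 (k + (k' + 1)) (k + 1 + k') (by omega)
          have := h3 (k + k') (k + 1 + k') (by omega)
          rw [show k + 1 + (k' + 1) = k + 1 + k' + 1 by ring, pow_succ]
          linarith

lemma Acc.const (h0 : 0 ≤ γ0) : Acc γ0 κ 1 1 fun _ => 1 :=
  Acc.step 1 (DS.one h0 _) (by simp) fun _ => (Acc.zero _ zero_le_one).of le_rfl (by simp)

noncomputable def sumT (β : ℂ) (f : List Bool → ℂ) : List Bool → ℂ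
  | [] => f []
  | c :: x => f (c :: x) + β * sumT β f x

lemma sumT_eq (β : ℂ) (f : List Bool → ℂ) : ∀ x : List Bool,
    sumT β f x = ∑ u ∈ Finset.range (x.length + 1), β ^ u * f (x.drop u)
  | [] => by simp [sumT]
  | c :: x => by
    rw [sumT, sumT_eq β f x, List.length_cons, Finset.sum_range_succ' _ (x.length + 1),
      Finset.mul_sum]
    simp only [List.drop_succ_cons, pow_zero, List.drop_zero, one_mul, pow_succ]
    rw [add_comm]
    congr 1
    exact Finset.sum_congr rfl fun _ _ => by ring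

lemma Acc.sumT (h0 : 0 ≤ γ0) (H : Acc γ0 κ k a f) {β : ℂ} (hβ : DS γ0 κ (k + 1) β) :
    Acc γ0 κ (k + 1) (2 * a) (sumT β f) :=
  Acc.step β hβ (H.nil_le.trans (by linarith [H.nonneg])) fun c =>
    (H.cons h0 c).of le_rfl fun x => by simp [P321.sumT]

noncomputable def recT (D z : ℂ) (g : Bool → List Bool → ℂ) : List Bool → ℂ
  | [] => z
  | c :: t => D * recT D z g t + g c t

lemma Acc.access {q : ℝ} (h0 : 0 ≤ γ0) (hq1 : q < 1) (H : Acc γ0 κ k a f)
    (hD : ∀ D, DS γ0 κ k D → ‖D - q‖ ≤ 1 - q) :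
    ∃ F : List Bool → ℂ, (∀ x, ExT q x F = f x) ∧
      ∀ t, ‖F t‖ ≤ a * (1 + t.length / (1 - q)) ^ k := by
  have hp : 0 < 1 - q := by linarith
  have hp' : (1 - q : ℂ) ≠ 0 := by exact_mod_cast hp.ne'
  induction H with
  | zero _ h =>
    refine ⟨0, fun x => ?_, fun t => by simp; positivity⟩
    have := ExT_lin q 0 0 x 0 0
    simp only [zero_mul, add_zero] at this
    exact this
  | add _ _ h1 h2 =>
    obtain ⟨F, e1, b1⟩ := h1 hD
    obtain ⟨G, e2, b2⟩ := h2 hD
    refine ⟨fun t => 1 * F t + 1 * G t, fun x => by rw [ExT_lin, e1, e2]; simp, fun t => ?_⟩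
    simp only [one_mul, add_mul]
    exact (norm_add_le _ _).trans (add_le_add (b1 t) (b2 t))
  | @step k a f D hD' h H ih =>
    have ha : 0 ≤ a := (norm_nonneg _).trans h
    choose G e b using fun c => ih c fun D' h' => hD D' (h'.mono h0 (by omega))
    have hD1 : ‖(D - q) / (1 - q)‖ ≤ 1 := by
      rw [norm_div, div_le_one (norm_pos_iff.2 hp')]
      refine (hD D hD').trans (le_of_eq ?_)
      rw [← ofReal_one, ← ofReal_sub, norm_real, Real.norm_of_nonneg hp.le]
    refine ⟨recT ((D - q) / (1 - q)) (f []) fun c t => (1 - q : ℂ)⁻¹ * G c t, fun x => ?_,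
      fun t => ?_⟩
    · induction x with
      | nil => rfl
      | cons c x ihx =>
        simp only [ExT, recT]
        rw [ExT_lin, ihx, e]
        field_simp
        ring
    · have key : ‖recT ((D - q) / (1 - q)) (f []) (fun c t => (1 - q : ℂ)⁻¹ * G c t) t‖ ≤
          a * (1 + t.length / (1 - q)) ^ k * (1 + t.length / (1 - q)) := by
        induction t with
        | nil => simpa [recT] using h
        | cons c t iht =>
          have k1 : ‖(1 - q : ℂ)⁻¹ * G c t‖ ≤ (1 - q)⁻¹ * (a * (1 + t.length / (1 - q)) ^ k) := by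
            rw [norm_mul, norm_inv, ← ofReal_one, ← ofReal_sub, norm_real,
              Real.norm_of_nonneg hp.le]
            gcongr
            exact b c t
          have k2 : a * (1 + t.length / (1 - q)) ^ k ≤
              a * (1 + ((c :: t).length : ℝ) / (1 - q)) ^ k := by
            gcongr; simp
          rw [recT]
          refine (norm_add_le _ _).trans ?_
          rw [norm_mul]
          refine (add_le_add ((mul_le_of_le_one_left (norm_nonneg _) hD1).trans iht) k1).trans ?_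
          calc _ = a * (1 + t.length / (1 - q)) ^ k * (1 + ((c :: t).length : ℝ) / (1 - q)) := by
                simp only [List.length_cons]; push_cast; ring
            _ ≤ _ := by gcongr
      rwa [pow_succ, ← mul_assoc]

lemma Acc.bound (h0 : 0 ≤ γ0) (H : Acc γ0 κ k a f) (x : List Bool) :
    ‖f x‖ ≤ a * (1 + x.length) ^ k := by
  obtain ⟨F, e, b⟩ := H.access (q := 0) h0 one_pos fun D h => by simpa using h.norm_le
  rw [← e, ExT_zero]
  simpa using b x

end Vale.Agent.P321
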