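import Vale.Agent.P321.UpStep

/-! Iterating the zoom-out step. -/

namespace Vale.Agent.P321

open Complex Finset

variable {γ0 κ : ℝ} {x y : List Bool} {n d : ℕ}

lemma zoom2 (h0 : 0 ≤ γ0) (hκ : 0 ≤ κ) (hx : x.length = n) (hy : y.length = n) (hd : d ≤ n)
    (h : ∀ i, d < i → x.drop i = y.drop i) {k : ℕ} {a σ' r X0 E R u : ℝ}
    {f : List Bool → ℂ} {w0 : ℂ} (hf : Acc γ0 κ k a f) (hk : 1 ≤ k) (ha : 1 ≤ a)
    (hτ : Real.exp (-E) ≤ ‖Wd d (r ^ 2 / (R * E)) w0 f x - Wd d (r ^ 2 / (R * E)) w0 f y‖)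
    (hE : 1 ≤ E) (hR : 1 ≤ R) (hr : 0 < r) (hru : r ≤ u) (hw : r ≤ w0.re) (hw' : |w0.im| ≤ X0)
    (hu : 8 * u ≤ X0) (hM : 2 * (a * (1 + n) ^ k) * (n + 1) ≤ Real.exp E)
    (hN : 243 * (2 * (u / r) + 3) ≤ Real.exp E)
    (hR' : 1200 * (w0.re ^ 2 + X0 ^ 2) ≤ R * (u * w0.re))
    (hσ' : 0 ≤ σ') (hσ2 : 2 * σ' ≤ r ^ 2 / (R * E)) (hr0 : r ≤ γ0) (hκr : 441 * κ * u ^ 2 ≤ r) :
    ∃ g, Acc γ0 κ (3 * k + 2) (3 ^ (5 * k + 5) * a ^ 3) g ∧ ∃ w : ℂ, w.re = r ∧
      |w.im| ≤ 41 * r ∧ Real.exp (-(12 * (R * E))) ≤ ‖Wd d σ' w g x - Wd d σ' w g y‖ := by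
  obtain ⟨A, hA⟩ : ∃ A, A = R * E := ⟨_, rfl⟩
  have hAE : E ≤ A := hA ▸ le_mul_of_one_le_left (by linarith) hR
  have hA0 : 0 < A := by linarith
  obtain ⟨N, hN1, hN2⟩ : ∃ N : ℕ, u / r ≤ N ∧ N ≤ u / r + 1 :=
    ⟨⌈u / r⌉₊, Nat.le_ceil _, (Nat.ceil_lt_add_one (div_nonneg (by linarith) hr.le)).le⟩
  have hN3 : u ≤ N * r := by rwa [div_le_iff₀ hr] at hN1
  have hN4 : (3 * N + 2) * r ≤ 8 * u := by
    have := mul_le_mul_of_nonneg_right hN2 hr.le
    rw [add_mul, div_mul_cancel₀ _ hr.ne'] at this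
    linarith
  have hw0 : 0 < w0.re := by linarith
  have e2 : (2 : ℝ) < Real.exp 1 := by linarith [Real.add_one_lt_exp (one_ne_zero (α := ℝ))]
  rw [← hA] at hτ hσ2 ⊢
  obtain ⟨g, h1, w, h2, h3, h4⟩ := zoom (N := N) (X := 13 * r) (M := Real.exp E) (A := A) (b := r)
    (τ' := Real.exp (-(12 * A))) h0 hκ hx hy hd h hf hk ha hτ hr hw hw' (hN4.trans hu) hM hA0.le
    (by rw [← Real.exp_add, Real.exp_le_one_iff]; linarith)
    (by
      have k1 : 3 * E ≤ A * (N / 4) * r * w0.re / (100 * (w0.re ^ 2 + X0 ^ 2)) := by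
        rw [le_div_iff₀ (by positivity), hA]
        calc _ = E / 4 * (1200 * (w0.re ^ 2 + X0 ^ 2)) := by ring
          _ ≤ E / 4 * (R * (N * r * w0.re)) := by
              refine mul_le_mul_of_nonneg_left (hR'.trans ?_) (by linarith)
              gcongr
          _ = _ := by ring
      rw [← Real.exp_add, lt_div_iff₀ two_pos]
      calc _ < Real.exp (E + -(A * (N / 4) * r * w0.re / (100 * (w0.re ^ 2 + X0 ^ 2)))) *
            Real.exp 1 := by gcongr
        _ ≤ _ := by rw [← Real.exp_add, Real.exp_le_exp]; linarith)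
    (by positivity) hσ' hσ2 hr.le hr0 (by positivity)
    (le_trans (by
      have : ((3 * N + 2) * r + 13 * r) ^ 2 ≤ (21 * u) ^ 2 :=
        pow_le_pow_left₀ (by positivity) (by linarith) 2
      nlinarith) hκr) (Real.exp_pos _).le
    (by
      have k1 : 5 * r ^ 2 / (r ^ 2 / A) = 5 * A := by field_simp
      have k2 : -(13 * r) ^ 2 / (8 * (r ^ 2 / A)) = -(169 / 8 * A) := by field_simp; ring
      have k3 : 243 * (2 * N + 1) ≤ Real.exp E := le_trans (by linarith) hN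
      rw [k1, k2, ← Real.exp_add, ← Real.exp_nat_mul, ← Real.exp_nat_mul]
      have k4 : Real.exp (-(12 * A)) + 6 * Real.exp (-(169 / 8 * A)) * Real.exp ((3 : ℕ) * E) ≤
          7 * Real.exp (-(12 * A)) := by
        rw [mul_assoc, ← Real.exp_add]
        have : Real.exp (-(169 / 8 * A) + (3 : ℕ) * E) ≤ Real.exp (-(12 * A)) :=
          Real.exp_le_exp.2 (by push_cast; linarith)
        linarith
      have k5 : (7 : ℝ) < Real.exp 3 := by
        rw [show (3 : ℝ) = (3 : ℕ) * 1 by norm_num, Real.exp_nat_mul]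
        exact lt_of_lt_of_le (by norm_num) (pow_le_pow_left₀ zero_le_two e2.le 3)
      calc _ = 243 * (2 * N + 1) * (Real.exp E * Real.exp (5 * A)) * (Real.exp (-(12 * A)) +
            6 * Real.exp (-(169 / 8 * A)) * Real.exp ((3 : ℕ) * E)) := by ring
        _ ≤ Real.exp E * (Real.exp E * Real.exp (5 * A)) * (7 * Real.exp (-(12 * A))) := by gcongr
        _ < Real.exp E * (Real.exp E * Real.exp (5 * A)) * (Real.exp 3 * Real.exp (-(12 * A))) := by
            gcongr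
        _ ≤ _ := by
            simp only [← Real.exp_add, Real.exp_le_exp]; push_cast; linarith)
  exact ⟨g, h1, w, h2, by linarith, h4⟩

lemma last_step (h0 : 0 ≤ γ0) (hκ : 0 ≤ κ) (hx : x.length = n) (hy : y.length = n) (hd : d ≤ n)
    (h : ∀ i, d < i → x.drop i = y.drop i) {k : ℕ} {a r E : ℝ} {f : List Bool → ℂ} {w0 : ℂ}
    (hf : Acc γ0 κ k a f) (hτ : Real.exp (-E) ≤ ‖Wd d 0 w0 f x - Wd d 0 w0 f y‖) (hE : 1 ≤ E)
    (hr : 0 < r) (hw : w0.re = r) (hw' : |w0.im| ≤ 41 * r)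
    (hM : 2 * (a * (1 + n) ^ k) * (n + 1) ≤ Real.exp E) (h1 : κ * r ^ 2 ≤ r)
    (h2 : κ * r ^ 2 ≤ γ0) (h3 : κ * r ^ 2 * n ≤ 1) :
    ∃ g, Acc γ0 κ (k + 1) (2 * a) g ∧ Real.exp (-(10 ^ 6 * E)) ≤ ‖g x - g y‖ := by
  obtain ⟨γ, hγ⟩ : ∃ γ, γ = κ * r ^ 2 := ⟨_, rfl⟩
  have hγ0 : 0 ≤ γ := by rw [hγ]; positivity
  rw [← hγ] at h1 h2 h3
  have hdn : (d : ℝ) ≤ n := by exact_mod_cast hd
  have hγd : γ * d ≤ 1 := le_trans (by gcongr) h3
  by_contra H
  push Not at H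
  have e : ∀ w : ℂ, Wd d 0 (w - γ) f x - Wd d 0 (w - γ) f y = ∑ i ∈ range (d + 1),
      ((f (x.drop i) - f (y.drop i)) * exp ((γ * ((d : ℝ) - i) : ℝ))) *
        exp (-w * ((d : ℝ) - i : ℝ)) := fun w => by
    rw [Wd_sub hx hy hd h]
    exact sum_congr rfl fun i _ => by rw [mul_assoc, ← Complex.exp_add]; congr 2; push_cast; ring
  have key := two_const (range (d + 1)) (fun i : ℕ => (d : ℝ) - i) (fun i hi => by
      have : (i : ℝ) ≤ d := by exact_mod_cast Nat.lt_succ_iff.1 (mem_range.1 hi)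
      linarith)
    (fun i => (f (x.drop i) - f (y.drop i)) * exp ((γ * ((d : ℝ) - i) : ℝ)))
    (M := Real.exp (E + 1)) (A := 10 ^ 6 * E) (X := 41 * r) (w := w0 + γ) ?_ (by positivity) hr {0}
    (fun j hj ω o1 o2 => ?_) (by simp; linarith) (by simp; linarith) (by simpa using hw')
  · rw [← e, add_sub_cancel_right, ← Real.exp_add] at key
    have k1 := Real.exp_le_exp.1 (hτ.trans key)
    have k2 : 4 * E ≤ 10 ^ 6 * E * (card {0} : ℕ) * r * (w0 + γ).re /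
        (100 * ((w0 + γ).re ^ 2 + (41 * r) ^ 2)) := by
      rw [le_div_iff₀ (by positivity), add_re, ofReal_re, hw, card_singleton]
      have : (r + γ) ^ 2 ≤ (2 * r) ^ 2 := pow_le_pow_left₀ (by positivity) (by linarith) 2
      have : 0 ≤ r * γ := by positivity
      have : 0 ≤ r ^ 2 := by positivity
      rw [show 4 * E * (100 * ((r + γ) ^ 2 + (41 * r) ^ 2)) =
        E * (400 * ((r + γ) ^ 2 + (41 * r) ^ 2)) by ring, show 10 ^ 6 * E * (1 : ℕ) * r * (r + γ) =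
        E * (10 ^ 6 * (r ^ 2 + r * γ)) by push_cast; ring]
      exact mul_le_mul_of_nonneg_left (by linarith) (by linarith)
    linarith
  · refine (sum_le_card_nsmul _ _ (2 * (a * (1 + n) ^ k) * Real.exp 1) fun i _ => ?_).trans ?_
    · rw [norm_mul, norm_exp_ofReal]
      refine mul_le_mul ((norm_sub_le _ _).trans ?_) (Real.exp_le_exp.2 ?_) (Real.exp_pos _).le ?_
      · linarith [hf.bound' h0 (x.drop i) (n := n) (by rw [List.length_drop]; omega),
          hf.bound' h0 (y.drop i) (n := n) (by rw [List.length_drop]; omega)]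
      · have : 0 ≤ γ * i := by positivity
        linarith
      · have := hf.nonneg
        positivity
    · rw [card_range, nsmul_eq_mul, Real.exp_add, ← mul_assoc]
      refine mul_le_mul_of_nonneg_right (le_trans ?_ hM) (Real.exp_pos _).le
      rw [mul_comm]
      have := hf.nonneg
      gcongr
      exact_mod_cast Nat.succ_le_succ hd
  · obtain rfl : j = 0 := by simpa using hj
    simp only [Nat.cast_zero, zero_mul, zero_add, one_mul] at o1 o2
    have hk : (1 : ℝ) ≤ (k + 1 : ℕ) := by simp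
    have k1 := H _ (hf.sumT h0 (β := exp (-γ + (ω : ℝ) * I)) ⟨γ, ω, rfl, hγ0,
      h2.trans (le_mul_of_one_le_left h0 hk),
      le_trans (by rw [hγ]; gcongr) (le_mul_of_one_le_left hγ0 hk)⟩)
    have k2 : ∑ i ∈ range (d + 1), (f (x.drop i) - f (y.drop i)) *
        exp ((γ * ((d : ℝ) - i) : ℝ)) * exp (ω * ((d : ℝ) - i : ℝ) * I) =
        exp ((γ * d : ℝ) + (ω * d : ℝ) * I) * (sumT (exp (-γ + (-ω : ℝ) * I)) f x -
          sumT (exp (-γ + (-ω : ℝ) * I)) f y) := by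
      rw [sumT_eq, sumT_eq, hx, hy, sum_cut hd fun i hi => by rw [h i hi], mul_sum]
      refine sum_congr rfl fun i _ => ?_
      rw [← mul_sub, ← Complex.exp_nat_mul, mul_assoc, ← mul_assoc (exp _), ← Complex.exp_add,
        ← Complex.exp_add, mul_comm]
      congr 2; push_cast; ring
    have k3 := H _ (hf.sumT h0 (β := exp (-γ + (-ω : ℝ) * I)) ⟨γ, -ω, rfl, hγ0,
      h2.trans (le_mul_of_one_le_left h0 hk),
      le_trans (by rw [hγ, neg_sq]; gcongr) (le_mul_of_one_le_left hγ0 hk)⟩)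
    rw [k2, norm_mul, Complex.exp_add, norm_mul, norm_exp_ofReal_mul_I, norm_exp_ofReal, mul_one]
    exact mul_le_mul (Real.exp_le_exp.2 (by linarith)) k3.le (norm_nonneg _) (Real.exp_pos _).le

lemma first_step (h0 : 0 ≤ γ0) (hx : x.length = n) (hy : y.length = n) (hne : x ≠ y) :
    ∃ d ≤ n, (∀ i, d < i → x.drop i = y.drop i) ∧ ∃ f, Acc γ0 κ 2 1 f ∧ ∀ σ E : ℝ, 0 ≤ σ →
      4 * ((n : ℝ) + 1) ^ 3 ≤ Real.exp E → 1 / 2 ≤ ‖Wd d σ E f x - Wd d σ E f y‖ := by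
  classical
  have h1 : x.drop (Nat.findGreatest (fun i => x.drop i ≠ y.drop i) n) ≠ _ :=
    Nat.findGreatest_spec (P := fun i => x.drop i ≠ y.drop i) (Nat.zero_le n) hne
  have h2 : ∀ i, Nat.findGreatest (fun i => x.drop i ≠ y.drop i) n < i → x.drop i = y.drop i :=
    fun i hi => by
    rcases le_or_gt i n with h | h
    · exact not_not.1 (Nat.findGreatest_is_greatest hi h)
    · rw [List.drop_eq_nil_of_le (by omega), List.drop_eq_nil_of_le (by omega)]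
  have h3 := Nat.findGreatest_le (P := fun i => x.drop i ≠ y.drop i) n
  generalize Nat.findGreatest (fun i => x.drop i ≠ y.drop i) n = d at h1 h2 h3
  have hd : d < n := lt_of_le_of_ne h3 fun e => h1 (by
    rw [List.drop_eq_nil_of_le (by omega), List.drop_eq_nil_of_le (by omega)])
  let f := recT 1 0 fun c _ => if c then 1 else 0
  have hf : Acc γ0 κ 2 1 f := Acc.step 1 (DS.one h0 _) (by simp [f, recT]) fun c =>
    ((Acc.const h0).smul1 (u := if c then 1 else 0) (by cases c <;> simp)).of le_rfl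
      fun z => by simp [f, recT]
  refine ⟨d, h3, h2, f, hf, fun σ E hσ hE => ?_⟩
  have k1 : ‖f (x.drop d) - f (y.drop d)‖ = 1 := by
    have ex := List.drop_eq_getElem_cons (show d < x.length by omega)
    have ey := List.drop_eq_getElem_cons (show d < y.length by omega)
    rw [ex, ey, h2 (d + 1) (by omega)] at h1 ⊢
    simp only [f, recT]
    generalize x[d] = c at h1 ⊢
    generalize y[d] = c' at h1 ⊢
    cases c <;> cases c' <;> simp at h1 ⊢
  rw [Wd_sub hx hy h3 h2, sum_range_succ, add_comm]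
  refine le_trans ?_ (norm_sub_le_norm_add _ _)
  have hn : (0 : ℝ) ≤ n := n.cast_nonneg
  have hE0 : 0 ≤ E := Real.one_le_exp_iff.1 (le_trans (by nlinarith [one_le_pow₀ (n := 3) (show (1 : ℝ) ≤ n + 1 by linarith)]) hE)
  have k2 := (norm_sum_le _ _).trans (sum_le_card_nsmul (range d) (fun i => ‖(f (x.drop i) -
      f (y.drop i)) * exp (-σ * ((d : ℝ) - i : ℝ) ^ 2 - E * ((d : ℝ) - i : ℝ))‖)
      (2 * (1 + n) ^ 2 * Real.exp (-E)) fun i hi => by
    have : (i : ℝ) + 1 ≤ d := by exact_mod_cast mem_range.1 hi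
    rw [norm_mul, ← ofReal_pow, ← ofReal_neg, ← ofReal_mul, ← ofReal_mul, ← ofReal_sub,
      norm_exp_ofReal]
    refine mul_le_mul ((norm_sub_le _ _).trans ?_) (Real.exp_le_exp.2 ?_) (Real.exp_pos _).le
      (by positivity)
    · linarith [hf.bound' h0 (x.drop i) (n := n) (by rw [List.length_drop]; omega),
        hf.bound' h0 (y.drop i) (n := n) (by rw [List.length_drop]; omega)]
    · nlinarith [mul_nonneg hσ (sq_nonneg ((d : ℝ) - i))])
  have k3 : (d : ℝ) * (2 * (1 + n) ^ 2 * Real.exp (-E)) ≤ 1 / 2 := by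
    rw [← mul_assoc, Real.exp_neg, mul_inv_le_iff₀ (Real.exp_pos _)]
    have : (d : ℝ) * (2 * (1 + n) ^ 2) ≤ (n + 1) * (2 * (1 + n) ^ 2) := by
      gcongr; exact_mod_cast by omega
    nlinarith
  rw [card_range, nsmul_eq_mul] at k2
  rw [norm_mul, k1]
  simp only [sub_self, ofReal_zero, mul_zero, ne_eq, OfNat.ofNat_ne_zero, not_false_eq_true,
    zero_pow, Complex.exp_zero, norm_one]
  linarith

lemma M_bound {ν k : ℕ} {a E : ℝ} (hn : n + 1 ≤ 2 ^ ν) (ha0 : 0 ≤ a) (ha : a ≤ Real.exp (E / 3))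
    (hk : (k + 1) * ν ≤ E / 3) (hE : 3 ≤ E) :
    2 * (a * (1 + n) ^ k) * (n + 1) ≤ Real.exp E := by
  have e2 : (2 : ℝ) ≤ Real.exp 1 := by linarith [Real.add_one_le_exp (1 : ℝ)]
  have h1 : (n + 1 : ℝ) ≤ Real.exp ν := by
    rw [← mul_one (ν : ℝ), Real.exp_nat_mul]
    exact le_trans (by exact_mod_cast hn) (pow_le_pow_left₀ zero_le_two e2 ν)
  calc _ = 2 * a * (n + 1) ^ (k + 1) := by rw [pow_succ, add_comm 1]; ring
    _ ≤ Real.exp 1 * Real.exp (E / 3) * Real.exp ν ^ (k + 1) := by gcongr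
    _ ≤ _ := by
      rw [← Real.exp_nat_mul, ← Real.exp_add, ← Real.exp_add, Real.exp_le_exp]
      push_cast; linarith

lemma N_bound {ν : ℕ} {t E : ℝ} (ht : t ≤ 2 ^ ν) (hE : ν + 11 ≤ E) :
    243 * (2 * t + 3) ≤ Real.exp E := by
  have e2 : (2 : ℝ) ≤ Real.exp 1 := by linarith [Real.add_one_le_exp (1 : ℝ)]
  have h1 : (1 : ℝ) ≤ 2 ^ ν := one_le_pow₀ one_le_two
  calc _ ≤ (2 : ℝ) ^ (ν + 11) := by rw [pow_add]; linarith
    _ ≤ Real.exp 1 ^ (ν + 11) := pow_le_pow_left₀ zero_le_two e2 _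
    _ ≤ _ := by rw [← Real.exp_nat_mul, Real.exp_le_exp]; push_cast; linarith

lemma a_bound {k : ℕ} {a E E' : ℝ} (ha1 : 1 ≤ a) (ha : a ≤ Real.exp (E / 3))
    (hk : (k + 1 : ℝ) ≤ E / 3) (hE : 5 * E ≤ E') :
    1 ≤ 3 ^ (5 * k + 5) * a ^ 3 ∧ 3 ^ (5 * k + 5) * a ^ 3 ≤ Real.exp E' := by
  refine ⟨one_le_mul_of_one_le_of_one_le (one_le_pow₀ (by norm_num)) (one_le_pow₀ ha1), ?_⟩
  have e3 : (3 : ℝ) ≤ Real.exp 2 := by linarith [Real.add_one_le_exp (2 : ℝ)]
  have : (0 : ℝ) ≤ k := k.cast_nonneg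
  calc _ ≤ Real.exp 2 ^ (5 * k + 5) * Real.exp (E / 3) ^ 3 := by gcongr
    _ ≤ _ := by
      rw [← Real.exp_nat_mul, ← Real.exp_nat_mul, ← Real.exp_add, Real.exp_le_exp]
      push_cast; linarith

set_option maxHeartbeats 1000000 in
lemma separate {m : ℕ} (hκ : 1 ≤ κ) (hx : x.length = n) (hy : y.length = n) (hne : x ≠ y)
    (hn : n + 1 ≤ 2 ^ 2 ^ (m + 1)) :
    ∃ (a : ℝ) (g : List Bool → ℂ), Acc κ⁻¹ κ (3 ^ (m + 2)) (2 * a) g ∧
      2 * (a * (1 + n) ^ (3 ^ (m + 2) - 1)) * (n + 1) ≤ Real.exp (10 ^ 12 * κ * 2 ^ (27 * m)) ∧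
      Real.exp (-(10 ^ 18 * κ * 2 ^ (27 * m))) ≤ ‖g x - g y‖ := by
  have hκ0 : 0 < κ := by linarith
  have h0 : 0 ≤ κ⁻¹ := by positivity
  obtain ⟨ν, hν⟩ : ∃ ν, ν = 2 ^ (m + 1) := ⟨_, rfl⟩
  have hν1 : (1 : ℝ) ≤ ν := by rw [hν]; exact_mod_cast Nat.one_le_two_pow
  rw [← hν] at hn
  obtain ⟨d, hd, h, f, hf, H0⟩ := first_step (κ := κ) h0 hx hy hne
  obtain ⟨Y, hY⟩ : ∃ Y : ℕ → ℝ, Y = fun l => (1 / 2) ^ 2 ^ l / (441 * κ) := ⟨_, rfl⟩
  have Y0 : ∀ l, 0 < Y l := fun l => by rw [hY]; positivity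
  have Y1 : ∀ l, Y (l + 1) = 441 * κ * Y l ^ 2 := fun l => by
    rw [hY]; simp only [pow_succ 2 l, pow_mul]; field_simp
  have Y2 : ∀ l, 441 * κ * Y l ≤ 1 / 2 := fun l => by
    rw [hY, mul_div_cancel₀ _ (by positivity)]
    exact pow_le_of_le_one (by norm_num) (by norm_num) (by positivity)
  have Y3 : ∀ l, Y (l + 1) ≤ Y l := fun l => by
    rw [Y1, sq, ← mul_assoc]
    exact mul_le_of_le_one_left (Y0 l).le (by linarith [Y2 l])
  have Y4 : ∀ l, Y l ≤ κ⁻¹ := fun l => by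
    rw [← one_div, le_div_iff₀ hκ0]
    nlinarith [Y2 l, mul_pos (Y0 l) hκ0]
  have Y5 : ∀ l ≤ m + 1, Y l / Y (l + 1) ≤ 2 ^ ν := fun l hl => by
    rw [Y1, sq, ← mul_assoc, mul_comm, div_mul_cancel_left₀ (Y0 l).ne', hY,
      mul_div_cancel₀ _ (by positivity), one_div, inv_pow, inv_inv, hν]
    exact pow_le_pow_right₀ one_le_two (Nat.pow_le_pow_right two_pos hl)
  have Y6 : Y 0 ≤ 1 := by nlinarith [Y2 0, Y0 0]
  obtain ⟨E0, hE0⟩ : ∃ E0 : ℝ, E0 = 9 * ν + 12 := ⟨_, rfl⟩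
  obtain ⟨A, hA⟩ : ∃ A : ℕ → ℝ, A = fun l => 4800 * 441 * κ * E0 * E0 * (12 * 2 ^ 21) ^ l :=
    ⟨_, rfl⟩
  have hE1 : 1 ≤ E0 := by linarith
  have A0 : 2 * E0 ≤ A 0 := by
    rw [hA]; simp only [pow_zero, mul_one]
    exact mul_le_mul_of_nonneg_right (by nlinarith) (by linarith)
  have A1 : ∀ l, A (l + 1) = 2 ^ 21 * (12 * A l) := fun l => by rw [hA]; simp only [pow_succ]; ring
  have A2 : ∀ l, 3 ^ l * E0 ≤ A l := fun l => by
    induction l with
    | zero => simp; linarith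
    | succ l ih =>
      have : 0 ≤ 3 ^ l * E0 := by positivity
      rw [A1, pow_succ]; linarith
  have A3 : ∀ l, E0 ≤ A l := fun l =>
    (le_mul_of_one_le_left (by linarith) (one_le_pow₀ (by norm_num))).trans (A2 l)
  have K1 : ∀ l, ((3 ^ (l + 2) - 1 : ℕ) + 1 : ℝ) * ν ≤ 12 * A l / 3 := fun l => by
    rw [Nat.cast_sub (Nat.one_le_pow _ _ (by norm_num)), Nat.cast_one, sub_add_cancel]
    push_cast
    have : (0 : ℝ) ≤ 3 ^ l := by positivity
    have := A2 l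
    rw [hE0] at this
    rw [pow_add]
    nlinarith
  have T : ∀ l ≤ m, ∀ σ', 0 ≤ σ' → 2 * σ' ≤ Y (l + 1) ^ 2 / A l → ∃ a g,
      Acc κ⁻¹ κ (3 ^ (l + 2) - 1) a g ∧ 1 ≤ a ∧ a ≤ Real.exp (12 * A l / 3) ∧ ∃ w : ℂ,
      w.re = Y (l + 1) ∧ |w.im| ≤ 41 * Y (l + 1) ∧
      Real.exp (-(12 * A l)) ≤ ‖Wd d σ' w g x - Wd d σ' w g y‖ := by
    intro l
    induction l with
    | zero =>
      intro _ σ' s1 s2
      have e : A 0 = 4800 * 441 * κ * E0 * E0 := by rw [hA]; simp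
      have hM := M_bound (a := 1) (E := E0) (k := 2) hn zero_le_one
        (Real.one_le_exp (by linarith)) (by push_cast; linarith) (by linarith)
      rw [e] at s2 ⊢
      obtain ⟨g, h1, h2⟩ := zoom2 (w0 := E0) (u := Y 0) (X0 := E0) h0 hκ0.le hx hy hd h hf one_le_two
        le_rfl (le_trans (by
          rw [Real.exp_neg, one_div]
          exact inv_anti₀ two_pos (by linarith [Real.add_one_le_exp E0])) (H0 _ E0 (by
            have := Y0 1; positivity) (by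
          have := M_bound (a := 2) (E := E0) (k := 2) hn zero_le_two
            (by linarith [Real.add_one_le_exp (E0 / 3)]) (by push_cast; linarith) (by linarith)
          linarith))) hE1 (by nlinarith) (Y0 _) (Y3 0) (by simp; linarith [Y3 0]) (by simp; linarith)
        (by linarith) hM (N_bound (Y5 0 (by omega)) (by linarith)) (by
          rw [hY]; simp only [ofReal_re]; field_simp; norm_num) s1 s2 (Y4 _) (Y1 0).ge
      have := a_bound (k := 2) (a := 1) (E := E0) (E' := 12 * A 0 / 3) le_rfl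
        (Real.one_le_exp (by linarith)) (by push_cast; linarith) (by linarith)
      rw [e] at this
      exact ⟨_, g, h1, this.1, this.2, h2⟩
    | succ l ih =>
      intro hl σ' s1 s2
      have a3 := A3 l
      obtain ⟨a, g, b1, b2, b3, w, b4, b5, b6⟩ := ih (by omega) (Y (l + 1 + 1) ^ 2 / A (l + 1))
        (div_nonneg (sq_nonneg _) (by linarith [A3 (l + 1)])) (by
          rw [← mul_div_assoc, div_le_div_iff₀ (by linarith [A3 (l + 1)]) (by linarith), A1]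
          have := pow_le_pow_left₀ (Y0 _).le (Y3 (l + 1)) 2
          have : 0 ≤ Y (l + 1 + 1) ^ 2 * A l := mul_nonneg (sq_nonneg _) (by linarith)
          nlinarith)
      rw [A1] at b6 s2 ⊢
      obtain ⟨g', h1, h2⟩ := zoom2 (u := Y (l + 1)) h0 hκ0.le hx hy hd h b1
        (by have := Nat.one_le_pow l 3 (by norm_num); rw [pow_add]; omega) b2 b6 (by linarith)
        (by norm_num) (Y0 _) (Y3 _) (b4 ▸ Y3 _) b5 (by linarith [Y0 (l + 1)])
        (M_bound hn (by linarith) b3 (K1 l) (by linarith))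
        (N_bound (Y5 _ (by omega)) (by linarith)) (by rw [b4]; nlinarith [sq_nonneg (Y (l + 1))])
        s1 s2 (Y4 _) (Y1 _).ge
      have := a_bound (E' := 12 * (2 ^ 21 * (12 * A l)) / 3) b2 b3
        (le_trans (le_mul_of_one_le_right (by positivity) hν1) (K1 l)) (by linarith)
      rw [show 3 * (3 ^ (l + 2) - 1) + 2 = 3 ^ (l + 1 + 2) - 1 by
        have := Nat.one_le_pow l 3 (by norm_num); rw [pow_add, pow_add, pow_add]; omega] at h1
      exact ⟨_, g', h1, this.1, this.2, h2⟩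
  obtain ⟨a, g, b1, b2, b3, w, b4, b5, b6⟩ := T m le_rfl 0 le_rfl (by
    rw [mul_zero]; exact div_nonneg (sq_nonneg _) (by linarith [A3 m]))
  have a3 := A3 m
  have hM := M_bound hn (by linarith) b3 (K1 m) (by linarith)
  have k1 : κ * Y (m + 1) ^ 2 ≤ Y (m + 1) := by
    rw [sq, ← mul_assoc]
    exact mul_le_of_le_one_left (Y0 _).le (by nlinarith [Y2 (m + 1), mul_pos hκ0 (Y0 (m + 1))])
  obtain ⟨G, c1, c2⟩ := last_step h0 hκ0.le hx hy hd h b1 b6 (by linarith) (Y0 _) b4 b5 hM k1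
    (k1.trans (Y4 _)) (by
      refine (mul_le_mul_of_nonneg_right k1 n.cast_nonneg).trans ?_
      have : (n : ℝ) ≤ 2 ^ ν := by exact_mod_cast (Nat.le_succ n).trans hn
      simp only [hY]
      rw [← hν, div_mul_eq_mul_div, div_le_one (by positivity), one_div, inv_pow,
        inv_mul_le_iff₀ (by positivity)]
      exact this.trans (le_mul_of_one_le_right (by positivity) (by linarith)))
  rw [Nat.sub_add_cancel (Nat.one_le_pow _ _ (by norm_num))] at c1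
  have k2 : 12 * A m ≤ 10 ^ 12 * κ * 2 ^ (27 * m) := by
    have e1 : E0 ≤ 30 * 2 ^ m := by
      rw [hE0, hν]; push_cast
      have : (1 : ℝ) ≤ 2 ^ m := one_le_pow₀ one_le_two
      rw [pow_succ]; linarith
    have e2 : (12 * 2 ^ 21 : ℝ) ^ m ≤ (2 ^ 25) ^ m := pow_le_pow_left₀ (by norm_num) (by norm_num) _
    simp only [hA]
    calc _ ≤ 12 * (4800 * 441 * κ * (30 * 2 ^ m) * (30 * 2 ^ m) * (2 ^ 25) ^ m) := by gcongr
      _ = 12 * 4800 * 441 * 900 * (κ * 2 ^ (27 * m)) := by rw [← pow_mul]; ring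
      _ ≤ _ := by
        rw [mul_assoc (10 ^ 12)]
        exact mul_le_mul_of_nonneg_right (by norm_num) (by positivity)
  exact ⟨a, G, c1, hM.trans (Real.exp_le_exp.2 k2), le_trans (Real.exp_le_exp.2 (by linarith)) c2⟩

end Vale.Agent.P321
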