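import Vale.Agent.P321.LeCam
import Vale.Agent.P321.UpIter

/-! From separating statistics to an estimator. -/

namespace Vale.Agent.P321

open Finset

lemma chernoff {ι : Type} [Fintype ι] {w : ι → ℝ} (h0 : ∀ k, 0 ≤ w k) (h1 : ∑ k, w k = 1)
    {Z : ι → ℝ} (hZ : ∀ k, |Z k| ≤ 1) {ε : ℝ} (hε : 0 ≤ ε) (hε1 : ε ≤ 1) (m : ℕ) :
    ∑ S : Fin m → ι, (∏ j, w (S j)) *
      (if m * (∑ k, w k * Z k + ε) ≤ ∑ j, Z (S j) then 1 else 0) ≤ Real.exp (-(m * ε ^ 2 / 16)) := by
  obtain ⟨μ, hμ⟩ : ∃ μ, μ = ∑ k, w k * Z k := ⟨_, rfl⟩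
  have hμ1 : |μ| ≤ 1 := hμ ▸ abs_avg_le h0 h1 hZ
  rw [← hμ]
  have k1 : ∑ k, w k * Real.exp (ε / 8 * (Z k - μ - ε)) ≤ Real.exp (-(ε ^ 2 / 16)) := by
    have k2 : ∀ k, w k * Real.exp (ε / 8 * (Z k - μ - ε)) ≤ Real.exp (-(ε ^ 2 / 8)) *
        (w k * (1 + ε ^ 2 / 16 - ε / 8 * μ) + ε / 8 * (w k * Z k)) := fun k => by
      have a1 : |Z k - μ| ≤ 2 := (abs_sub _ _).trans (by linarith [hZ k])
      have a2 : |ε / 8 * (Z k - μ)| ≤ ε / 4 := by
        rw [abs_mul, abs_of_nonneg (by positivity)]; nlinarith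
      have a3 := (abs_le.1 (Real.abs_exp_sub_one_sub_id_le (a2.trans (by linarith)))).2
      have a4 := pow_le_pow_left₀ (abs_nonneg _) a2 2
      rw [sq_abs] at a4
      rw [show ε / 8 * (Z k - μ - ε) = -(ε ^ 2 / 8) + ε / 8 * (Z k - μ) by ring, Real.exp_add,
        mul_left_comm]
      refine mul_le_mul_of_nonneg_left ?_ (Real.exp_pos _).le
      nlinarith [h0 k]
    refine (sum_le_sum fun k _ => k2 k).trans ?_
    rw [← mul_sum, sum_add_distrib, ← sum_mul, ← mul_sum, h1, ← hμ, show -(ε ^ 2 / 16) =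
      -(ε ^ 2 / 8) + ε ^ 2 / 16 by ring, Real.exp_add]
    exact mul_le_mul_of_nonneg_left (by linarith [Real.add_one_le_exp (ε ^ 2 / 16)])
      (Real.exp_pos _).le
  calc _ ≤ ∑ S : Fin m → ι, ∏ j, (w (S j) * Real.exp (ε / 8 * (Z (S j) - μ - ε))) := by
        refine sum_le_sum fun S _ => ?_
        rw [prod_mul_distrib, ← Real.exp_sum]
        refine mul_le_mul_of_nonneg_left ?_ (prod_nonneg fun j _ => h0 _)
        split_ifs with h
        · refine Real.one_le_exp ?_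
          rw [← mul_sum, sum_sub_distrib, sum_sub_distrib]
          simp only [sum_const, card_univ, Fintype.card_fin, nsmul_eq_mul]
          exact mul_nonneg (by positivity) (by linarith)
        · exact (Real.exp_pos _).le
    _ = (∑ k, w k * Real.exp (ε / 8 * (Z k - μ - ε))) ^ m := by
        rw [← Fintype.piFinset_univ,
          ← prod_univ_sum (f := fun _ k => w k * Real.exp (ε / 8 * (Z k - μ - ε)))]
        simp
    _ ≤ Real.exp (-(ε ^ 2 / 16)) ^ m :=
        pow_le_pow_left₀ (sum_nonneg fun k _ => mul_nonneg (h0 k) (Real.exp_pos _).le) k1 m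
    _ = _ := by rw [← Real.exp_nat_mul]; congr 1; ring

lemma exists_est {q : ℝ} (h0 : 0 ≤ q) (h1 : q ≤ 1) {n m : ℕ} {ε : ℝ} (hε : 0 < ε) (hε1 : ε ≤ 1)
    (hm : 16 * (n + 3) ≤ m * ε ^ 2)
    (H : ∀ x y : Fin n → Bool, x ≠ y → ∃ φ : List Bool → ℝ, (∀ t, t.length ≤ n → |φ t| ≤ 1) ∧
      ∑ S, maskWeight q S * φ (trace y S) + 2 * ε ≤ ∑ S, maskWeight q S * φ (trace x S)) :
    ∃ est : (Fin m → List Bool) → PMF (Fin n → Bool), ∀ x, 2 / 3 ≤ successProb q est x := by
  classical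
  have H' : ∀ x y : Fin n → Bool, ∃ φ : List Bool → ℝ, (∀ t, t.length ≤ n → |φ t| ≤ 1) ∧ (x ≠ y →
      ∑ S, maskWeight q S * φ (trace y S) + 2 * ε ≤ ∑ S, maskWeight q S * φ (trace x S)) :=
    fun x y => by
    by_cases h : x = y
    · exact ⟨0, by simp, fun h' => absurd h h'⟩
    · obtain ⟨φ, a, b⟩ := H x y h
      exact ⟨φ, a, fun _ => b⟩
  choose φ b1 b2 using H'
  have w0 : ∀ S : Fin n → Bool, 0 ≤ maskWeight q S := fun S =>
    prod_nonneg fun i _ => by split_ifs <;> linarith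
  have w1 : ∑ S : Fin n → Bool, maskWeight q S = 1 :=
    sum_prod_one (w := fun c : Bool => if c then 1 - q else q) (by simp) n
  have tl : ∀ x S : Fin n → Bool, (trace x S).length ≤ n := fun x S => by
    rw [trace, List.length_map]
    exact (List.length_filter_le _ _).trans (by simp)
  let P : (Fin n → Bool) → (Fin m → List Bool) → Prop := fun x T => ∀ y,
    ¬m * (∑ S, maskWeight q S * -φ x y (trace x S) + ε) ≤ ∑ j, -φ x y (T j)
  refine ⟨fun T => PMF.pure (if h : ∃ x, P x T then h.choose else default), fun x => ?_⟩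
  have k1 := fun y => chernoff w0 w1 (Z := fun S => -φ x y (trace x S))
    (fun S => by rw [abs_neg]; exact b1 _ _ _ (tl _ _)) hε.le hε1 m
  have k2 := fun y => chernoff w0 w1 (Z := fun S => φ y x (trace x S))
    (fun S => b1 _ _ _ (tl _ _)) hε.le hε1 m
  have k3 := sum_le_sum fun y (_ : y ∈ univ) => add_le_add (k1 y) (k2 y)
  have k4 : ∑ _y : Fin n → Bool, (Real.exp (-(m * ε ^ 2 / 16)) + Real.exp (-(m * ε ^ 2 / 16))) ≤
      1 / 3 := by
    have e2 : (2 : ℝ) ≤ Real.exp 1 := by linarith [Real.add_one_le_exp (1 : ℝ)]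
    have e3 : (2 : ℝ) ^ (n + 3) ≤ Real.exp (m * ε ^ 2 / 16) := by
      refine (pow_le_pow_left₀ zero_le_two e2 _).trans ?_
      rw [← Real.exp_nat_mul, Real.exp_le_exp]; push_cast; linarith
    simp only [sum_const, card_univ, Fintype.card_fun, Fintype.card_bool, Fintype.card_fin,
      nsmul_eq_mul, Real.exp_neg]
    rw [← two_mul, ← mul_assoc, mul_inv_le_iff₀ (Real.exp_pos _)]
    rw [pow_add] at e3
    push_cast
    have : (0 : ℝ) ≤ 2 ^ n := by positivity
    linarith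
  simp only [← sum_add_distrib, ← mul_add] at k3
  rw [sum_comm] at k3
  simp only [← mul_sum] at k3
  refine le_trans (show (2 : ℝ) / 3 ≤ 1 - 1 / 3 by norm_num)
    ((sub_le_sub (sum_prod_one w1 m).ge (k3.trans k4)).trans ?_)
  rw [successProb, ← sum_sub_distrib]
  refine sum_le_sum fun S _ => ?_
  rw [← mul_one_sub]
  refine mul_le_mul_of_nonneg_left ?_ (prod_nonneg fun j _ => w0 _)
  have nn : ∀ (a b : Prop) [Decidable a] [Decidable b],
      (0 : ℝ) ≤ (if a then 1 else 0) + if b then 1 else 0 := fun a b _ _ => by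
    split_ifs <;> norm_num
  by_cases hb : ∃ y, m * (∑ S, maskWeight q S * -φ x y (trace x S) + ε) ≤
      ∑ j, -φ x y (trace x (S j)) ∨
      m * (∑ S, maskWeight q S * φ y x (trace x S) + ε) ≤ ∑ j, φ y x (trace x (S j))
  · obtain ⟨y, hy⟩ := hb
    refine le_trans (sub_nonpos.2 (le_trans ?_ (single_le_sum (fun y _ => nn _ _) (mem_univ y))))
      ENNReal.toReal_nonneg
    rcases hy with h | h <;> rw [if_pos h] <;> split_ifs <;> norm_num
  · push Not at hb
    have p1 : ∃ z, P z fun j => trace x (S j) := ⟨x, fun y => not_le.2 (hb y).1⟩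
    have p2 : p1.choose = x := by
      by_contra hc
      have a1 := not_le.1 (p1.choose_spec x)
      have a2 := (hb p1.choose).2
      have a3 := mul_le_mul_of_nonneg_left (b2 _ _ hc) (m.cast_nonneg (α := ℝ))
      simp only [mul_neg, sum_neg_distrib] at a1
      linarith
    rw [dif_pos p1, p2, PMF.pure_apply_self, ENNReal.toReal_one]
    exact sub_le_self _ (sum_nonneg fun y _ => nn _ _)

lemma sum_trace_re (q : ℝ) (u : ℂ) : ∀ (n : ℕ) (x : Fin n → Bool) (F : List Bool → ℂ),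
    ∑ S, maskWeight q S * (u * F (trace x S)).re = (u * ExT q (List.ofFn x) F).re
  | 0, x, F => by simp [maskWeight, trace, ExT]
  | n + 1, x, F => by
    have := sum_cons (fun c : Bool => if c then 1 - q else q) n fun S => (u * F (trace x S)).re
    unfold maskWeight
    rw [this, List.ofFn_succ, ExT, Fintype.sum_bool]
    have k1 := sum_trace_re q u n (fun i => x i.succ) F
    have k2 := sum_trace_re q u n (fun i => x i.succ) fun t => F (x 0 :: t)
    unfold maskWeight at k1 k2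
    simp only [trace_cons, if_true, Bool.false_eq_true, if_false, List.nil_append,
      List.singleton_append, k1, k2]
    rw [mul_add, mul_left_comm, mul_left_comm u, ← Complex.ofReal_one, ← Complex.ofReal_sub,
      Complex.add_re, Complex.re_ofReal_mul, Complex.re_ofReal_mul, add_comm]

lemma exists_stat {q : ℝ} (h0 : 0 ≤ q) (h1 : q < 1) {n m : ℕ} (hn : n + 1 ≤ 2 ^ 2 ^ (m + 1))
    (x y : Fin n → Bool) (hne : x ≠ y) : ∃ φ : List Bool → ℝ, (∀ t, t.length ≤ n → |φ t| ≤ 1) ∧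
      ∑ S, maskWeight q S * φ (trace y S) +
        2 * Real.exp (-(10 ^ 20 / (1 - q) ^ 2 * 2 ^ (29 * m))) ≤
        ∑ S, maskWeight q S * φ (trace x S) := by
  have hp : 0 < 1 - q := by linarith
  obtain ⟨κ, hκ⟩ : ∃ κ : ℝ, κ = (3 ^ (m + 2) : ℕ) / (1 - q) := ⟨_, rfl⟩
  have hk1 : (1 : ℝ) ≤ (3 ^ (m + 2) : ℕ) := by exact_mod_cast Nat.one_le_pow _ _ (by norm_num)
  have hκ1 : 1 ≤ κ := by rw [hκ, le_div_iff₀ hp]; linarith
  obtain ⟨a, g, a1, a2, a3⟩ := separate (n := n) hκ1 (List.length_ofFn (f := x))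
    (List.length_ofFn (f := y)) (fun e => hne (List.ofFn_injective e)) hn
  obtain ⟨F, e, b⟩ := a1.access (by positivity) h1 fun D hD => hD.disc h0 h1
    (le_of_eq (by rw [hκ]; field_simp)) (le_of_eq (by rw [hκ]; field_simp)) (by linarith)
  obtain ⟨L, hL⟩ : ∃ L : ℝ, L = κ * 2 ^ (27 * m) := ⟨_, rfl⟩
  have hL1 : κ ≤ L := hL ▸ le_mul_of_one_le_right (by linarith) (one_le_pow₀ one_le_two)
  rw [mul_assoc (10 ^ 12), ← hL] at a2
  rw [mul_assoc (10 ^ 18), ← hL] at a3
  have b2 : ∀ t : List Bool, t.length ≤ n → ‖F t‖ ≤ Real.exp (10 ^ 13 * L) := fun t ht => by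
    have ha : 0 ≤ 2 * a := a1.nonneg
    have c1 : 1 + (t.length : ℝ) / (1 - q) ≤ (1 + n) * Real.exp (1 / (1 - q)) := by
      have : (t.length : ℝ) ≤ n := by exact_mod_cast ht
      have c2 : 1 ≤ 1 / (1 - q) := by rw [le_div_iff₀ hp]; linarith
      have c3 := Real.add_one_le_exp (1 / (1 - q))
      have c4 : (t.length : ℝ) / (1 - q) ≤ n * Real.exp (1 / (1 - q)) := by
        rw [div_eq_mul_one_div]; gcongr; linarith
      linarith
    calc _ ≤ 2 * a * ((1 + n) * Real.exp (1 / (1 - q))) ^ 3 ^ (m + 2) :=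
          (b t).trans (by gcongr)
      _ = 2 * (a * (1 + n) ^ (3 ^ (m + 2) - 1)) * (n + 1) * Real.exp κ := by
          rw [mul_pow, ← Real.exp_nat_mul, hκ, mul_one_div]
          conv_lhs => rw [← Nat.sub_add_cancel (Nat.one_le_pow (m + 2) 3 (by norm_num)), pow_succ]
          rw [Nat.sub_add_cancel (Nat.one_le_pow (m + 2) 3 (by norm_num))]
          ring
      _ ≤ Real.exp (10 ^ 12 * L) * Real.exp κ := by gcongr
      _ ≤ _ := by rw [← Real.exp_add, Real.exp_le_exp]; linarith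
  obtain ⟨D, hD⟩ : ∃ D, D = g (List.ofFn x) - g (List.ofFn y) := ⟨_, rfl⟩
  rw [← hD] at a3
  have hD0 : 0 < ‖D‖ := (Real.exp_pos _).trans_le a3
  refine ⟨fun t => (((‖D‖ * Real.exp (10 ^ 13 * L))⁻¹ : ℝ) * (starRingEnd ℂ) D * F t).re,
    fun t ht => (Complex.abs_re_le_norm _).trans ?_, ?_⟩
  · rw [norm_mul, norm_mul, RCLike.norm_conj, Complex.norm_real, Real.norm_of_nonneg (by positivity),
      mul_assoc, inv_mul_le_iff₀ (by positivity), mul_one]
    exact mul_le_mul_of_nonneg_left (b2 t ht) hD0.le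
  · rw [sum_trace_re, sum_trace_re, e, e, ← le_sub_iff_add_le', ← Complex.sub_re, ← mul_sub, ← hD,
      mul_assoc, Complex.conj_mul', ← Complex.ofReal_pow, ← Complex.ofReal_mul, Complex.ofReal_re,
      show (‖D‖ * Real.exp (10 ^ 13 * L))⁻¹ * ‖D‖ ^ 2 = ‖D‖ * Real.exp (-(10 ^ 13 * L)) by
        rw [Real.exp_neg]; field_simp]
    refine le_trans ?_ (mul_le_mul_of_nonneg_right a3 (Real.exp_pos _).le)
    have c1 : L ≤ 9 / (1 - q) ^ 2 * 2 ^ (29 * m) := by
      have c2 : (3 : ℝ) ^ m ≤ (2 ^ 2) ^ m := pow_le_pow_left₀ (by norm_num) (by norm_num) m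
      have c3 : 1 / (1 - q) ≤ 1 / (1 - q) ^ 2 :=
        one_div_le_one_div_of_le (by positivity) (by nlinarith)
      calc L = 9 * (1 / (1 - q)) * (3 ^ m * 2 ^ (27 * m)) := by rw [hL, hκ]; push_cast; ring
        _ ≤ 9 * (1 / (1 - q) ^ 2) * ((2 ^ 2) ^ m * 2 ^ (27 * m)) := by gcongr
        _ = _ := by rw [← pow_mul]; ring
    rw [← Real.exp_add]
    calc _ ≤ Real.exp 1 * Real.exp _ := mul_le_mul_of_nonneg_right
          (by linarith [Real.add_one_le_exp (1 : ℝ)]) (Real.exp_pos _).le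
      _ ≤ _ := by
        rw [← Real.exp_add, Real.exp_le_exp, show 10 ^ 20 / (1 - q) ^ 2 * 2 ^ (29 * m) =
          10 ^ 20 / 9 * (9 / (1 - q) ^ 2 * 2 ^ (29 * m)) by ring]
        linarith

end Vale.Agent.P321
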