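import Vale.Agent.P321.UpEst

/-! The quasi-polynomial upper bound. -/

namespace Vale.Agent.P321

open Finset

lemma level_exists {n : ℕ} (hn : 1 ≤ Real.log n) :
    ∃ m : ℕ, n + 1 ≤ 2 ^ 2 ^ (m + 1) ∧ (2 : ℝ) ^ m ≤ 3 * Real.log n := by
  have n0 : n ≠ 0 := by rintro rfl; norm_num at hn
  refine ⟨Nat.log 2 (Nat.log 2 n + 1), ?_, ?_⟩
  · exact (Nat.lt_pow_succ_log_self one_lt_two n).trans_le
      (Nat.pow_le_pow_right two_pos (Nat.lt_pow_succ_log_self one_lt_two _).le)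
  · have a1 : (2 : ℝ) ^ Nat.log 2 (Nat.log 2 n + 1) ≤ Nat.log 2 n + 1 := by
      exact_mod_cast Nat.pow_log_le_self 2 (Nat.succ_ne_zero _)
    have a2 : (2 : ℝ) ^ Nat.log 2 n ≤ n := by exact_mod_cast Nat.pow_log_le_self 2 n0
    have a3 := Real.log_le_log (by positivity) a2
    rw [Real.log_pow] at a3
    have a4 := Real.log_two_gt_d9
    have a5 : (0 : ℝ) ≤ Nat.log 2 n := Nat.cast_nonneg _
    nlinarith

lemma size_bound {K l t : ℝ} {n : ℕ} (hK : 0 ≤ K) (hn : 0 < n) (hl : l = Real.log n)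
    (h1 : 6 + 2 * K * 3 ^ 29 ≤ l) (t0 : 0 ≤ t) (ht : t ≤ 3 * l) :
    16 * (n + 3) / Real.exp (-(K * t ^ 29)) ^ 2 + 1 ≤ Real.exp (l ^ 30) := by
  have hn1 : (1 : ℝ) ≤ n := by exact_mod_cast hn
  obtain ⟨B, hB⟩ : ∃ B : ℝ, B = 2 * K * 3 ^ 29 := ⟨_, rfl⟩
  have B0 : 0 ≤ B := by rw [hB]; positivity
  have b1 : 2 * (K * t ^ 29) ≤ B * l ^ 29 := by
    have := mul_le_mul_of_nonneg_left (pow_le_pow_left₀ t0 ht 29) hK
    rw [mul_pow] at this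
    rw [hB]; linarith
  rw [← hB] at h1
  clear hB
  have l1 : 1 ≤ l := by linarith
  have b2 : l ≤ l ^ 29 := le_self_pow₀ l1 (by norm_num)
  have b3 : 5 + l + 2 * (K * t ^ 29) ≤ l ^ 30 := by
    rw [pow_succ]
    nlinarith
  have b4 : (1 : ℝ) ≤ Real.exp (2 * (K * t ^ 29)) := Real.one_le_exp (by positivity)
  have b5 : (65 : ℝ) ≤ Real.exp 5 := by
    have := Real.exp_one_gt_d9
    have h : Real.exp 5 = Real.exp 1 ^ 5 := by rw [← Real.exp_nat_mul]; norm_num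
    rw [h]
    exact le_trans (by norm_num) (pow_le_pow_left₀ (by norm_num) this.le 5)
  refine le_trans ?_ (Real.exp_le_exp.2 b3)
  rw [← Real.exp_nat_mul, div_eq_mul_inv, ← Real.exp_neg, Real.exp_add, Real.exp_add, hl,
    Real.exp_log (by linarith)]
  have e : -((2 : ℕ) * -(K * t ^ 29)) = 2 * (K * t ^ 29) := by push_cast; ring
  rw [e]
  have := mul_le_mul_of_nonneg_right b5 (show 0 ≤ n * Real.exp (2 * (K * t ^ 29)) by positivity)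
  nlinarith

theorem upper_bound {q : ℝ} (h0 : 0 ≤ q) (h1 : q < 1) : ∃ N : ℕ, ∀ n ≥ N, ∃ m : ℕ,
    ∃ est : (Fin m → List Bool) → PMF (Fin n → Bool),
      (m : ℝ) ≤ Real.exp (Real.log n ^ 30) ∧ ∀ x, 2 / 3 ≤ successProb q est x := by
  obtain ⟨K, hK⟩ : ∃ K : ℝ, K = 10 ^ 20 / (1 - q) ^ 2 := ⟨_, rfl⟩
  have K0 : 0 ≤ K := by rw [hK]; positivity
  have := (Real.tendsto_log_atTop.comp tendsto_natCast_atTop_atTop).eventually_ge_atTop
    (6 + 2 * K * 3 ^ 29)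
  obtain ⟨N, hN⟩ := Filter.eventually_atTop.1 this
  refine ⟨N, fun n hn => ?_⟩
  have a1 : 6 + 2 * K * 3 ^ 29 ≤ Real.log n := hN n hn
  have a2 : 1 ≤ Real.log n := le_trans (by linarith [mul_nonneg K0 (show (0 : ℝ) ≤ 2 * 3 ^ 29 by
    positivity)]) a1
  have n0 : 0 < n := Nat.pos_of_ne_zero (by rintro rfl; norm_num at a2)
  obtain ⟨k, k1, k2⟩ := level_exists a2
  have a3 := size_bound K0 n0 rfl a1 (by positivity) k2
  have a4 := exists_stat h0 h1 k1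
  rw [← hK, mul_comm 29, pow_mul] at a4
  obtain ⟨ε, hε⟩ : ∃ ε : ℝ, ε = Real.exp (-(K * (2 ^ k) ^ 29)) := ⟨_, rfl⟩
  have e0 : 0 < ε := hε ▸ Real.exp_pos _
  have e1 : ε ≤ 1 := hε ▸ Real.exp_le_one_iff.2 (neg_nonpos.2 (by positivity))
  rw [← hε] at a3 a4
  obtain ⟨est, he⟩ := exists_est (m := ⌈16 * (n + 3) / ε ^ 2⌉₊) h0 h1.le e0 e1
    ((div_le_iff₀ (pow_pos e0 2)).1 (Nat.le_ceil _)) a4
  exact ⟨_, est, (Nat.ceil_lt_add_one (by positivity)).le.trans a3, he⟩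

end Vale.Agent.P321
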