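import Mathlib

/-! A Gaussian window is a mixture of low-frequency exponentials. -/

namespace Vale.Agent.P321

open Complex MeasureTheory Finset

lemma gauss_mix {J : Type} (s : Finset J) (t : J → ℝ) (c : J → ℂ) {σ X B : ℝ} (lam : ℝ)
    (hσ : 0 < σ) (hX : 0 ≤ X)
    (H : ∀ θ : ℝ, |θ| ≤ X → ‖∑ j ∈ s, c j * exp (θ * t j * I)‖ ≤ B) :
    ‖∑ j ∈ s, c j * exp ((-σ * t j ^ 2 + lam * t j : ℝ))‖ ≤
      Real.exp (lam ^ 2 / (4 * σ)) *
        (B + 2 * Real.exp (-X ^ 2 / (8 * σ)) * ∑ j ∈ s, ‖c j‖) := by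
  have hB : 0 ≤ B := (norm_nonneg _).trans (H 0 (by simpa using hX))
  set S := ∑ j ∈ s, ‖c j‖ with hS
  have hS0 : 0 ≤ S := sum_nonneg fun _ _ => norm_nonneg _
  set β : ℝ := 1 / (4 * σ) with hβ
  have hβ0 : 0 < β := by positivity
  set c0 : ℝ := lam / (2 * σ) with hc0
  have hre : (-(β : ℂ)).re < 0 := by simpa using hβ0
  have hσ' : (σ : ℂ) ≠ 0 := by exact_mod_cast hσ.ne'
  have hsq : 0 < √(Real.pi / β) := Real.sqrt_pos.2 (by positivity)
  have e1 : ∀ j, ∫ θ : ℝ, exp (-(β : ℂ) * θ ^ 2 + ((t j - c0 : ℝ) * I) * θ + 0) =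
      (√(Real.pi / β) : ℝ) * exp (-(lam ^ 2 / (4 * σ) : ℝ)) *
        exp ((-σ * t j ^ 2 + lam * t j : ℝ)) := by
    intro j
    rw [integral_cexp_quadratic hre, neg_neg, mul_assoc, ← Complex.exp_add, Real.sqrt_eq_rpow,
      ofReal_cpow (by positivity)]
    congr 1
    · push_cast; rfl
    · congr 1
      rw [hβ, hc0]
      push_cast
      rw [mul_pow, I_sq]
      field_simp
      ring
  have e2 : (√(Real.pi / β) : ℝ) * exp (-(lam ^ 2 / (4 * σ) : ℝ)) *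
      ∑ j ∈ s, c j * exp ((-σ * t j ^ 2 + lam * t j : ℝ)) =
      ∫ θ : ℝ, exp (-(β : ℂ) * θ ^ 2 - (c0 * θ : ℝ) * I) * ∑ j ∈ s, c j * exp (θ * t j * I) := by
    rw [mul_sum]
    simp_rw [mul_sum]
    rw [integral_finsetSum]
    · refine sum_congr rfl fun j _ => ?_
      rw [mul_left_comm, ← e1, ← integral_const_mul]
      congr 1; funext θ
      rw [mul_left_comm, ← Complex.exp_add]
      congr 2; push_cast; ring
    · intro j _
      refine ((integrable_cexp_quadratic' hre ((t j - c0 : ℝ) * I) 0).const_mul (c j)).congr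
        (ae_of_all _ fun θ => ?_)
      simp only
      rw [mul_left_comm _ (c j), ← Complex.exp_add]
      congr 2; push_cast; ring
  have e3 := norm_integral_le_of_norm_le (μ := volume)
    (f := fun θ : ℝ => exp (-(β : ℂ) * θ ^ 2 - (c0 * θ : ℝ) * I) *
      ∑ j ∈ s, c j * exp (θ * t j * I))
    (((integrable_exp_neg_mul_sq hβ0).const_mul B).add
      ((integrable_exp_neg_mul_sq (half_pos hβ0)).const_mul (Real.exp (-X ^ 2 / (8 * σ)) * S)))
    (ae_of_all _ fun θ => by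
      have h1 : ‖exp (-(β : ℂ) * θ ^ 2 - (c0 * θ : ℝ) * I)‖ = Real.exp (-β * θ ^ 2) := by
        rw [norm_exp]; congr 1; simp [← ofReal_pow]
      rw [norm_mul, h1]
      simp only [Pi.add_apply]
      have p1 := Real.exp_pos (-β * θ ^ 2)
      rcases le_or_gt |θ| X with h | h
      · have := mul_le_mul_of_nonneg_left (H θ h) p1.le
        have : 0 ≤ Real.exp (-X ^ 2 / (8 * σ)) * S * Real.exp (-(β / 2) * θ ^ 2) := by positivity
        linarith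
      · have h2 : ‖∑ j ∈ s, c j * exp (θ * t j * I)‖ ≤ S := by
          refine (norm_sum_le _ _).trans (le_of_eq (sum_congr rfl fun j _ => ?_))
          rw [norm_mul, ← ofReal_mul, norm_exp_ofReal_mul_I, mul_one]
        have h3 : Real.exp (-β * θ ^ 2) ≤
            Real.exp (-X ^ 2 / (8 * σ)) * Real.exp (-(β / 2) * θ ^ 2) := by
          rw [← Real.exp_add, Real.exp_le_exp]
          have h4 : X ^ 2 ≤ θ ^ 2 := by
            rw [← sq_abs θ]; exact pow_le_pow_left₀ hX h.le 2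
          have h5 : -X ^ 2 / (8 * σ) = -(β / 2) * X ^ 2 := by rw [hβ]; field_simp; ring
          nlinarith
        have := mul_le_mul h3 h2 (norm_nonneg _) (by positivity)
        have : 0 ≤ B * Real.exp (-β * θ ^ 2) := by positivity
        linarith)
  rw [← e2, integral_add' ((integrable_exp_neg_mul_sq hβ0).const_mul B)
    ((integrable_exp_neg_mul_sq (half_pos hβ0)).const_mul _), integral_const_mul,
    integral_const_mul, integral_gaussian, integral_gaussian, norm_mul, norm_mul, norm_real,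
    Real.norm_of_nonneg hsq.le, ← ofReal_neg, norm_exp_ofReal, Real.exp_neg] at e3
  have e4 : √(Real.pi / (β / 2)) ≤ 2 * √(Real.pi / β) := by
    rw [show (2 : ℝ) * √(Real.pi / β) = √(2 ^ 2 * (Real.pi / β)) by
      rw [Real.sqrt_mul (by norm_num), Real.sqrt_sq zero_le_two]]
    refine Real.sqrt_le_sqrt ?_
    rw [div_div_eq_mul_div, mul_div_right_comm]
    have : 0 < Real.pi / β := by positivity
    linarith
  rw [← inv_mul_le_iff₀ (Real.exp_pos _)]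
  refine le_of_mul_le_mul_left ?_ hsq
  have := mul_le_mul_of_nonneg_left e4
    (show 0 ≤ Real.exp (-X ^ 2 / (8 * σ)) * S by positivity)
  linarith

lemma gauss_mix' {J : Type} (s : Finset J) (t : J → ℝ) (c : J → ℂ) {σ σ0 X B S : ℝ} (lam : ℝ)
    (hσ : 0 < σ) (hσ0 : σ ≤ σ0) (hX : 0 ≤ X) (hS : ∑ j ∈ s, ‖c j‖ ≤ S)
    (H : ∀ θ : ℝ, |θ| ≤ X → ‖∑ j ∈ s, c j * exp (θ * t j * I)‖ ≤ B) :
    ‖∑ j ∈ s, c j * exp ((-σ * t j ^ 2 + lam * t j : ℝ))‖ ≤
      Real.exp (lam ^ 2 / (4 * σ)) * (B + 2 * Real.exp (-X ^ 2 / (8 * σ0)) * S) := by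
  refine (gauss_mix s t c lam hσ hX H).trans ?_
  have : Real.exp (-X ^ 2 / (8 * σ)) ≤ Real.exp (-X ^ 2 / (8 * σ0)) := by
    rw [Real.exp_le_exp, neg_div, neg_div, neg_le_neg_iff]
    gcongr
  gcongr

lemma norm_gauss_le {σ : ℝ} (hσ : 0 < σ) (lam t : ℝ) :
    ‖exp ((-σ * t ^ 2 + lam * t : ℝ))‖ ≤ Real.exp (lam ^ 2 / (4 * σ)) := by
  rw [norm_exp_ofReal, Real.exp_le_exp, le_div_iff₀ (by positivity)]
  nlinarith [sq_nonneg (lam - 2 * σ * t)]

lemma gauss_mix3 {J : Type} (s : Finset J) (t1 t2 t3 : J → ℝ) (c : J → ℂ)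
    {σ1 σ X B S : ℝ} (l1 l2 l3 : ℝ) (hσ1 : 0 < σ1) (hσ : σ1 ≤ σ) (hX : 0 ≤ X)
    (hS : ∑ j ∈ s, ‖c j‖ ≤ S)
    (H : ∀ θ1 θ2 θ3 : ℝ, |θ1| ≤ X → |θ2| ≤ X → |θ3| ≤ X → ‖∑ j ∈ s,
      c j * exp (θ3 * t3 j * I) * exp (θ2 * t2 j * I) * exp (θ1 * t1 j * I)‖ ≤ B) :
    ‖∑ j ∈ s, c j * exp ((-σ1 * t1 j ^ 2 + l1 * t1 j : ℝ)) * exp ((-σ * t2 j ^ 2 + l2 * t2 j : ℝ)) *
      exp ((-σ * t3 j ^ 2 + l3 * t3 j : ℝ))‖ ≤
      Real.exp (l1 ^ 2 / (4 * σ1) + l2 ^ 2 / (4 * σ) + l3 ^ 2 / (4 * σ)) *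
        (B + 6 * Real.exp (-X ^ 2 / (8 * σ)) * S) := by
  have hσ0 : 0 < σ := hσ1.trans_le hσ
  have u1 : ∀ θ t : ℝ, ‖exp (θ * t * I)‖ = 1 := fun θ t => by
    rw [← ofReal_mul, norm_exp_ofReal_mul_I]
  set E1 := Real.exp (l1 ^ 2 / (4 * σ1))
  set E2 := Real.exp (l2 ^ 2 / (4 * σ))
  set T := Real.exp (-X ^ 2 / (8 * σ))
  have k1 : ∀ θ2 θ3 : ℝ, |θ2| ≤ X → |θ3| ≤ X → ‖∑ j ∈ s, c j * exp (θ3 * t3 j * I) *
      exp ((-σ1 * t1 j ^ 2 + l1 * t1 j : ℝ)) * exp (θ2 * t2 j * I)‖ ≤ E1 * (B + 2 * T * S) :=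
    fun θ2 θ3 h2 h3 => by
    have := gauss_mix' s t1 (fun j => c j * exp (θ3 * t3 j * I) * exp (θ2 * t2 j * I)) l1 hσ1 hσ hX
      (S := S) (by simpa only [norm_mul, u1, mul_one] using hS) fun θ h => H θ θ2 θ3 h h2 h3
    simpa only [mul_right_comm _ (exp (θ2 * _ * I))] using this
  have k2 : ∀ θ3 : ℝ, |θ3| ≤ X → ‖∑ j ∈ s, c j * exp ((-σ1 * t1 j ^ 2 + l1 * t1 j : ℝ)) *
      exp ((-σ * t2 j ^ 2 + l2 * t2 j : ℝ)) * exp (θ3 * t3 j * I)‖ ≤
      E2 * (E1 * (B + 2 * T * S) + 2 * T * (E1 * S)) := fun θ3 h3 => by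
    have := gauss_mix' s t2 (fun j => c j * exp (θ3 * t3 j * I) *
      exp ((-σ1 * t1 j ^ 2 + l1 * t1 j : ℝ))) l2 hσ0 le_rfl hX (S := E1 * S) (by
        refine le_trans (sum_le_sum fun j _ => ?_) ((mul_sum s _ E1).ge.trans
          (mul_le_mul_of_nonneg_left hS (Real.exp_pos _).le))
        rw [norm_mul, norm_mul, u1, mul_one, mul_comm]
        exact mul_le_mul_of_nonneg_right (norm_gauss_le hσ1 _ _) (norm_nonneg _))
      fun θ h => k1 θ θ3 h h3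
    simpa only [mul_right_comm _ (exp (θ3 * _ * I))] using this
  refine (gauss_mix' s t3 _ l3 hσ0 le_rfl hX (S := E2 * (E1 * S)) ?_ k2).trans (le_of_eq ?_)
  · refine le_trans (sum_le_sum fun j _ => ?_) ((mul_sum s _ (E2 * E1)).ge.trans
      ((mul_le_mul_of_nonneg_left hS (by positivity)).trans (mul_assoc _ _ _).le))
    rw [norm_mul, norm_mul, mul_assoc, mul_comm, mul_comm E2]
    exact mul_le_mul_of_nonneg_right (mul_le_mul (norm_gauss_le hσ1 _ _) (norm_gauss_le hσ0 _ _)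
      (norm_nonneg _) (Real.exp_pos _).le) (norm_nonneg _)
  · rw [Real.exp_add, Real.exp_add]; ring

end Vale.Agent.P321
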