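import Mathlib

/-! A two-constants estimate in the right half-plane, and approximate characters. -/

namespace Vale.Agent.P321

open Complex Finset Filter

noncomputable def bar (β x : ℝ) (w : ℂ) : ℂ :=
  (w + β + x * I)⁻¹ - 1 / 2 * (w + 4 * β + x * I)⁻¹

lemma bar_re (β x : ℝ) (w : ℂ) : (bar β x w).re =
    (w.re + β) / ((w.re + β) ^ 2 + (w.im + x) ^ 2) -
      1 / 2 * ((w.re + 4 * β) / ((w.re + 4 * β) ^ 2 + (w.im + x) ^ 2)) := by
  have : (1 / 2 : ℂ) = (1 / 2 : ℝ) := by push_cast; rfl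
  rw [bar, sub_re, this, re_ofReal_mul, inv_re, inv_re, normSq_apply, normSq_apply]
  simp [sq]

lemma bar_re_le {β : ℝ} (hβ : 0 < β) (x : ℝ) {w : ℂ} (hw : 0 ≤ w.re) : (bar β x w).re ≤ 1 / β := by
  rw [bar_re]
  have h1 : (w.re + β) / ((w.re + β) ^ 2 + (w.im + x) ^ 2) ≤ 1 / β := by
    rw [div_le_div_iff₀ (by positivity) hβ]
    nlinarith [sq_nonneg (w.im + x), mul_nonneg hw hβ.le, sq_nonneg w.re]
  have h2 : 0 ≤ (w.re + 4 * β) / ((w.re + 4 * β) ^ 2 + (w.im + x) ^ 2) := by positivity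
  linarith

lemma bar_re_nonpos {β : ℝ} (hβ : 0 < β) {x : ℝ} {w : ℂ} (hw : w.re = 0)
    (h : 4 * β ≤ |w.im + x|) : (bar β x w).re ≤ 0 := by
  rw [bar_re, hw, zero_add, zero_add, sub_nonpos, ← mul_div_assoc,
    div_le_div_iff₀ (by positivity) (by positivity)]
  have := pow_le_pow_left₀ (by positivity) h 2
  rw [sq_abs] at this
  nlinarith [sq_nonneg β, mul_pos hβ hβ]

lemma le_bar_re {β X : ℝ} (hβ : 0 < β) {x : ℝ} {w : ℂ} (hw : 8 * β ≤ w.re)
    (h : |w.im + x| ≤ 2 * X) : 3 * w.re / (32 * (w.re ^ 2 + X ^ 2)) ≤ (bar β x w).re := by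
  have h0 : 0 < w.re := by linarith
  have := pow_le_pow_left₀ (abs_nonneg _) h 2
  rw [sq_abs] at this
  have h1 : (w.re + 4 * β) / ((w.re + 4 * β) ^ 2 + (w.im + x) ^ 2) ≤
      (w.re + 4 * β) / ((w.re + β) ^ 2 + (w.im + x) ^ 2) := by
    gcongr; linarith
  have h2 : 3 * w.re / (32 * (w.re ^ 2 + X ^ 2)) ≤
      (3 / 8 * w.re) / ((w.re + β) ^ 2 + (w.im + x) ^ 2) := by
    rw [div_le_div_iff₀ (by positivity) (by positivity)]
    have : (w.re + β) ^ 2 + (w.im + x) ^ 2 ≤ 4 * (w.re ^ 2 + X ^ 2) := by nlinarith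
    nlinarith
  have h3 : (3 / 8 * w.re) / ((w.re + β) ^ 2 + (w.im + x) ^ 2) ≤
      (w.re + β - 1 / 2 * (w.re + 4 * β)) / ((w.re + β) ^ 2 + (w.im + x) ^ 2) := by
    gcongr; linarith
  rw [sub_div, mul_div_assoc (1 / 2 : ℝ)] at h3
  rw [bar_re]
  linarith

lemma two_const {J : Type} (s : Finset J) (t : J → ℝ) (ht : ∀ j ∈ s, 0 ≤ t j) (c : J → ℂ)
    {M A b X : ℝ} (hM : ∑ j ∈ s, ‖c j‖ ≤ M) (hA : 0 ≤ A) (hb : 0 < b) (B : Finset ℕ)
    (hB : ∀ j ∈ B, ∀ ω : ℝ, j * b ≤ ω → ω ≤ (j + 1) * b →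
      ‖∑ i ∈ s, c i * exp (ω * t i * I)‖ ≤ M * Real.exp (-A))
    (hX : ∀ j ∈ B, (j + 1) * b ≤ X) {w : ℂ} (hw : b ≤ w.re) (hw' : |w.im| ≤ X) :
    ‖∑ i ∈ s, c i * exp (-w * t i)‖ ≤
      M * Real.exp (-(A * B.card * b * w.re / (100 * (w.re ^ 2 + X ^ 2)))) := by
  set β := b / 8 with hβ
  have hβ0 : 0 < β := by positivity
  have hM0 : 0 ≤ M := (sum_nonneg fun _ _ => norm_nonneg _).trans hM
  set Φ : ℂ → ℂ := fun z => ∑ i ∈ s, c i * exp (-z * t i) with hΦ
  set U : ℂ → ℂ := fun z => ∑ j ∈ B, bar β ((j + 1 / 2) * b) z with hU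
  have hΦM : ∀ z : ℂ, 0 ≤ z.re → ‖Φ z‖ ≤ M := fun z hz => by
    refine (norm_sum_le _ _).trans (le_trans (sum_le_sum fun i hi => ?_) hM)
    rw [norm_mul, norm_exp]
    refine mul_le_of_le_one_right (norm_nonneg _) (Real.exp_le_one_iff.2 ?_)
    simpa using mul_nonneg hz (ht i hi)
  have hn : ∀ z, ‖Φ z * exp ((A * β : ℝ) * U z)‖ = ‖Φ z‖ * Real.exp (A * β * (U z).re) :=
    fun z => by rw [norm_mul, norm_exp, re_ofReal_mul]
  have hbd : ∀ z : ℂ, 0 ≤ z.re → ‖Φ z * exp ((A * β : ℝ) * U z)‖ ≤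
      M * Real.exp (A * β * (B.card * (1 / β))) := fun z hz => by
    rw [hn]
    refine mul_le_mul (hΦM z hz) (Real.exp_le_exp.2 (mul_le_mul_of_nonneg_left ?_
      (by positivity))) (Real.exp_pos _).le hM0
    rw [hU, re_sum]
    exact (sum_le_card_nsmul _ _ _ fun j _ => bar_re_le hβ0 _ hz).trans (nsmul_eq_mul _ _).le
  have hd : DifferentiableOn ℂ (fun z => Φ z * exp ((A * β : ℝ) * U z)) {z | 0 ≤ z.re} := by
    refine DifferentiableOn.mul (by rw [hΦ]; fun_prop) (DifferentiableOn.cexp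
      (DifferentiableOn.const_mul (DifferentiableOn.fun_sum fun j _ => ?_) _))
    refine DifferentiableOn.sub (DifferentiableOn.inv (by fun_prop) fun z hz h => ?_)
      (DifferentiableOn.const_mul (DifferentiableOn.inv (by fun_prop) fun z hz h => ?_) _)
    · have := congrArg re h
      have hz' : 0 ≤ z.re := hz
      simp at this; linarith
    · have := congrArg re h
      have hz' : 0 ≤ z.re := hz
      simp at this; linarith
  have H := PhragmenLindelof.right_half_plane_of_bounded_on_real (C := M) (z := w)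
    (f := fun z => Φ z * exp ((A * β : ℝ) * U z))
    (by
      refine DifferentiableOn.diffContOnCl ?_
      rw [closure_setOfPred_lt_re]; exact hd)
    ⟨0, two_pos, 0, Asymptotics.IsBigO.of_bound (M * Real.exp (A * β * (B.card * (1 / β)))) (by
      rw [eventually_inf_principal]
      exact Eventually.of_forall fun z hz => by simpa using hbd z (le_of_lt hz))⟩
    (isBoundedUnder_of_eventually_le ((eventually_ge_atTop 0).mono fun x hx =>
      hbd x (by simpa using hx)))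
    (fun x => by
      rw [hn]
      have hre : ((x : ℂ) * I).re = 0 := by simp
      have him : ((x : ℂ) * I).im = x := by simp
      by_cases h : ∃ j ∈ B, |x + (j + 1 / 2) * b| < b / 2
      · obtain ⟨j, hj, h⟩ := h
        have h' := abs_lt.1 h
        have k1 := hB j hj (-x) (by linarith) (by linarith)
        have k2 : (U (x * I)).re ≤ 1 / β := by
          rw [hU, re_sum, ← add_sum_erase _ _ hj]
          have := bar_re_le hβ0 ((j + 1 / 2) * b) hre.ge
          have : ∑ i ∈ B.erase j, (bar β ((i + 1 / 2) * b) (x * I)).re ≤ 0 := by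
            refine sum_nonpos fun i hi => bar_re_nonpos hβ0 hre ?_
            rw [him, le_abs]
            rcases lt_or_gt_of_ne (ne_of_mem_erase hi) with h1 | h1
            · have : (i : ℝ) + 1 ≤ j := by exact_mod_cast h1
              right; nlinarith
            · have : (j : ℝ) + 1 ≤ i := by exact_mod_cast h1
              left; nlinarith
          linarith
        have k3 : Φ (x * I) = ∑ i ∈ s, c i * exp ((-x : ℝ) * t i * I) :=
          sum_congr rfl fun i _ => by congr 2; push_cast; ring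
        rw [k3]
        calc _ ≤ M * Real.exp (-A) * Real.exp (A * β * (1 / β)) := by gcongr
          _ = M := by
            rw [mul_assoc, ← Real.exp_add, mul_one_div, mul_div_assoc, div_self hβ0.ne']; simp
      · push Not at h
        have k2 : (U (x * I)).re ≤ 0 := by
          rw [hU, re_sum]
          exact sum_nonpos fun i hi => bar_re_nonpos hβ0 hre (by rw [him]; linarith [h i hi])
        exact (mul_le_of_le_one_right (norm_nonneg _) (Real.exp_le_one_iff.2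
          (mul_nonpos_of_nonneg_of_nonpos (by positivity) k2))).trans (hΦM _ hre.ge))
    (by linarith)
  rw [hn, ← le_mul_inv_iff₀ (Real.exp_pos _), ← Real.exp_neg] at H
  refine H.trans (mul_le_mul_of_nonneg_left (Real.exp_le_exp.2 (neg_le_neg ?_)) hM0)
  have h0 : 0 < w.re := by linarith
  have k1 : B.card * (3 * w.re / (32 * (w.re ^ 2 + X ^ 2))) ≤ (U w).re := by
    rw [hU, re_sum, ← nsmul_eq_mul]
    refine card_nsmul_le_sum _ _ _ fun j hj => le_bar_re hβ0 (by linarith) ?_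
    have := hX j hj
    have h2 := abs_le.1 hw'
    have : (0 : ℝ) ≤ j * b := by positivity
    rw [abs_le]; constructor <;> nlinarith
  refine le_trans ?_ (mul_le_mul_of_nonneg_left k1 (by positivity))
  rw [hβ, show A * (b / 8) * (B.card * (3 * w.re / (32 * (w.re ^ 2 + X ^ 2)))) =
    A * B.card * b * w.re / (256 / 3 * (w.re ^ 2 + X ^ 2)) by field_simp; ring]
  gcongr
  norm_num

lemma unit_close {z : ℂ} {r ρ : ℝ} (hz : ‖z‖ = 1) (hr : 0 ≤ r) (h : ‖r * z - 1‖ ≤ ρ) :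
    ‖z - 1‖ ≤ 2 * ρ := by
  have h1 : |r - 1| ≤ ρ := by
    have := abs_norm_sub_norm_le (r * z) 1
    rw [norm_mul, hz, norm_real, Real.norm_of_nonneg hr, norm_one, mul_one] at this
    exact this.trans h
  have e : z - 1 = (r * z - 1) - (r - 1 : ℝ) * z := by push_cast; ring
  rw [e]
  refine (norm_sub_le _ _).trans ?_
  rw [norm_mul, hz, norm_real, Real.norm_eq_abs]
  linarith

lemma exists_avoid {B : Finset ℕ} {N : ℕ} (h : 4 * B.card ≤ N) (c1 c2 c3 c4 : ℕ) :
    ∃ j ≤ N, j + c1 ∉ B ∧ j + c2 ∉ B ∧ j + c3 ∉ B ∧ j + c4 ∉ B := by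
  have key : ∀ c, ((range (N + 1)).filter fun j => j + c ∈ B).card ≤ B.card := fun c =>
    card_le_card_of_injOn (· + c) (fun j hj => (mem_filter.1 hj).2) fun a _ b _ h =>
      add_right_cancel h
  by_contra H
  push Not at H
  have : range (N + 1) ⊆ ((range (N + 1)).filter fun j => j + c1 ∈ B) ∪
      ((range (N + 1)).filter fun j => j + c2 ∈ B) ∪
      ((range (N + 1)).filter fun j => j + c3 ∈ B) ∪
      ((range (N + 1)).filter fun j => j + c4 ∈ B) := fun j hj => by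
    have := H j (by simpa [Nat.lt_succ_iff] using hj)
    simp only [mem_union, mem_filter, hj, true_and]
    tauto
  have h1 := (card_le_card this).trans ((card_union_le _ _).trans (add_le_add
    ((card_union_le _ _).trans (add_le_add ((card_union_le _ _).trans
      (add_le_add (key c1) (key c2))) (key c3))) (key c4)))
  rw [card_range] at h1
  omega

lemma unit_char {B : Finset ℕ} {N : ℕ} (hB : 4 * B.card ≤ N) {g : ℕ → ℂ} {ρ : ℝ}
    (h1 : ∀ j ≤ 3 * N + 1, j ∉ B → ‖g j‖ = 1)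
    (h2 : ∀ j, j + 1 ≤ 3 * N + 1 → j ∉ B → j + 1 ∉ B → ‖g (j + 1) - g j‖ ≤ ρ)
    (h3 : ∀ i j, i + j ≤ 3 * N + 1 → i ∉ B → j ∉ B → i + j ∉ B → ‖g i * g j - g (i + j)‖ ≤ ρ) :
    ∃ a ≤ N, a ∉ B ∧ ‖g a - 1‖ ≤ (3 * a + 1) * ρ := by
  have key : ∀ a ≤ N, ∀ i ≤ N, i ∉ B → i + a ∉ B → ‖g (i + a) - g i‖ ≤ 3 * a * ρ := by
    intro a
    induction a with
    | zero => simp
    | succ a ih =>
      intro ha i hi b1 b2
      obtain ⟨j, hj, c1, c2, c3, c4⟩ := exists_avoid hB 0 a (a + 1) (i + (a + 1))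
      have k1 := h3 (i + (a + 1)) j (by omega) b2 c1 (by rwa [add_comm])
      have k2 := h3 i (j + (a + 1)) (by omega) b1 c3 (by rwa [add_left_comm])
      have k3 := h2 (j + a) (by omega) c2 c3
      have k4 := ih (by omega) j hj c1 c2
      rw [show i + (j + (a + 1)) = i + (a + 1) + j by ring] at k2
      rw [← mul_one ‖g _ - g i‖, ← h1 j (by omega) c1, ← norm_mul,
        show (g (i + (a + 1)) - g i) * g j = (g (i + (a + 1)) * g j - g (i + (a + 1) + j)) -
          (g i * g (j + (a + 1)) - g (i + (a + 1) + j)) +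
          g i * ((g (j + a + 1) - g (j + a)) + (g (j + a) - g j)) by rw [add_assoc j]; ring]
      refine (norm_add_le _ _).trans ((add_le_add (norm_sub_le _ _) le_rfl).trans ?_)
      rw [norm_mul, h1 i (by omega) b1, one_mul]
      have := norm_add_le (g (j + a + 1) - g (j + a)) (g (j + a) - g j)
      push_cast
      linarith
  obtain ⟨a, ha, a1, -⟩ := exists_avoid hB 0 0 0 0
  obtain ⟨i, hi, i1, i2, -⟩ := exists_avoid hB 0 a 0 0
  refine ⟨a, ha, a1, ?_⟩
  have k1 := key a ha i hi i1 i2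
  have k2 := h3 i a (by omega) i1 a1 i2
  have k3 : ‖g i * (g a - 1)‖ = ‖g a - 1‖ := by rw [norm_mul, h1 i (by omega) i1, one_mul]
  rw [← k3, show g i * (g a - 1) = (g i * g a - g (i + a)) + (g (i + a) - g i) by ring]
  exact (norm_add_le _ _).trans (by linarith)

lemma ratio_close {U V : ℂ} {η δ : ℝ} (hδ : 0 < δ) (hV : δ ≤ ‖V‖) (h : ‖U - V‖ ≤ η) :
    ‖U / V - 1‖ ≤ η / δ := by
  have hV0 : V ≠ 0 := norm_pos_iff.1 (hδ.trans_le hV)
  rw [div_sub_one hV0, norm_div]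
  exact div_le_div₀ ((norm_nonneg _).trans h) h hδ hV

lemma rel_bound {B : Finset ℕ} {N : ℕ} (hB : 4 * B.card ≤ N) {u v : ℕ → ℂ} {ε η M : ℝ}
    (hε : 0 < ε) (hε1 : ε ≤ 1) (hη : η ≤ ε ^ 3 / 54) (hM : ∀ j, ‖v j‖ ≤ M)
    (hd : ∀ j ≤ 3 * N + 1, j ∉ B → ε ≤ ‖u j - v j‖)
    (h2 : ∀ i j, j ≤ i → i ≤ j + 1 → i ≤ 3 * N + 1 →
      ‖u i * (starRingEnd ℂ) (u j) - v i * (starRingEnd ℂ) (v j)‖ ≤ η)
    (h3 : ∀ i j, i + j ≤ 3 * N + 1 → ‖u i * u j * (starRingEnd ℂ) (u (i + j)) -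
      v i * v j * (starRingEnd ℂ) (v (i + j))‖ ≤ η) : ε ^ 4 ≤ 81 * (2 * N + 1) * M * η := by
  have hη0 : 0 ≤ η := (norm_nonneg _).trans (h2 0 0 le_rfl (by omega) (by omega))
  have hε3 : ε ^ 3 ≤ ε ^ 2 := pow_le_pow_of_le_one hε.le hε1 (by norm_num)
  have hv : ∀ j ≤ 3 * N + 1, j ∉ B → ε / 3 ≤ ‖v j‖ := fun j hj hb => by
    have k1 := (hd j hj hb).trans (norm_sub_le _ _)
    have k2 := (norm_sub_norm_le _ _).trans (h2 j j le_rfl (by omega) hj)
    rw [norm_mul, norm_mul, RCLike.norm_conj, RCLike.norm_conj] at k2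
    by_contra hc
    push Not at hc
    nlinarith [norm_nonneg (v j), norm_nonneg (u j)]
  obtain ⟨ρ, hρ⟩ : ∃ ρ, ρ = η / (ε / 3) ^ 3 := ⟨_, rfl⟩
  have hρ1 : ρ ≤ 1 / 2 := by rw [hρ, div_le_iff₀ (by positivity)]; linarith
  have hρ2 : η / (ε / 3) ^ 2 ≤ ρ := by
    rw [hρ]
    exact div_le_div_of_nonneg_left hη0 (by positivity)
      (pow_le_pow_of_le_one (by positivity) (by linarith) (by norm_num))
  obtain ⟨h, hh⟩ : ∃ h : ℕ → ℂ, h = fun j => u j / v j := ⟨_, rfl⟩
  have r2 : ∀ i j, j ≤ i → i ≤ j + 1 → i ≤ 3 * N + 1 → i ∉ B → j ∉ B →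
      ‖h i * (starRingEnd ℂ) (h j) - 1‖ ≤ ρ := fun i j a1 a2 a3 b1 b2 => by
    have := ratio_close (δ := (ε / 3) ^ 2) (by positivity) (by
      rw [norm_mul, RCLike.norm_conj, sq]
      exact mul_le_mul (hv i a3 b1) (hv j (by omega) b2) (by positivity) (norm_nonneg _))
      (h2 i j a1 a2 a3)
    rw [hh]
    simp only [map_div₀, div_mul_div_comm]
    exact this.trans hρ2
  have r3 : ∀ i j, i + j ≤ 3 * N + 1 → i ∉ B → j ∉ B → i + j ∉ B →
      ‖h i * h j * (starRingEnd ℂ) (h (i + j)) - 1‖ ≤ ρ := fun i j a1 b1 b2 b3 => by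
    have := ratio_close (δ := (ε / 3) ^ 3) (by positivity) (by
      rw [norm_mul, norm_mul, RCLike.norm_conj, pow_succ, sq]
      exact mul_le_mul (mul_le_mul (hv i (by omega) b1) (hv j (by omega) b2) (by positivity)
        (norm_nonneg _)) (hv _ a1 b3) (by positivity) (by positivity)) (h3 i j a1)
    rw [hh, hρ]
    simpa only [map_div₀, div_mul_div_comm] using this
  have n1 : ∀ j ≤ 3 * N + 1, j ∉ B → |‖h j‖ - 1| ≤ ρ := fun j a b => by
    have := (abs_norm_sub_norm_le _ _).trans (r2 j j le_rfl (by omega) a b b)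
    rw [norm_mul, RCLike.norm_conj, norm_one, abs_le] at this
    rw [abs_le]
    constructor <;> nlinarith [norm_nonneg (h j), this.1, this.2]
  have n2 : ∀ j ≤ 3 * N + 1, j ∉ B → (‖h j‖ : ℂ) ≠ 0 := fun j a b => by
    have := (abs_le.1 (n1 j a b)).1
    exact_mod_cast (show 0 < ‖h j‖ by linarith).ne'
  obtain ⟨g, hg⟩ : ∃ g : ℕ → ℂ, g = fun j => h j / ‖h j‖ := ⟨_, rfl⟩
  have g0 : ∀ j ≤ 3 * N + 1, j ∉ B → h j = ‖h j‖ * g j := fun j a b => by
    rw [hg]; field_simp [n2 j a b]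
  have g1 : ∀ j ≤ 3 * N + 1, j ∉ B → ‖g j‖ = 1 := fun j a b => by
    rw [hg]; simp only [norm_div, norm_real, norm_norm]
    exact div_self (by exact_mod_cast n2 j a b)
  have g2 : ∀ (z : ℂ) j, j ≤ 3 * N + 1 → j ∉ B →
      ‖z - g j‖ = ‖z * (starRingEnd ℂ) (g j) - 1‖ := fun z j a b => by
    have : g j * (starRingEnd ℂ) (g j) = 1 := by rw [mul_conj', g1 j a b]; simp
    rw [← this, ← sub_mul, norm_mul, RCLike.norm_conj, g1 j a b, mul_one]
  obtain ⟨a, ha, hb, H⟩ := unit_char (g := g) (ρ := 2 * ρ) hB g1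
    (fun j a b1 b2 => by
      rw [g2 _ j (by omega) b1]
      refine unit_close (r := ‖h (j + 1)‖ * ‖h j‖) (by
        rw [norm_mul, RCLike.norm_conj, g1 _ a b2, g1 _ (by omega) b1, one_mul]) (by positivity) ?_
      have := r2 (j + 1) j (by omega) le_rfl a b2 b1
      rw [g0 _ a b2, g0 j (by omega) b1] at this
      convert this using 3
      simp only [map_mul, conj_ofReal]; push_cast; ring)
    (fun i j a b1 b2 b3 => by
      rw [g2 _ _ a b3]
      refine unit_close (r := ‖h i‖ * ‖h j‖ * ‖h (i + j)‖) (by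
        rw [norm_mul, norm_mul, RCLike.norm_conj, g1 _ a b3, g1 _ (by omega) b1,
          g1 _ (by omega) b2, one_mul, one_mul]) (by positivity) ?_
      have := r3 i j a b1 b2 b3
      rw [g0 _ a b3, g0 j (by omega) b2, g0 i (by omega) b1] at this
      convert this using 3
      simp only [map_mul, conj_ofReal]; push_cast; ring)
  have ha' : a ≤ 3 * N + 1 := by omega
  have hρ0 : 0 ≤ ρ := by rw [hρ]; positivity
  have k1 : ‖h a - 1‖ ≤ (6 * N + 3) * ρ := by
    rw [show h a - 1 = (‖h a‖ - 1 : ℝ) * g a + (g a - 1) by push_cast; rw [sub_mul, ← g0 a ha' hb]; ring]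
    refine (norm_add_le _ _).trans ?_
    rw [norm_mul, g1 a ha' hb, norm_real, Real.norm_eq_abs]
    have : (a : ℝ) ≤ N := by exact_mod_cast ha
    nlinarith [n1 a ha' hb]
  have k2 : ε ≤ M * ((6 * N + 3) * ρ) := by
    have hv0 : v a ≠ 0 := norm_pos_iff.1 (lt_of_lt_of_le (by positivity) (hv a ha' hb))
    refine (hd a ha' hb).trans ?_
    rw [show u a - v a = v a * (h a - 1) by rw [hh]; field_simp, norm_mul]
    exact mul_le_mul (hM a) k1 (norm_nonneg _) ((norm_nonneg _).trans (hM a))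
  rw [hρ, ← mul_div_assoc, ← mul_div_assoc, le_div_iff₀ (by positivity)] at k2
  linarith

end Vale.Agent.P321
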