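import Vale.Agent.P321.UpAcc
import Vale.Agent.P321.UpGauss
import Vale.Agent.P321.UpTwo

/-! One zoom-out step: triple products of windowed transforms. -/

namespace Vale.Agent.P321

open Complex Finset

noncomputable def Wd (d : ℕ) (σ : ℝ) (w : ℂ) (f : List Bool → ℂ) (x : List Bool) : ℂ :=
  ∑ i ∈ range (x.length + 1), f (x.drop i) * exp (-σ * ((d : ℝ) - i : ℝ) ^ 2 - w * ((d : ℝ) - i : ℝ))

noncomputable def tl (e : ℕ) (β : ℂ) (f : List Bool → ℂ) (z : List Bool) : ℂ :=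
  sumT β f z - e * f z

lemma tl_eq {e i : ℕ} (he : e ≤ 1) (β : ℂ) (f : List Bool → ℂ) {x : List Bool}
    (hi : i ≤ x.length) :
    tl e β f (x.drop i) = ∑ j ∈ Ico (i + e) (x.length + 1), β ^ (j - i) * f (x.drop j) := by
  have h : sumT β f (x.drop i) = ∑ j ∈ Ico i (x.length + 1), β ^ (j - i) * f (x.drop j) := by
    rw [sumT_eq, sum_Ico_eq_sum_range, List.length_drop,
      show x.length + 1 - i = x.length - i + 1 by omega]
    exact sum_congr rfl fun u _ => by rw [List.drop_drop, Nat.add_sub_cancel_left]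
  rw [tl, h]
  interval_cases e
  · simp
  · rw [sum_eq_sum_Ico_succ_bot (by omega)]; simp

variable {γ0 κ : ℝ}

lemma Acc.tl (h0 : 0 ≤ γ0) {k e : ℕ} {a : ℝ} {f : List Bool → ℂ} (H : Acc γ0 κ k a f) (he : e ≤ 1)
    {β : ℂ} (hβ : DS γ0 κ (k + 1) β) : Acc γ0 κ (k + 1) (3 * a) (tl e β f) :=
  ((H.sumT h0 hβ).add ((H.succ h0).smul1 (u := -e) (by simpa using he))).of (by linarith)
    fun x => by simp [P321.tl, sub_eq_add_neg]

lemma tele3 (A B C : ℕ → ℂ) (n : ℕ) :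
    (∑ i ∈ range (n + 1), A i) * (∑ i ∈ range (n + 1), B i) * ∑ i ∈ range (n + 1), C i =
      ∑ i ∈ range (n + 1), A i * (∑ j ∈ Ico (i + 0) (n + 1), B j) * ∑ j ∈ Ico (i + 0) (n + 1), C j +
      ∑ i ∈ range (n + 1), B i * (∑ j ∈ Ico (i + 1) (n + 1), A j) * ∑ j ∈ Ico (i + 0) (n + 1), C j +
      ∑ i ∈ range (n + 1), C i * (∑ j ∈ Ico (i + 1) (n + 1), A j) *
        ∑ j ∈ Ico (i + 1) (n + 1), B j := by
  have := sum_range_sub' (fun i => (∑ j ∈ Ico i (n + 1), A j) * (∑ j ∈ Ico i (n + 1), B j) *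
    ∑ j ∈ Ico i (n + 1), C j) (n + 1)
  simp only [Ico_self, sum_empty, mul_zero, sub_zero, ← range_eq_Ico] at this
  rw [← this, ← sum_add_distrib, ← sum_add_distrib]
  refine sum_congr rfl fun i hi => ?_
  rw [mem_range] at hi
  rw [add_zero, sum_eq_sum_Ico_succ_bot hi A, sum_eq_sum_Ico_succ_bot hi B,
    sum_eq_sum_Ico_succ_bot hi C]
  ring

variable {x y : List Bool} {n d : ℕ}

lemma sum_cut (hd : d ≤ n) {F G : ℕ → ℂ} (h : ∀ i, d < i → F i = G i) :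
    ∑ i ∈ range (n + 1), F i - ∑ i ∈ range (n + 1), G i = ∑ i ∈ range (d + 1), (F i - G i) := by
  rw [← sum_sub_distrib]
  refine (sum_subset (range_subset_range.2 (by omega)) fun i _ hi => ?_).symm
  rw [h i (by simpa using hi), sub_self]

lemma Wd_sub (hx : x.length = n) (hy : y.length = n) (hd : d ≤ n)
    (h : ∀ i, d < i → x.drop i = y.drop i) (σ : ℝ) (w : ℂ) (f : List Bool → ℂ) :
    Wd d σ w f x - Wd d σ w f y = ∑ i ∈ range (d + 1), (f (x.drop i) - f (y.drop i)) *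
      exp (-σ * ((d : ℝ) - i : ℝ) ^ 2 - w * ((d : ℝ) - i : ℝ)) := by
  rw [Wd, Wd, hx, hy, sum_cut hd fun i hi => by rw [h i hi]]
  exact sum_congr rfl fun i _ => by ring

noncomputable def wtG (d : ℕ) (σ ω : ℝ) (i : ℕ) : ℂ :=
  exp (-σ * ((d : ℝ) - i : ℝ) ^ 2 - -(ω * I) * ((d : ℝ) - i : ℝ))

lemma exp_shape1 {p1 p2 p3 q1 q2 q3 A B C D E F G : ℂ} (h : A + B + C = D + E + F + G) :
    p1 * exp A * (p2 * exp B * (p3 * exp C)) - q1 * exp A * (q2 * exp B * (q3 * exp C)) =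
      (p1 * p2 * p3 - q1 * q2 * q3) * exp D * exp E * exp F * exp G := by
  have := congrArg exp h
  simp only [Complex.exp_add] at this
  linear_combination (p1 * p2 * p3 - q1 * q2 * q3) * this

lemma exp_shape2 {p1 p2 p3 q1 q2 q3 A B C D E F G : ℂ} (h : A + B + C = D + E + F + G) :
    (p1 * p2 * p3 - q1 * q2 * q3) * exp D * exp E * exp F * exp G =
      (p1 * (exp A * p2 * (exp B * p3)) - q1 * (exp A * q2 * (exp B * q3))) * exp C := by
  have := congrArg exp h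
  simp only [Complex.exp_add] at this
  linear_combination -(p1 * p2 * p3 - q1 * q2 * q3) * this

lemma anchor (hx : x.length = n) (hy : y.length = n) (hd : d ≤ n)
    (h : ∀ i, d < i → x.drop i = y.drop i) {f1 f2 f3 : List Bool → ℂ} {K σ σ' r X τ : ℝ}
    (b1 : ∀ z, z.length ≤ n → ‖f1 z‖ ≤ K) (b2 : ∀ z, z.length ≤ n → ‖f2 z‖ ≤ K)
    (b3 : ∀ z, z.length ≤ n → ‖f3 z‖ ≤ K) {e2 e3 : ℕ} (he2 : e2 ≤ 1) (he3 : e3 ≤ 1)
    (hσ : 0 < σ) (hσ' : 0 ≤ σ') (hσ2 : 2 * σ' ≤ σ) (hr : 0 ≤ r) (hX : 0 ≤ X) (ω1 ω2 ω3 : ℝ)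
    (H : ∀ θ1 θ2 θ3 : ℝ, |θ1| ≤ X → |θ2| ≤ X → |θ3| ≤ X →
      ‖Wd d σ' (r - (ω1 + ω2 + ω3 + θ1 + θ2 + θ3 : ℝ) * I) (fun z => f1 z *
          tl e2 (exp (-r + (-(ω2 + θ2) : ℝ) * I)) f2 z *
          tl e3 (exp (-r + (-(ω3 + θ3) : ℝ) * I)) f3 z) x -
        Wd d σ' (r - (ω1 + ω2 + ω3 + θ1 + θ2 + θ3 : ℝ) * I) (fun z => f1 z *
          tl e2 (exp (-r + (-(ω2 + θ2) : ℝ) * I)) f2 z *
          tl e3 (exp (-r + (-(ω3 + θ3) : ℝ) * I)) f3 z) y‖ ≤ τ) :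
    ‖∑ i ∈ range (n + 1), f1 (x.drop i) * wtG d σ ω1 i *
        (∑ j ∈ Ico (i + e2) (n + 1), f2 (x.drop j) * wtG d σ ω2 j) *
        ∑ j ∈ Ico (i + e3) (n + 1), f3 (x.drop j) * wtG d σ ω3 j -
      ∑ i ∈ range (n + 1), f1 (y.drop i) * wtG d σ ω1 i *
        (∑ j ∈ Ico (i + e2) (n + 1), f2 (y.drop j) * wtG d σ ω2 j) *
        ∑ j ∈ Ico (i + e3) (n + 1), f3 (y.drop j) * wtG d σ ω3 j‖ ≤
      Real.exp (5 * r ^ 2 / σ) *
        (τ + 6 * Real.exp (-X ^ 2 / (8 * σ)) * (2 * K ^ 3 * (n + 1) ^ 3)) := by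
  have hK : 0 ≤ K := (norm_nonneg _).trans (b1 [] (by simp))
  have hτ : 0 ≤ τ := (norm_nonneg _).trans (H 0 0 0 (by simpa using hX) (by simpa using hX)
    (by simpa using hX))
  let s : Finset (Σ _ : ℕ, ℕ × ℕ) :=
    (range (d + 1)).sigma fun i => Ico (i + e2) (n + 1) ×ˢ Ico (i + e3) (n + 1)
  let P : List Bool → (Σ _ : ℕ, ℕ × ℕ) → ℂ := fun z j =>
    f1 (z.drop j.1) * f2 (z.drop j.2.1) * f3 (z.drop j.2.2)
  let t1 : (Σ _ : ℕ, ℕ × ℕ) → ℝ := fun j => (d : ℝ) - j.1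
  let t2 : (Σ _ : ℕ, ℕ × ℕ) → ℝ := fun j => (d : ℝ) - j.2.1
  let t3 : (Σ _ : ℕ, ℕ × ℕ) → ℝ := fun j => (d : ℝ) - j.2.2
  have hs : ∀ j ∈ s, j.1 ≤ d ∧ j.1 ≤ j.2.1 ∧ j.1 ≤ j.2.2 := fun j hj => by
    simp only [s, mem_sigma, mem_range, mem_product, mem_Ico] at hj
    omega
  have hP : ∀ z, z.length = n → ∀ j, ‖P z j‖ ≤ K ^ 3 := fun z hz j => by
    simp only [P, norm_mul]
    have l : ∀ i, (z.drop i).length ≤ n := fun i => by rw [List.length_drop]; omega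
    rw [pow_succ, sq]
    exact mul_le_mul (mul_le_mul (b1 _ (l _)) (b2 _ (l _)) (norm_nonneg _) hK) (b3 _ (l _))
      (norm_nonneg _) (by positivity)
  have key := gauss_mix3 s t1 t2 t3 (fun j => (P x j - P y j) *
      exp ((-σ' * t1 j ^ 2 - r * t1 j - r * (t1 j - t2 j) - r * (t1 j - t3 j) : ℝ) +
        (ω1 * t1 j + ω2 * t2 j + ω3 * t3 j : ℝ) * I))
    (σ1 := σ - σ') (σ := σ) (B := τ) (S := 2 * K ^ 3 * (n + 1) ^ 3) (3 * r) (-r) (-r)
    (by linarith) (by linarith) hX ?_ ?_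
  · refine le_trans (le_of_eq ?_) (key.trans ?_)
    · rw [sum_cut hd fun i hi => by
        rw [h i hi, sum_congr rfl fun j hj => by rw [h j (by have := (mem_Ico.1 hj).1; omega)],
          sum_congr (s₁ := Ico (i + e3) (n + 1)) rfl fun j hj => by
            rw [h j (by have := (mem_Ico.1 hj).1; omega)]]]
      congr 1
      rw [sum_sigma]
      refine sum_congr rfl fun i _ => ?_
      rw [sum_product, mul_assoc, mul_assoc (f1 (y.drop i) * _), sum_mul_sum, sum_mul_sum, mul_sum,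
        mul_sum, ← sum_sub_distrib]
      refine sum_congr rfl fun j _ => ?_
      rw [mul_sum, mul_sum, ← sum_sub_distrib]
      refine sum_congr rfl fun l _ => ?_
      exact exp_shape1 (by simp only [t1, t2, t3]; push_cast; ring)
    · refine mul_le_mul_of_nonneg_right (Real.exp_le_exp.2 ?_) (by positivity)
      have : (3 * r) ^ 2 / (4 * (σ - σ')) ≤ (3 * r) ^ 2 / (2 * σ) :=
        div_le_div_of_nonneg_left (sq_nonneg _) (by positivity) (by linarith)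
      refine (add_le_add (add_le_add this le_rfl) le_rfl).trans (le_of_eq ?_)
      field_simp; ring
  · refine (sum_le_card_nsmul _ _ (2 * K ^ 3) fun j hj => ?_).trans ?_
    · obtain ⟨k1, k2, k3⟩ := hs j hj
      have k1' : (j.1 : ℝ) ≤ d := by exact_mod_cast k1
      have k2' : (j.1 : ℝ) ≤ j.2.1 := by exact_mod_cast k2
      have k3' : (j.1 : ℝ) ≤ j.2.2 := by exact_mod_cast k3
      rw [norm_mul, Complex.exp_add, norm_mul, norm_exp_ofReal_mul_I, norm_exp_ofReal, mul_one]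
      refine (mul_le_of_le_one_right (norm_nonneg _) (Real.exp_le_one_iff.2 ?_)).trans
        ((norm_sub_le _ _).trans (by linarith [hP x hx j, hP y hy j]))
      have := mul_nonneg hσ' (sq_nonneg (t1 j))
      have := mul_nonneg hr (show 0 ≤ t1 j by simp only [t1]; linarith)
      have := mul_nonneg hr (show 0 ≤ t1 j - t2 j by simp only [t1, t2]; linarith)
      have := mul_nonneg hr (show 0 ≤ t1 j - t3 j by simp only [t1, t3]; linarith)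
      linarith
    · rw [nsmul_eq_mul, mul_comm]
      refine mul_le_mul_of_nonneg_left ?_ (by positivity)
      have : s.card ≤ (n + 1) ^ 3 := by
        rw [card_sigma]
        refine (sum_le_card_nsmul _ _ ((n + 1) * (n + 1)) fun i _ => ?_).trans ?_
        · rw [card_product, Nat.card_Ico, Nat.card_Ico]
          exact Nat.mul_le_mul (by omega) (by omega)
        · rw [card_range, smul_eq_mul, pow_succ', sq]
          exact Nat.mul_le_mul_right _ (by omega)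
      exact_mod_cast this
  · intro θ1 θ2 θ3 a1 a2 a3
    refine le_trans (le_of_eq ?_) (H θ1 θ2 θ3 a1 a2 a3)
    rw [Wd_sub hx hy hd h, sum_sigma]
    congr 1
    refine sum_congr rfl fun i hi => ?_
    have hi' : i ≤ n := by have := mem_range.1 hi; omega
    rw [tl_eq he2 _ _ (hx ▸ hi'), tl_eq he3 _ _ (hx ▸ hi'), tl_eq he2 _ _ (hy ▸ hi'),
      tl_eq he3 _ _ (hy ▸ hi'), hx, hy, sum_product, mul_assoc, mul_assoc (f1 (y.drop i)),
      sum_mul_sum, sum_mul_sum, mul_sum, mul_sum, ← sum_sub_distrib, sum_mul]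
    refine sum_congr rfl fun j hj => ?_
    rw [mul_sum, mul_sum, ← sum_sub_distrib, sum_mul]
    refine sum_congr rfl fun l hl => ?_
    have hj' : i ≤ j := by have := (mem_Ico.1 hj).1; omega
    have hl' : i ≤ l := by have := (mem_Ico.1 hl).1; omega
    rw [← Complex.exp_nat_mul, ← Complex.exp_nat_mul, Nat.cast_sub hj', Nat.cast_sub hl']
    exact exp_shape2 (by simp only [t1, t2, t3]; push_cast; ring)

lemma Acc.bound' (h0 : 0 ≤ γ0) {k : ℕ} {a : ℝ} {f : List Bool → ℂ} (H : Acc γ0 κ k a f)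
    (z : List Bool) (hz : z.length ≤ n) : ‖f z‖ ≤ a * (1 + n) ^ k := by
  refine (H.bound h0 z).trans ?_
  have := H.nonneg
  gcongr

lemma prod3 (h0 : 0 ≤ γ0) (hκ : 0 ≤ κ) (hx : x.length = n) (hy : y.length = n) (hd : d ≤ n)
    (h : ∀ i, d < i → x.drop i = y.drop i) {k : ℕ} {a σ σ' r X X' Z τ : ℝ}
    (hσ : 0 < σ) (hσ' : 0 ≤ σ') (hσ2 : 2 * σ' ≤ σ) (hr : 0 ≤ r) (hr0 : r ≤ γ0) (hX : 0 ≤ X)
    (hκr : κ * (X' + X) ^ 2 ≤ r)
    (H : ∀ g, Acc γ0 κ (3 * k + 2) (3 ^ (5 * k + 5) * a ^ 3) g → ∀ w : ℂ, w.re = r →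
      |w.im| ≤ Z + 3 * X → ‖Wd d σ' w g x - Wd d σ' w g y‖ ≤ τ)
    {f1 f2 f3 : List Bool → ℂ} (a1 : Acc γ0 κ k a f1) (a2 : Acc γ0 κ k a f2)
    (a3 : Acc γ0 κ k a f3) {ω1 ω2 ω3 : ℝ} (o1 : |ω1| ≤ X') (o2 : |ω2| ≤ X') (o3 : |ω3| ≤ X')
    (o : |ω1 + ω2 + ω3| ≤ Z) :
    ‖Wd d σ (-(ω1 * I)) f1 x * Wd d σ (-(ω2 * I)) f2 x * Wd d σ (-(ω3 * I)) f3 x -
      Wd d σ (-(ω1 * I)) f1 y * Wd d σ (-(ω2 * I)) f2 y * Wd d σ (-(ω3 * I)) f3 y‖ ≤
      3 * (Real.exp (5 * r ^ 2 / σ) * (τ + 6 * Real.exp (-X ^ 2 / (8 * σ)) *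
        (2 * (a * (1 + n) ^ k) ^ 3 * (n + 1) ^ 3))) := by
  have hD : ∀ ω θ : ℝ, |ω| ≤ X' → |θ| ≤ X →
      DS γ0 κ (k + 1) (exp (-r + (-(ω + θ) : ℝ) * I)) := fun ω θ h1 h2 => by
    have hk : (1 : ℝ) ≤ (k + 1 : ℕ) := by simp
    refine ⟨r, -(ω + θ), rfl, hr, hr0.trans (le_mul_of_one_le_left h0 hk),
      le_trans ?_ (hκr.trans (le_mul_of_one_le_left hr hk))⟩
    rw [neg_sq, ← sq_abs]
    exact mul_le_mul_of_nonneg_left (pow_le_pow_left₀ (abs_nonneg _)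
      ((abs_add_le _ _).trans (add_le_add h1 h2)) 2) hκ
  have key : ∀ {g1 g2 g3 : List Bool → ℂ} {ν1 ν2 ν3 : ℝ} {e2 e3 : ℕ}, Acc γ0 κ k a g1 →
      Acc γ0 κ k a g2 → Acc γ0 κ k a g3 → |ν2| ≤ X' → |ν3| ≤ X' → |ν1 + ν2 + ν3| ≤ Z →
      e2 ≤ 1 → e3 ≤ 1 → _ := fun {g1 g2 g3 ν1 ν2 ν3 e2 e3} b1 b2 b3 p2 p3 p he2 he3 =>
    anchor (τ := τ) hx hy hd h (b1.bound' h0) (b2.bound' h0) (b3.bound' h0) he2 he3 hσ hσ' hσ2 hr hX
      ν1 ν2 ν3 fun θ1 θ2 θ3 q1 q2 q3 => H _ (by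
        have := Acc.mul h0 hκ _ le_rfl (Acc.mul h0 hκ _ le_rfl b1 (b2.tl h0 he2 (hD _ _ p2 q2)))
          (b3.tl h0 he3 (hD _ _ p3 q3))
        rw [show k + (k + 1) + (k + 1) = 3 * k + 2 by ring] at this
        exact this.of (le_of_eq (by ring)) fun _ => rfl) _ (by simp) (by
        have e : ((r : ℂ) - (ν1 + ν2 + ν3 + θ1 + θ2 + θ3 : ℝ) * I).im =
          -(ν1 + ν2 + ν3 + θ1 + θ2 + θ3) := by simp
        rw [e, abs_neg]
        rw [abs_le] at p q1 q2 q3 ⊢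
        constructor <;> linarith [p.1, p.2, q1.1, q1.2, q2.1, q2.2, q3.1, q3.2])
  have k1 := key (e2 := 0) (e3 := 0) a1 a2 a3 o2 o3 o zero_le_one zero_le_one
  have k2 := key (ν1 := ω2) (e2 := 1) (e3 := 0) a2 a1 a3 o1 o3 (by rwa [add_comm ω2]) le_rfl
    zero_le_one
  have k3 := key (ν1 := ω3) (e2 := 1) (e3 := 1) a3 a1 a2 o1 o2 (by rwa [add_assoc, add_comm])
    le_rfl le_rfl
  have e : ∀ z f (ω : ℝ), z.length = n → Wd d σ (-(ω * I)) f z =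
      ∑ i ∈ range (n + 1), f (z.drop i) * wtG d σ ω i := fun z f ω hz => by rw [Wd, hz]; rfl
  rw [e x _ _ hx, e x _ _ hx, e x _ _ hx, e y _ _ hy, e y _ _ hy, e y _ _ hy, tele3, tele3,
    add_sub_add_comm, add_sub_add_comm]
  exact (norm_add₃_le).trans (by linarith)

lemma Wd_conj {g : List Bool → ℂ} (hg : ∀ z, (starRingEnd ℂ) (g z) = g z) (σ ω : ℝ)
    (x : List Bool) :
    Wd d σ (-((-ω : ℝ) * I)) g x = (starRingEnd ℂ) (Wd d σ (-(ω * I)) g x) := by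
  rw [Wd, Wd, map_sum]
  refine sum_congr rfl fun i _ => ?_
  rw [map_mul, hg, ← exp_conj]
  congr 2
  simp [sub_eq_add_neg]

lemma norm_wt_le {σ : ℝ} (hσ : 0 ≤ σ) (ω t : ℝ) : ‖exp (-σ * (t : ℂ) ^ 2 - -(ω * I) * t)‖ ≤ 1 := by
  rw [norm_exp, Real.exp_le_one_iff]
  simpa [← ofReal_pow] using mul_nonneg hσ (sq_nonneg t)

lemma few_bad (hx : x.length = n) (hy : y.length = n) (hd : d ≤ n)
    (h : ∀ i, d < i → x.drop i = y.drop i) {g : List Bool → ℂ} {K M σ A b X0 : ℝ}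
    (hg : ∀ z, z.length ≤ n → ‖g z‖ ≤ K) (hM : 2 * K * (n + 1) ≤ M) (hσ : 0 ≤ σ) (hA : 0 ≤ A)
    (hb : 0 < b) (B : Finset ℕ) (hB : ∀ j ∈ B, ∀ ω : ℝ, j * b ≤ ω → ω ≤ (j + 1) * b →
      ‖Wd d σ (-(ω * I)) g x - Wd d σ (-(ω * I)) g y‖ ≤ M * Real.exp (-A))
    (hX : ∀ j ∈ B, (j + 1) * b ≤ X0) {w : ℂ} (hw : b ≤ w.re) (hw' : |w.im| ≤ X0) :
    ‖Wd d σ w g x - Wd d σ w g y‖ ≤
      M * Real.exp (-(A * B.card * b * w.re / (100 * (w.re ^ 2 + X0 ^ 2)))) := by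
  have hK : 0 ≤ K := (norm_nonneg _).trans (hg [] (by simp))
  have e : ∀ w : ℂ, Wd d σ w g x - Wd d σ w g y = ∑ i ∈ range (d + 1),
      ((g (x.drop i) - g (y.drop i)) * exp (-σ * ((d : ℝ) - i : ℝ) ^ 2)) *
        exp (-w * ((d : ℝ) - i : ℝ)) := fun w => by
    rw [Wd_sub hx hy hd h]
    exact sum_congr rfl fun i _ => by rw [mul_assoc, ← Complex.exp_add]; congr 2; ring
  rw [e]
  refine two_const _ (fun i : ℕ => (d : ℝ) - i) (fun i hi => ?_) _ (le_trans ?_ hM) hA hb B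
    (fun j hj ω h1 h2 => ?_) hX hw hw'
  · have : (i : ℝ) ≤ d := by exact_mod_cast Nat.lt_succ_iff.1 (mem_range.1 hi)
    linarith
  · refine (sum_le_card_nsmul _ _ (2 * K) fun i _ => ?_).trans ?_
    · rw [norm_mul]
      refine (mul_le_of_le_one_right (norm_nonneg _) ?_).trans ((norm_sub_le _ _).trans ?_)
      · simpa using norm_wt_le hσ 0 ((d : ℝ) - i)
      · linarith [hg (x.drop i) (by rw [List.length_drop]; omega),
          hg (y.drop i) (by rw [List.length_drop]; omega)]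
    · rw [card_range, nsmul_eq_mul, mul_comm]
      gcongr
      exact_mod_cast Nat.succ_le_succ hd
  · have := hB j hj ω h1 h2
    rw [e] at this
    convert this using 5
    ring

set_option maxHeartbeats 1000000 in
lemma zoom (h0 : 0 ≤ γ0) (hκ : 0 ≤ κ) (hx : x.length = n) (hy : y.length = n) (hd : d ≤ n)
    (h : ∀ i, d < i → x.drop i = y.drop i) {k N : ℕ} {a σ σ' r X X0 τ τ' M A b : ℝ}
    {f : List Bool → ℂ} {w0 : ℂ} (hf : Acc γ0 κ k a f) (hk : 1 ≤ k) (ha : 1 ≤ a)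
    (hτ : τ ≤ ‖Wd d σ w0 f x - Wd d σ w0 f y‖) (hb : 0 < b) (hw : b ≤ w0.re) (hw' : |w0.im| ≤ X0)
    (hN : (3 * N + 2) * b ≤ X0) (hM : 2 * (a * (1 + n) ^ k) * (n + 1) ≤ M) (hA : 0 ≤ A)
    (hMA : M * Real.exp (-A) ≤ 1)
    (hA' : M * Real.exp (-(A * (N / 4) * b * w0.re / (100 * (w0.re ^ 2 + X0 ^ 2)))) < τ / 2)
    (hσ : 0 < σ) (hσ' : 0 ≤ σ') (hσ2 : 2 * σ' ≤ σ) (hr : 0 ≤ r) (hr0 : r ≤ γ0) (hX : 0 ≤ X)
    (hκr : κ * ((3 * N + 2) * b + X) ^ 2 ≤ r) (hτ' : 0 ≤ τ')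
    (hη : 81 * (2 * N + 1) * M * (3 * (Real.exp (5 * r ^ 2 / σ) *
      (τ' + 6 * Real.exp (-X ^ 2 / (8 * σ)) * M ^ 3))) < (M * Real.exp (-A)) ^ 4) :
    ∃ g, Acc γ0 κ (3 * k + 2) (3 ^ (5 * k + 5) * a ^ 3) g ∧ ∃ w : ℂ, w.re = r ∧
      |w.im| ≤ 2 * b + 3 * X ∧ τ' ≤ ‖Wd d σ' w g x - Wd d σ' w g y‖ := by
  classical
  by_contra H
  push Not at H
  obtain ⟨K, hK⟩ : ∃ K, K = a * (1 + n) ^ k := ⟨_, rfl⟩
  have hn0 : (0 : ℝ) ≤ n := n.cast_nonneg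
  have hK1 : 1 ≤ K := hK ▸ one_le_mul_of_one_le_of_one_le ha (one_le_pow₀ (by linarith))
  have hM1 : 1 ≤ M := by rw [← hK] at hM; nlinarith
  obtain ⟨g, hg, hgr, hgτ⟩ : ∃ g, Acc γ0 κ k a g ∧ (∀ z, (starRingEnd ℂ) (g z) = g z) ∧
      τ / 2 ≤ ‖Wd d σ w0 g x - Wd d σ w0 g y‖ := by
    have e : ∀ z, Wd d σ w0 f z = Wd d σ w0 (fun t => (f t).re) z +
        I * Wd d σ w0 (fun t => (f t).im) z := fun z => by
      rw [Wd, Wd, Wd, mul_sum, ← sum_add_distrib]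
      exact sum_congr rfl fun i _ => by rw [← mul_assoc, ← add_mul, mul_comm I, re_add_im]
    rw [e, e, add_sub_add_comm, ← mul_sub] at hτ
    have k1 := hτ.trans (norm_add_le _ _)
    rw [norm_mul, norm_I, one_mul] at k1
    rcases le_total (τ / 2) ‖Wd d σ w0 (fun t => (f t).re) x - Wd d σ w0 (fun t => (f t).re) y‖
      with h1 | h1
    · refine ⟨_, ((hf.smul (1 / 2)).add (hf.conj.smul (1 / 2))).of (by simp; linarith)
        fun z => ?_, fun z => conj_ofReal _, h1⟩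
      rw [re_eq_add_conj]; simp; ring
    · refine ⟨fun t => (f t).im, ((hf.smul (1 / (2 * I))).add (hf.conj.smul (-1 / (2 * I)))).of
        (by simp; linarith) fun z => ?_, fun z => conj_ofReal _, by linarith⟩
      rw [im_eq_sub_conj]; simp only [Pi.add_apply]; ring
  obtain ⟨ε, hε⟩ : ∃ ε, ε = M * Real.exp (-A) := ⟨_, rfl⟩
  have hε0 : 0 < ε := by rw [hε]; positivity
  let B := (range (3 * N + 2)).filter fun j : ℕ => ∀ ω : ℝ, j * b ≤ ω → ω ≤ (j + 1) * b →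
    ‖Wd d σ (-(ω * I)) g x - Wd d σ (-(ω * I)) g y‖ ≤ ε
  have hj : ∀ j : ℕ, j ≤ 3 * N + 1 → (j + 1) * b ≤ (3 * N + 2) * b := fun j hj => by
    have : (j : ℝ) ≤ (3 * N + 1 : ℕ) := by exact_mod_cast hj
    push_cast at this
    exact mul_le_mul_of_nonneg_right (by linarith) hb.le
  have hB : 4 * B.card ≤ N := by
    by_contra hc
    have k1 := few_bad hx hy hd h (hg.bound' h0) hM hσ.le hA hb B
      (fun j hj => hε ▸ (mem_filter.1 hj).2)
      (fun j h => (hj j (by have := mem_range.1 (mem_filter.1 h).1; omega)).trans hN) hw hw'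
    refine absurd (hgτ.trans (k1.trans ?_)) (not_le.2 hA')
    have : (N : ℝ) / 4 ≤ B.card := by
      have : (N : ℝ) ≤ (4 * B.card : ℕ) := by exact_mod_cast (not_le.1 hc).le
      push_cast at this; linarith
    have : 0 < w0.re := by linarith
    gcongr
  have hω : ∀ j : ℕ, ∃ ω : ℝ, j * b ≤ ω ∧ ω ≤ (j + 1) * b ∧ (j ≤ 3 * N + 1 → j ∉ B →
      ε ≤ ‖Wd d σ (-(ω * I)) g x - Wd d σ (-(ω * I)) g y‖) := fun j => by
    by_cases h1 : j ≤ 3 * N + 1 ∧ j ∉ B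
    · have h2 := h1.2
      simp only [B, mem_filter, mem_range, not_and, not_forall, not_le] at h2
      obtain ⟨ω, k1, k2, k3⟩ := h2 (by omega)
      exact ⟨ω, k1, k2, fun _ _ => k3.le⟩
    · exact ⟨j * b, le_rfl, by linarith, fun a b => absurd ⟨a, b⟩ h1⟩
  choose ω o1 o2 o3 using hω
  have o4 : ∀ j, 0 ≤ ω j := fun j => le_trans (by positivity) (o1 j)
  have o5 : ∀ j ≤ 3 * N + 1, |ω j| ≤ (3 * N + 2) * b := fun j h => by
    rw [abs_of_nonneg (o4 j)]; exact (o2 j).trans (hj j h)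
  obtain ⟨η, hη'⟩ : ∃ η, η = 3 * (Real.exp (5 * r ^ 2 / σ) *
      (τ' + 6 * Real.exp (-X ^ 2 / (8 * σ)) * M ^ 3)) := ⟨_, rfl⟩
  have hη0 : 0 ≤ η := by rw [hη']; positivity
  have P : ∀ {f1 f2 f3 : List Bool → ℂ}, Acc γ0 κ k a f1 → Acc γ0 κ k a f2 → Acc γ0 κ k a f3 →
      ∀ {ω1 ω2 ω3 : ℝ}, |ω1| ≤ (3 * N + 2) * b → |ω2| ≤ (3 * N + 2) * b →
      |ω3| ≤ (3 * N + 2) * b → |ω1 + ω2 + ω3| ≤ 2 * b → _ ≤ η :=
    fun a1 a2 a3 _ _ _ p1 p2 p3 p => (prod3 h0 hκ hx hy hd h hσ hσ' hσ2 hr hr0 hX hκr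
      (fun g hg w h1 h2 => (H g hg w h1 h2).le) a1 a2 a3 p1 p2 p3 p).trans (by
        rw [hη', ← hK]
        rw [← hK] at hM
        have : 2 * K ^ 3 * (n + 1) ^ 3 ≤ M ^ 3 := by
          refine le_trans ?_ (pow_le_pow_left₀ (by positivity) hM 3)
          have : 0 ≤ K ^ 3 * (n + 1) ^ 3 := by positivity
          nlinarith
        gcongr)
  rw [← hη', ← hε] at hη
  rw [← hε] at hMA
  refine absurd (rel_bound (u := fun j => Wd d σ (-(ω j * I)) g x)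
    (v := fun j => Wd d σ (-(ω j * I)) g y) (M := M) (η := η) hB hε0 hMA ?_ (fun j => ?_) o3
    (fun i j h1 h2 h3 => ?_) fun i j h1 => ?_) (not_le.2 hη)
  · have k1 : ε ^ 4 ≤ ε ^ 3 := pow_le_pow_of_le_one hε0.le hMA (by norm_num)
    have k2 : 1 * η ≤ (2 * N + 1) * M * η := mul_le_mul_of_nonneg_right
      (one_le_mul_of_one_le_of_one_le (by linarith [N.cast_nonneg (α := ℝ)]) hM1) hη0
    linarith
  · refine (norm_sum_le _ _).trans ((sum_le_card_nsmul _ _ K fun i _ => ?_).trans ?_)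
    · rw [norm_mul, hK]
      exact (mul_le_of_le_one_right (norm_nonneg _) (norm_wt_le hσ.le _ _)).trans
        (hg.bound' h0 _ (by rw [List.length_drop]; omega))
    · rw [card_range, nsmul_eq_mul, hy]
      rw [← hK] at hM
      push_cast
      nlinarith
  · have k1 := P hg hg ((Acc.const h0).mono h0 hk |>.of ha fun _ => rfl) (ω3 := 0)
      (o5 i h3) (abs_neg (ω j) ▸ o5 j (by omega)) (by simp; positivity) (by
        have : (j : ℝ) ≤ i := by exact_mod_cast h1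
        have : (i : ℝ) ≤ j + 1 := by exact_mod_cast h2
        rw [abs_le]
        have := mul_le_mul_of_nonneg_right this hb.le
        have := mul_le_mul_of_nonneg_right ‹(j : ℝ) ≤ i› hb.le
        constructor <;> linarith [o1 i, o2 i, o1 j, o2 j])
    have e1 : Wd d σ (-((0 : ℝ) * I)) (fun _ => 1) y = Wd d σ (-((0 : ℝ) * I)) (fun _ => 1) x := by
      rw [Wd, Wd, hx, hy]
    have e2 : 1 ≤ ‖Wd d σ (-((0 : ℝ) * I)) (fun _ => 1) x‖ := by
      refine le_trans ?_ (re_le_norm _)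
      rw [Wd, re_sum, hx]
      refine le_trans ?_ (single_le_sum (fun i _ => ?_) (mem_range.2 (Nat.lt_succ_of_le hd)))
      · simp
      · simp only [ofReal_zero, zero_mul, neg_zero, sub_zero, one_mul]
        rw [← ofReal_pow, ← ofReal_neg, ← ofReal_mul, exp_ofReal_re]
        exact (Real.exp_pos _).le
    rw [e1, ← sub_mul, norm_mul, Wd_conj hgr, Wd_conj hgr] at k1
    exact (le_mul_of_one_le_right (norm_nonneg _) e2).trans k1
  · have k1 := P hg hg hg (o5 i (by omega)) (o5 j (by omega)) (abs_neg (ω (i + j)) ▸ o5 _ h1) (by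
        have := o1 (i + j)
        have := o2 (i + j)
        push_cast at *
        rw [abs_le]
        constructor <;> linarith [o1 i, o2 i, o1 j, o2 j])
    rwa [Wd_conj hgr, Wd_conj hgr] at k1

end Vale.Agent.P321
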